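import Vale.Agent.P305E.Lists

/-!
# Engine, part 7: persistent arrays (binary tries)
-/

namespace Vale.Agent.P305E

section defs
variable {α β : Type}

/-- Left subtree (a leaf stands for an infinite constant tree). -/
def BT.lft : BT α β → BT α β
  | .leaf d => .leaf d
  | .node _ l _ => l

/-- Right subtree. -/
def BT.rgt : BT α β → BT α β
  | .leaf d => .leaf d
  | .node _ _ r => r

/-- The entry at the root. -/
def BT.top : BT α α → α
  | .leaf d => d
  | .node x _ _ => x

/-- The entry number `i`. -/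
def tget : BT α α → ℕ → α
  | .leaf d, _ => d
  | .node x l r, i => if i = 0 then x else if i % 2 = 1 then tget l ((i - 1) / 2)
      else tget r ((i - 1) / 2)

theorem tget_eq (t : BT α α) (i : ℕ) : tget t i = if i = 0 then t.top else
    if i % 2 = 1 then tget t.lft ((i - 1) / 2) else tget t.rgt ((i - 1) / 2) := by
  cases t <;> simp [tget, BT.top, BT.lft, BT.rgt]

/-- Change of the entry number `i`. -/
def tset (y : α) (i : ℕ) (t : BT α α) : BT α α :=
  if h : i = 0 then .node y t.lft t.rgt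
  else if i % 2 = 1 then .node t.top (tset y ((i - 1) / 2) t.lft) t.rgt
  else .node t.top t.lft (tset y ((i - 1) / 2) t.rgt)
termination_by i
decreasing_by all_goals omega

theorem tget_tset (y : α) (i : ℕ) (t : BT α α) (j : ℕ) :
    tget (tset y i t) j = if j = i then y else tget t j := by
  induction i using Nat.strong_induction_on generalizing t j with
  | _ i ih =>
    rw [tset, tget_eq t j]
    by_cases h0 : i = 0
    · subst h0
      simp only [dite_true, tget]
      split_ifs <;> rfl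
    · have hlt : (i - 1) / 2 < i := by omega
      simp only [h0, dite_false]
      by_cases h1 : i % 2 = 1
      · simp only [h1, if_true, tget, ih _ hlt]
        split_ifs <;> first | rfl | omega
      · simp only [h1, if_false, tget, ih _ hlt]
        split_ifs <;> first | rfl | omega

/-- Arrays: total functions on `ℕ`. -/
@[ext] structure Arr (α : Type) where
  get : ℕ → α

/-- The constant array. -/
def Arr.const (d : α) : Arr α := ⟨fun _ => d⟩

/-- Change of one entry. -/
def Arr.set (a : Arr α) (i : ℕ) (x : α) : Arr α := ⟨Function.update a.get i x⟩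

@[simp] theorem Arr.get_const (d : α) (i : ℕ) : (Arr.const d).get i = d := rfl
theorem Arr.get_set (a : Arr α) (i : ℕ) (x : α) (j : ℕ) :
    (a.set i x).get j = if j = i then x else a.get j := by
  simp [Arr.set, Function.update_apply]
@[simp] theorem Arr.get_set_self (a : Arr α) (i : ℕ) (x : α) : (a.set i x).get i = x := by
  simp [Arr.set]
@[simp] theorem Arr.get_set_ne (a : Arr α) {i j : ℕ} (h : j ≠ i) (x : α) :
    (a.set i x).get j = a.get j := by simp [Arr.set, h]
theorem Arr.set_get_fun (a : Arr α) (i : ℕ) (x : α) :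
    (a.set i x).get = Function.update a.get i x := rfl

/-- Rebuilding a tree along a path. -/
def plug (t : BT α β) (f : Bool × α × BT α β) : BT α β :=
  if f.1 = true then .node f.2.1 t f.2.2 else .node f.2.1 f.2.2 t

theorem size_half {i : ℕ} (h : i ≠ 0) : Nat.size ((i - 1) / 2) + 1 ≤ Nat.size i := by
  have h1 := Nat.lt_size_self i
  have h2 : 0 < Nat.size i := Nat.size_pos.2 (by omega)
  have h3 : Nat.size ((i - 1) / 2) ≤ Nat.size i - 1 := by
    rw [Nat.size_le]
    obtain ⟨s, hs⟩ : ∃ s, Nat.size i = s + 1 := ⟨Nat.size i - 1, by omega⟩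
    rw [hs, pow_succ] at h1
    rw [hs, Nat.add_sub_cancel]
    omega
  omega

end defs

variable {α β γ : Type} [Rep α] [Rep β] [Rep γ]

@[fun_prop] theorem Pure.lft {t : α → BT β γ} (ht : Pure t) : Pure fun a => (t a).lft :=
  (show Pure fun a => P305E.caseT (t a) (fun d => BT.leaf d) fun _ l _ => l by fun_prop).of_eq
    fun a => by cases t a <;> rfl

@[fun_prop] theorem Pure.rgt {t : α → BT β γ} (ht : Pure t) : Pure fun a => (t a).rgt :=
  (show Pure fun a => P305E.caseT (t a) (fun d => BT.leaf d) fun _ _ r => r by fun_prop).of_eq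
    fun a => by cases t a <;> rfl

@[fun_prop] theorem Pure.top {t : α → BT β β} (ht : Pure t) : Pure fun a => (t a).top :=
  (show Pure fun a => P305E.caseT (t a) (fun d => d) fun x _ _ => x by fun_prop).of_eq
    fun a => by cases t a <;> rfl

@[fun_prop] theorem Pure.plug {t : α → BT β γ} {f : α → Bool × β × BT β γ} (ht : Pure t)
    (hf : Pure f) : Pure fun a => plug (t a) (f a) := by
  unfold P305E.plug
  fun_prop

theorem pure_tget : Pure fun p : BT β β × ℕ => tget p.1 p.2 := by
  have h : Impl fun p : BT β β × ℕ => loopM (fun q : BT β β × ℕ =>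
      if q.2 = 0 then pure (.inr q.1.top) else
      pure (.inl (if q.2 % 2 = 1 then q.1.lft else q.1.rgt, (q.2 - 1) / 2))) (p.2 + 1) p := by
    fun_prop
  refine Pure.of_impl h 1 fun B p hB _ ⟨v, _, _, _, _, hv⟩ => ?_
  have h1 : Nat.size p.2 ≤ Nat.size B := Nat.size_le_size hv.2
  refine Tri.loopM (fun q t => tget q.1 q.2 = tget p.1 p.2 ∧ t + Nat.size q.2 ≤ Nat.size p.2)
    (fun q => q.2) ?_ (by simp) (by simp)
  rintro ⟨s, i⟩ t ⟨hI, ht⟩
  simp only [Tri_ite, Tri_pure, Sum.elim_inl, Sum.elim_inr] at hI ht ⊢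
  rw [tget_eq] at hI
  refine ⟨fun h0 => ?_, fun h0 => ?_⟩
  · exact ⟨by simpa [h0] using hI, by simp only [lg, pow_one]; omega⟩
  · have := size_half h0
    refine ⟨⟨?_, by omega⟩, by omega⟩
    rw [← hI, if_neg h0]
    split_ifs <;> rfl

theorem pure_tset : Pure fun p : BT β β × ℕ × β => tset p.2.2 p.2.1 p.1 := by
  have h : Impl fun p : BT β β × ℕ × β =>
      loopM (fun q : BT β β × ℕ × List (Bool × β × BT β β) =>
      if q.2.1 = 0 then pure (.inr (BT.node p.2.2 q.1.lft q.1.rgt, q.2.2)) else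
      if q.2.1 % 2 = 1 then
        pure (.inl (q.1.lft, (q.2.1 - 1) / 2, (true, q.1.top, q.1.rgt) :: q.2.2))
      else pure (.inl (q.1.rgt, (q.2.1 - 1) / 2, (false, q.1.top, q.1.lft) :: q.2.2)))
      (p.2.1 + 1) (p.1, p.2.1, []) >>= fun r => foldP plug r.1 r.2 := by
    fun_prop
  refine Pure.of_impl h 2 fun B p hB _ ⟨v, _, _, _, _, _, _, _, hv, _⟩ => ?_
  have h1 : Nat.size p.2.1 ≤ Nat.size B := Nat.size_le_size hv.2
  refine Tri.bind (P := fun r t => r.2.foldl plug r.1 = tset p.2.2 p.2.1 p.1 ∧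
    t ≤ Nat.size p.2.1 ∧ r.2.length = t) ?_ ?_
  · refine Tri.loopM (fun q t => q.2.2.foldl plug (tset p.2.2 q.2.1 q.1) = tset p.2.2 p.2.1 p.1 ∧
      t + Nat.size q.2.1 ≤ Nat.size p.2.1 ∧ q.2.2.length = t) (fun q => q.2.1) ?_ (by simp)
      (by simp)
    rintro ⟨s, i, st⟩ t ⟨hI, ht, hl⟩
    simp only [Tri_ite, Tri_pure, Sum.elim_inl, Sum.elim_inr] at hI ht hl ⊢
    rw [tset] at hI
    refine ⟨fun h0 => ?_, fun h0 => ?_⟩
    · exact ⟨by simpa [h0] using hI, by omega, by omega⟩
    · have := size_half h0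
      refine ⟨fun h1 => ⟨⟨?_, by omega, by simp [hl]⟩, by omega⟩,
        fun h1 => ⟨⟨?_, by omega, by simp [hl]⟩, by omega⟩⟩
      · simpa [h0, h1, plug] using hI
      · simpa [h0, h1, plug] using hI
  · rintro r t ⟨h2, h3, h4⟩
    simp only [Tri_foldP]
    exact ⟨h2, by simp only [lg]; nlinarith⟩

theorem raw_R {B : ℕ} : ∀ {t : BT V V} {v : V}, R B v t → R 0 v t
  | .leaf _, _, h => h
  | .node _ _ _, _, ⟨x, y, z, e, h1, h2, h3⟩ => ⟨x, y, z, e, h1, raw_R h2, raw_R h3⟩

instance : Rep (Arr α) :=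
  ⟨fun B v a => ∃ t : BT V V, R 0 v t ∧ ∀ i, R B (tget t i) (a.get i),
    fun h ⟨t, h1, h2⟩ => ⟨t, h1, fun i => Rep.mono h (h2 i)⟩⟩

@[fun_prop] theorem Pure.arrConst {d : α → β} (hd : Pure d) : Pure fun a => Arr.const (d a) :=
  (Comp.pair (Comp.lit (.nat 0)) hd).mono 0 fun _ _ _ _ _ ⟨_, y, e, h, h'⟩ =>
    ⟨.leaf y, ⟨y, h ▸ e, rfl⟩, fun _ => h'⟩

@[fun_prop] theorem Pure.arrGet {f : α → Arr β} {i : α → ℕ} (hf : Pure f) (hi : Grow i) :
    Pure fun a => (f a).get (i a) := by
  obtain ⟨k, hi⟩ := hi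
  refine Comp.comp (Comp.pair hf hi) (pure_tget (β := V)) k ?_
  rintro B a v _ ⟨x, y, rfl, ⟨t, h1, h2⟩, hy⟩
  refine ⟨(t, i a), ⟨x, y, rfl, Rep.mono (Nat.zero_le _) h1, hy⟩, fun w hw => ?_⟩
  obtain rfl : w = tget t (i a) := hw
  exact h2 _

@[fun_prop] theorem Grow.arrGet {f : α → Arr β} {i : α → ℕ} (hf : Pure f) (hi : Grow i) :
    Grow fun a => (f a).get (i a) := (Pure.arrGet hf hi).grow

@[fun_prop] theorem Pure.arrSet {f : α → Arr β} {i : α → ℕ} {x : α → β} (hf : Pure f)
    (hi : Grow i) (hx : Pure x) : Pure fun a => (f a).set (i a) (x a) := by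
  obtain ⟨k, hi⟩ := hi
  refine Comp.comp (Comp.pair hf (Comp.pair hi hx)) (pure_tset (β := V)) k ?_
  rintro B a v _ ⟨u, _, rfl, ⟨t, h1, h2⟩, y, z, rfl, hy, hz⟩
  refine ⟨(t, i a, z), ⟨u, _, rfl, Rep.mono (Nat.zero_le _) h1, y, z, rfl, hy, rfl⟩,
    fun w hw => ⟨_, raw_R hw, fun j => ?_⟩⟩
  simp only [tget_tset, Arr.get_set]
  split_ifs
  · exact hz
  · exact h2 j

/-- The array with the entries of a list (and `d` beyond). -/
def ofListP {β : Type} (d : β) (l : List β) : M (Arr β) :=
  .need l.length (pay l.length ⟨fun i => l.getD i d⟩)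

@[simp] theorem Tri_ofListP {β : Type} {c : Cx} (d : β) (l : List β) (Q : Arr β → ℕ → Prop) :
    Tri c (ofListP d l) Q ↔ l.length ≤ c.B ∧ Q ⟨fun i => l.getD i d⟩ l.length := by
  simp only [ofListP, Tri_need, Tri_pay]

@[fun_prop] theorem Impl.ofListP {d : α → β} {l : α → List β} (hd : Pure d) (hl : Pure l) :
    Impl fun a => ofListP (d a) (l a) := by
  have h : Impl fun a => P305E.foldM (fun (s : Arr β × ℕ) x =>
      P305E.num (s.2 + 1) >>= fun i => Pure.pure (s.1.set s.2 x, i)) (Arr.const (d a), 0) (l a)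
      >>= fun s => Pure.pure s.1 := by fun_prop
  refine h.need_pay 2 fun B a _ _ _ hn => ?_
  refine (Tri.foldM (fun pre s t => s = (⟨fun i => pre.getD i (d a)⟩, pre.length) ∧
    t = pre.length) (by simp [Arr.const]) ?_).bind ?_
  · rintro pre x rest _ _ e ⟨rfl, rfl⟩
    rw [e] at hn
    simp only [List.length_append, List.length_cons] at hn
    simp only [Tri_bind, Tri_num, Tri_pure]
    refine ⟨by omega, ?_, by simp⟩
    simp only [List.length_append, List.length_singleton, Prod.mk.injEq, and_true]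
    ext i
    rw [Arr.get_set]
    split_ifs with h
    · simp [h]
    · simp only [List.getD_eq_getElem?_getD]
      rcases lt_or_gt_of_ne h with h | h
      · rw [List.getElem?_append_left h]
      · rw [List.getElem?_eq_none h.le, List.getElem?_eq_none (by simp; omega)]
  · rintro _ _ ⟨rfl, rfl⟩
    simp only [Tri_pure, true_and]
    exact lg_slack _ 1 _ _ (by omega)

end Vale.Agent.P305E
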