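import Vale.Agent.P305E.Top
import Vale.Agent.P305E.Arr

/-!
# Engine: reading a graph, writing a matching, and the top theorem for lists of edges
-/

namespace Vale.Agent.P305E

open Vale.Agent.P305 Vale.Agent.P305.MM Finset

variable {n : ℕ}

/-- Adjacency of numbers. -/
def GA (G : SimpleGraph (Fin n)) (u v : ℕ) : Prop :=
  ∃ (hu : u < n) (hv : v < n), G.Adj ⟨u, hu⟩ ⟨v, hv⟩

theorem GA.symm {G : SimpleGraph (Fin n)} {u v : ℕ} (h : GA G u v) : GA G v u :=
  let ⟨a, b, h⟩ := h; ⟨b, a, h.symm⟩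

theorem GA.ne {G : SimpleGraph (Fin n)} {u v : ℕ} (h : GA G u v) : u ≠ v := by
  obtain ⟨a, b, h⟩ := h
  exact fun e => h.ne (Fin.ext e)

theorem GA.lt {G : SimpleGraph (Fin n)} {u v : ℕ} (h : GA G u v) : u < n := h.1
theorem GA.lt' {G : SimpleGraph (Fin n)} {u v : ℕ} (h : GA G u v) : v < n := h.2.1

theorem GA_fin {G : SimpleGraph (Fin n)} (u v : Fin n) : GA G u v ↔ G.Adj u v :=
  ⟨fun ⟨_, _, h⟩ => h, fun h => ⟨u.2, v.2, h⟩⟩

/-- `adj` holds the adjacency lists of `G`. -/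
structure AdjOK (G : SimpleGraph (Fin n)) (adj : Arr (List ℕ)) : Prop where
  mem : ∀ u v, v ∈ adj.get u ↔ GA G u v
  nodup : ∀ u, (adj.get u).Nodup
  len : ∑ u ∈ range n, (adj.get u).length = 2 * G.edgeSet.ncard

/-- The number of vertices and the adjacency lists. -/
def readAdj (inp : List ℕ) : M (ℕ × Arr (List ℕ)) :=
  ofListP 0 inp >>= fun a =>
    iterM (fun (s : Arr (List ℕ)) v => rangeP (a.get (v + 2) - a.get (v + 1)) >>= fun r =>
      mapP (fun i => a.get (a.get 0 + 2 + (a.get (v + 1) + i))) r >>= fun l => pure (s.set v l))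
      (Arr.const []) (a.get 0) >>= fun adj => pure (a.get 0, adj)

@[fun_prop] theorem impl_readAdj : Impl readAdj := by
  unfold readAdj
  fun_prop

theorem upTo_succ {G : SimpleGraph (Fin n)} (L : AdjLists G) {k : ℕ} (hk : k < n) :
    L.upTo (k + 1) = L.upTo k ++ L.nbrs ⟨k, hk⟩ := by
  unfold AdjLists.upTo
  rw [List.take_add_one, List.flatMap_append]
  simp [hk]

theorem upTo_pre {G : SimpleGraph (Fin n)} (L : AdjLists G) (k : ℕ) :
    ∃ r, L.upTo n = L.upTo k ++ r := by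
  refine ⟨((List.finRange n).drop k).flatMap L.nbrs, ?_⟩
  rw [IO.upTo_self, AdjLists.upTo, ← List.flatMap_append, List.take_append_drop]

theorem slice_eq {G : SimpleGraph (Fin n)} (L : AdjLists G) {k : ℕ} (hk : k < n) :
    (List.range (L.nbrs ⟨k, hk⟩).length).map
      (fun i => L.encode.getD (n + 2 + ((L.upTo k).length + i)) 0) =
      (L.nbrs ⟨k, hk⟩).map Fin.val := by
  obtain ⟨r, hr⟩ := upTo_pre L (k + 1)
  refine List.ext_getElem (by simp) fun i h1 h2 => ?_
  simp only [List.length_map, List.length_range] at h1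
  simp only [List.getElem_map, List.getElem_range, IO.encode_adj]
  simp only [hr, upTo_succ L hk, List.getD_eq_getElem?_getD, List.getElem?_map, List.append_assoc]
  rw [List.getElem?_append_right (by omega), Nat.add_sub_cancel_left,
    List.getElem?_append_left h1, List.getElem?_eq_getElem h1]
  rfl

theorem readAdj_tri {c : Cx} {G : SimpleGraph (Fin n)} (L : AdjLists G)
    (hB : n + 2 + 2 * G.edgeSet.ncard ≤ c.B) :
    Tri c (readAdj L.encode) fun r t => r.1 = n ∧ AdjOK G r.2 ∧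
      t ≤ 2 * n + 2 + 6 * G.edgeSet.ncard := by
  have hl : L.encode.length = n + 2 + 2 * G.edgeSet.ncard := by
    rw [IO.encode_length, IO.upTo_length]
  simp only [readAdj, Tri_bind, Tri_ofListP, IO.encode_zero, Tri_pure]
  refine ⟨by omega, (Tri.iterM (fun k (s : Arr (List ℕ)) t =>
    (∀ v, s.get v = if h : v < k ∧ v < n then (L.nbrs ⟨v, h.2⟩).map Fin.val else []) ∧
    t = k + 2 * (L.upTo k).length) (by simp [AdjLists.upTo]) ?_).mono ?_⟩
  · rintro k s _ hk ⟨h1, rfl⟩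
    simp only [Tri_bind, Tri_rangeP, Tri_mapP, Tri_pure]
    rw [show k + 2 = (k + 1) + 1 from rfl, IO.encode_off L (by omega : k + 1 ≤ n),
      IO.encode_off L hk.le, upTo_succ L hk, List.length_append, Nat.add_sub_cancel_left,
      slice_eq L hk]
    refine ⟨fun v => ?_, by simp only [List.length_range]; omega⟩
    rw [Arr.get_set, h1]
    by_cases e : v = k
    · subst e
      simp [hk]
    · rw [if_neg e]
      exact dite_congr (propext (by omega)) (fun _ => rfl) fun _ => rfl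
  · rintro s _ ⟨h1, rfl⟩
    refine ⟨trivial, ⟨fun u v => ?_, fun u => ?_, ?_⟩, by rw [IO.upTo_length]; omega⟩
    · rw [h1]
      split_ifs with h
      · simp only [List.mem_map, L.mem_iff]
        exact ⟨fun ⟨w, a, b⟩ => b ▸ ⟨h.1, w.2, a⟩, fun ⟨_, b, a⟩ => ⟨⟨v, b⟩, a, rfl⟩⟩
      · exact ⟨fun a => by simp at a, fun a => (h ⟨a.lt, a.lt⟩).elim⟩
    · rw [h1]
      split_ifs with h
      · exact (L.nodup _).map Fin.val_injective
      · simp
    · rw [← IO.upTo_length L]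
      have : ∀ k, k ≤ n → ∑ u ∈ range k, (s.get u).length = (L.upTo k).length := by
        intro k
        induction k with
        | zero => simp [AdjLists.upTo]
        | succ k ih =>
          intro hk
          rw [sum_range_succ, ih (by omega), upTo_succ L hk, h1, dif_pos ⟨hk, hk⟩]
          simp
      exact this n le_rfl

/-! ### Matchings as lists of pairs -/

/-- The ends of the pairs. -/
def pends (l : List (ℕ × ℕ)) : List ℕ := l.map Prod.fst ++ l.map Prod.snd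

/-- `l` is a list of pairwise disjoint edges of `G`. -/
def IsGM (G : SimpleGraph (Fin n)) (l : List (ℕ × ℕ)) : Prop :=
  (∀ p ∈ l, GA G p.1 p.2) ∧ (pends l).Nodup

/-- A longest list of disjoint edges. -/
def MaxGM (G : SimpleGraph (Fin n)) (l : List (ℕ × ℕ)) : Prop :=
  IsGM G l ∧ ∀ l', IsGM G l' → l'.length ≤ l.length

theorem mem_pends {l : List (ℕ × ℕ)} {x : ℕ} : x ∈ pends l ↔ ∃ p ∈ l, x = p.1 ∨ x = p.2 := by
  simp only [pends, List.mem_append, List.mem_map]
  constructor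
  · rintro (⟨p, a, b⟩ | ⟨p, a, b⟩)
    · exact ⟨p, a, Or.inl b.symm⟩
    · exact ⟨p, a, Or.inr b.symm⟩
  · rintro ⟨p, a, b | b⟩
    · exact Or.inl ⟨p, a, b.symm⟩
    · exact Or.inr ⟨p, a, b.symm⟩

theorem pends_cons (p : ℕ × ℕ) (l : List (ℕ × ℕ)) :
    (pends (p :: l)).Perm (p.1 :: p.2 :: pends l) := by
  simp only [pends, List.map_cons, List.cons_append]
  exact List.Perm.cons _ List.perm_middle

theorem nodup_pends_cons {p : ℕ × ℕ} {l : List (ℕ × ℕ)} :
    (pends (p :: l)).Nodup ↔ p.1 ≠ p.2 ∧ p.1 ∉ pends l ∧ p.2 ∉ pends l ∧ (pends l).Nodup := by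
  rw [(pends_cons p l).nodup_iff]
  simp [and_assoc]

theorem pends_uniq {l : List (ℕ × ℕ)} (h : (pends l).Nodup) {p q : ℕ × ℕ} (hp : p ∈ l)
    (hq : q ∈ l) {x : ℕ} (h1 : x = p.1 ∨ x = p.2) (h2 : x = q.1 ∨ x = q.2) : p = q := by
  induction l with
  | nil => simp at hp
  | cons r l ih =>
    obtain ⟨-, a, b, d⟩ := nodup_pends_cons.1 h
    rcases List.mem_cons.1 hp with rfl | hp' <;> rcases List.mem_cons.1 hq with rfl | hq'
    · rfl
    · have := mem_pends.2 ⟨q, hq', h2⟩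
      rcases h1 with rfl | rfl <;> contradiction
    · have := mem_pends.2 ⟨p, hp', h1⟩
      rcases h2 with rfl | rfl <;> contradiction
    · exact ih d hp' hq'

theorem IsGM.length_le {G : SimpleGraph (Fin n)} {l : List (ℕ × ℕ)} (h : IsGM G l) :
    2 * l.length ≤ n := by
  have h1 : (pends l).toFinset ⊆ range n := fun x hx => by
    obtain ⟨p, a, rfl | rfl⟩ := mem_pends.1 (List.mem_toFinset.1 hx)
    · exact mem_range.2 (h.1 p a).lt
    · exact mem_range.2 (h.1 p a).lt'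
  have h2 := card_le_card h1
  rw [List.toFinset_card_of_nodup h.2, card_range] at h2
  simp only [pends, List.length_append, List.length_map] at h2
  omega

/-- The subgraph of a list of edges. -/
def subOf (G : SimpleGraph (Fin n)) (l : List (ℕ × ℕ)) : G.Subgraph where
  verts := {v | (v : ℕ) ∈ pends l}
  Adj u v := G.Adj u v ∧ (((u : ℕ), (v : ℕ)) ∈ l ∨ ((v : ℕ), (u : ℕ)) ∈ l)
  adj_sub h := h.1
  edge_vert h := mem_pends.2 (h.2.elim (fun a => ⟨_, a, Or.inl rfl⟩) fun a => ⟨_, a, Or.inr rfl⟩)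
  symm := ⟨fun _ _ h => ⟨h.1.symm, h.2.symm⟩⟩

theorem IsGM.matching {G : SimpleGraph (Fin n)} {l : List (ℕ × ℕ)} (h : IsGM G l) :
    (subOf G l).IsMatching := by
  intro v hv
  obtain ⟨p, hp, hv⟩ := mem_pends.1 hv
  obtain ⟨a, b, hab⟩ := h.1 p hp
  have hne := (h.1 p hp).ne
  rcases hv with hv | hv
  · obtain rfl : v = ⟨p.1, a⟩ := Fin.ext hv
    refine ⟨⟨p.2, b⟩, ⟨hab, Or.inl hp⟩, fun w hw => Fin.ext ?_⟩
    rcases hw.2 with hw | hw
    · exact congrArg Prod.snd (pends_uniq h.2 hw hp (Or.inl rfl) (Or.inl rfl))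
    · exact (hne (congrArg Prod.snd (pends_uniq h.2 hw hp (Or.inr rfl) (Or.inl rfl)))).elim
  · obtain rfl : v = ⟨p.2, b⟩ := Fin.ext hv
    refine ⟨⟨p.1, a⟩, ⟨hab.symm, Or.inr hp⟩, fun w hw => Fin.ext ?_⟩
    rcases hw.2 with hw | hw
    · exact (hne (congrArg Prod.fst (pends_uniq h.2 hw hp (Or.inl rfl) (Or.inr rfl))).symm).elim
    · exact congrArg Prod.fst (pends_uniq h.2 hw hp (Or.inr rfl) (Or.inr rfl))

theorem matching_verts {G : SimpleGraph (Fin n)} {M : G.Subgraph} (h : M.IsMatching) :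
    M.verts.ncard = 2 * M.edgeSet.ncard := by
  classical
  have h1 := M.spanningCoe.sum_degrees_eq_twice_card_edges
  have h2 : M.edgeSet.ncard = M.spanningCoe.edgeFinset.card := by
    rw [← Set.ncard_coe_finset, SimpleGraph.coe_edgeFinset]
    congr 1
  have h3 : ∀ v, M.spanningCoe.degree v = if v ∈ M.verts then 1 else 0 := fun v => by
    split_ifs with hv
    · obtain ⟨w, a, b⟩ := h hv
      rw [SimpleGraph.degree, card_eq_one]
      exact ⟨w, by ext x; simpa using ⟨b x, fun e => e ▸ a⟩⟩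
    · rw [SimpleGraph.degree, card_eq_zero]
      ext x
      simpa using fun a => hv (M.edge_vert a)
  rw [h2, ← h1, Set.ncard_eq_toFinset_card']
  simp only [h3, sum_boole, Nat.cast_id]
  congr 1
  ext v
  simp

theorem IsGM.ncard {G : SimpleGraph (Fin n)} {l : List (ℕ × ℕ)} (h : IsGM G l) :
    (subOf G l).edgeSet.ncard = l.length := by
  have h1 := matching_verts h.matching
  have h2 : (subOf G l).verts.ncard = (pends l).length := by
    rw [← List.toFinset_card_of_nodup h.2, ← Set.ncard_coe_finset,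
      ← Set.ncard_image_of_injective _ Fin.val_injective]
    congr 1
    ext x
    simp only [Set.mem_image, List.coe_toFinset, Set.mem_ofPred_eq]
    refine ⟨fun ⟨v, a, b⟩ => b ▸ a, fun hx => ?_⟩
    obtain ⟨p, a, e | e⟩ := mem_pends.1 hx
    · exact ⟨⟨x, e ▸ (h.1 p a).lt⟩, hx, rfl⟩
    · exact ⟨⟨x, e ▸ (h.1 p a).lt'⟩, hx, rfl⟩
  simp only [pends, List.length_append, List.length_map] at h2
  omega

theorem exists_isGM {G : SimpleGraph (Fin n)} {M : G.Subgraph} (h : M.IsMatching) :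
    ∃ l, IsGM G l ∧ l.length = M.edgeSet.ncard ∧
      ∀ u v : Fin n, M.Adj u v → ((u : ℕ), (v : ℕ)) ∈ l ∨ ((v : ℕ), (u : ℕ)) ∈ l := by
  classical
  set S : Finset (Fin n × Fin n) := univ.filter fun p => M.Adj p.1 p.2 ∧ p.1 < p.2 with hS
  set l := S.toList.map fun p => ((p.1 : ℕ), (p.2 : ℕ)) with hl
  have hm : ∀ p, p ∈ l ↔ ∃ u v : Fin n, M.Adj u v ∧ u < v ∧ p = ((u : ℕ), (v : ℕ)) := fun p => by
    simp only [hl, hS, List.mem_map, mem_toList, mem_filter, mem_univ, true_and, Prod.exists]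
    exact ⟨fun ⟨u, v, a, b⟩ => ⟨u, v, a.1, a.2, b.symm⟩, fun ⟨u, v, a, b, e⟩ => ⟨u, v, ⟨a, b⟩, e.symm⟩⟩
  have hu : ∀ {u v w : Fin n}, M.Adj u v → M.Adj u w → v = w := fun a b =>
    (h (M.edge_vert a)).unique a b
  have hG : IsGM G l := by
    refine ⟨fun p hp => ?_, ?_⟩
    · obtain ⟨u, v, a, -, rfl⟩ := (hm p).1 hp
      exact (GA_fin u v).2 (M.adj_sub a)
    · have hn : l.Nodup := S.nodup_toList.map fun p q e => by
        simp only [Prod.mk.injEq] at e
        exact Prod.ext (Fin.ext e.1) (Fin.ext e.2)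
      refine List.nodup_append.2 ⟨hn.map_on ?_, hn.map_on ?_, ?_⟩
      · intro p hp q hq e
        obtain ⟨u, v, a, -, rfl⟩ := (hm p).1 hp
        obtain ⟨u', v', a', -, rfl⟩ := (hm q).1 hq
        obtain rfl : u = u' := Fin.ext e
        rw [hu a a']
      · intro p hp q hq e
        obtain ⟨u, v, a, -, rfl⟩ := (hm p).1 hp
        obtain ⟨u', v', a', -, rfl⟩ := (hm q).1 hq
        obtain rfl : v = v' := Fin.ext e
        rw [hu a.symm a'.symm]
      · intro x hx y hy e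
        obtain ⟨p, hp, rfl⟩ := List.mem_map.1 hx
        obtain ⟨q, hq, rfl⟩ := List.mem_map.1 hy
        obtain ⟨u, v, a, b, rfl⟩ := (hm p).1 hp
        obtain ⟨u', v', a', b', rfl⟩ := (hm q).1 hq
        obtain rfl : u = v' := Fin.ext e
        rw [hu a a'.symm] at b
        exact lt_asymm b b'
  have hA : ∀ u v : Fin n, M.Adj u v → ((u : ℕ), (v : ℕ)) ∈ l ∨ ((v : ℕ), (u : ℕ)) ∈ l := by
    intro u v a
    rcases lt_or_gt_of_ne (M.adj_sub a).ne with b | b
    · exact Or.inl ((hm _).2 ⟨u, v, a, b, rfl⟩)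
    · exact Or.inr ((hm _).2 ⟨v, u, a.symm, b, rfl⟩)
  refine ⟨l, hG, ?_, hA⟩
  rw [← hG.ncard]
  congr 1
  ext e
  induction e using Sym2.ind with
  | _ x y =>
    simp only [SimpleGraph.Subgraph.mem_edgeSet]
    refine ⟨fun a => ?_, fun a => ⟨M.adj_sub a, hA x y a⟩⟩
    rcases a.2 with a | a
    · obtain ⟨u, v, a, -, e⟩ := (hm _).1 a
      simp only [Prod.mk.injEq] at e
      rwa [Fin.ext e.1, Fin.ext e.2]
    · obtain ⟨u, v, a, -, e⟩ := (hm _).1 a
      simp only [Prod.mk.injEq] at e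
      rw [Fin.ext e.1, Fin.ext e.2]
      exact a.symm

theorem MaxGM.maximum {G : SimpleGraph (Fin n)} {l : List (ℕ × ℕ)} (h : MaxGM G l) :
    IsMaximumMatching G (subOf G l) := by
  refine ⟨h.1.matching, fun M' hM' => ?_⟩
  obtain ⟨l', a, b, -⟩ := exists_isGM hM'
  rw [h.1.ncard, ← b]
  exact h.2 l' a

/-- The list of mates. -/
def mateP (n : ℕ) (l : List (ℕ × ℕ)) : M (List ℕ) :=
  foldM (fun (s : Arr ℕ) p => num (p.1 + 1) >>= fun a => num (p.2 + 1) >>= fun b =>
    pure ((s.set p.1 b).set p.2 a)) (Arr.const 0) l >>= fun s =>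
    rangeP n >>= fun r => mapP (fun v => s.get v) r

@[fun_prop] theorem impl_mateP : Impl fun p : ℕ × List (ℕ × ℕ) => mateP p.1 p.2 := by
  unfold mateP
  fun_prop

theorem mateP_tri {c : Cx} {G : SimpleGraph (Fin n)} {l : List (ℕ × ℕ)} (h : IsGM G l)
    (hB : n ≤ c.B) : Tri c (mateP n l) fun out t =>
      Represents (fun i => out.getD i 0) (subOf G l) ∧ t ≤ 3 * n := by
  refine (Tri.foldM (fun pre (s : Arr ℕ) t => t = pre.length ∧ (∀ v, v ∉ pends pre → s.get v = 0) ∧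
    ∀ p ∈ pre, s.get p.1 = p.2 + 1 ∧ s.get p.2 = p.1 + 1) (by simp) ?_).bind ?_
  · rintro pre p rest s _ e ⟨rfl, h1, h2⟩
    have hp : p ∈ l := by simp [e]
    have a := h.1 p hp
    have hne := a.ne
    simp only [Tri_bind, Tri_num, Tri_pure]
    refine ⟨a.lt.trans_le hB, a.lt'.trans_le hB, by simp, fun v hv => ?_, fun q hq => ?_⟩
    · have b1 : v ≠ p.1 := fun e => hv (mem_pends.2 ⟨p, by simp, Or.inl e⟩)
      have b2 : v ≠ p.2 := fun e => hv (mem_pends.2 ⟨p, by simp, Or.inr e⟩)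
      rw [Arr.get_set_ne _ b2, Arr.get_set_ne _ b1]
      refine h1 v fun b => hv ?_
      obtain ⟨q, x, y⟩ := mem_pends.1 b
      exact mem_pends.2 ⟨q, by simp [x], y⟩
    · by_cases e' : q = p
      · subst e'
        simp [hne]
      · have hq' : q ∈ pre := by simpa [e'] using hq
        have hql : q ∈ l := by simp [e, hq']
        have b : ∀ x, (x = q.1 ∨ x = q.2) → x ≠ p.1 ∧ x ≠ p.2 := fun x hx =>
          ⟨fun y => e' (pends_uniq h.2 hql hp hx (Or.inl y)),
            fun y => e' (pends_uniq h.2 hql hp hx (Or.inr y))⟩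
        have b1 := b _ (Or.inl rfl)
        have b2 := b _ (Or.inr rfl)
        rw [Arr.get_set_ne _ b1.2, Arr.get_set_ne _ b1.1, Arr.get_set_ne _ b2.2,
          Arr.get_set_ne _ b2.1]
        exact h2 q hq'
  · rintro s _ ⟨rfl, h1, h2⟩
    have := h.length_le
    simp only [Tri_bind, Tri_rangeP, Tri_mapP, List.length_range]
    refine ⟨fun v => ?_, by omega⟩
    have e : ((List.range n).map fun v => s.get v).getD v 0 = s.get v := by
      simp [List.getD_eq_getElem?_getD]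
    beta_reduce
    rw [e]
    refine ⟨h1 v, fun u hu => ?_⟩
    rcases hu.2 with a | a
    · exact (h2 _ a).1
    · exact (h2 _ a).2

/-- What a solver for maximum matchings achieves: for every value function `F ≤ 1` that is at most
`C₀ + τ t` on longest lists of disjoint edges, the expectation is at most `C₀ + τ T + ε`. -/
def GMSpec (B : ℕ) (G : SimpleGraph (Fin n)) (prog : M (List (ℕ × ℕ))) (T ε : ℝ) : Prop :=
  ∀ (F : List (ℕ × ℕ) → ℕ → ℝ) (C₀ τ : ℝ), 0 ≤ τ → 0 ≤ C₀ → (∀ l t, F l t ≤ 1) →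
    (∀ l t, MaxGM G l → F l t ≤ C₀ + τ * t) → wp B prog F 1 ≤ C₀ + τ * T + ε

/-- **Top theorem for lists of edges.** -/
theorem top_gm (Cl : ∀ n : ℕ, SimpleGraph (Fin n) → Prop)
    (sol : ℕ → Arr (List ℕ) → M (List (ℕ × ℕ)))
    (hI : Impl fun p : ℕ × Arr (List ℕ) => sol p.1 p.2) (a : ℕ) (g : ℕ → ℕ) (hg : Sub g)
    (h : ∀ (n : ℕ) (G : SimpleGraph (Fin n)), Cl n G → ∀ adj, AdjOK G adj →
      ∀ B, (n + G.edgeSet.ncard + 2) ^ a ≤ B → GMSpec B G (sol n adj)
        (((n + G.edgeSet.ncard + 2) * g (n + G.edgeSet.ncard + 2) : ℕ) : ℝ) (1 / 5)) :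
    ∃ (P : RProg) (T : ℕ → ℕ → ℕ), AlmostLin T ∧ RandSolvesOn Cl P T := by
  classical
  refine top Cl (fun inp => readAdj inp >>= fun r => sol r.1 r.2 >>= fun l => mateP r.1 l)
    (by fun_prop) (a + 2) (fun N => 10 * (g N + 6))
    ((Sub.const 10).mul (hg.add (Sub.const 6))) fun n G hCl L => ?_
  obtain ⟨N, hN⟩ : ∃ N, N = n + G.edgeSet.ncard + 2 := ⟨_, rfl⟩
  rw [← hN]
  have h2 : 2 ≤ N := by omega
  have hsq : 2 * N ≤ N ^ (a + 2) := by
    calc 2 * N ≤ N ^ 2 := by rw [pow_two]; exact Nat.mul_le_mul_right _ h2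
      _ ≤ _ := Nat.pow_le_pow_right (by omega) (by omega)
  obtain ⟨X, hX⟩ : ∃ X, X = N * (10 * (g N + 6)) := ⟨_, rfl⟩
  rw [← hX]
  have hX0 : (0 : ℝ) < X := by rw [hX]; positivity
  unfold pr
  rw [wp_bind]
  refine wp_le_const_of_Tri (readAdj_tri (c := ⟨N ^ (a + 2), true⟩) L (by simp only; omega)) ?_ 1
  rintro ⟨n', adj⟩ t₀ ⟨e, hA, ht⟩
  obtain rfl : n = n' := e.symm
  simp only [wp_bind]
  have hs := h n G hCl adj hA (N ^ (a + 2))
    (by rw [← hN]; exact Nat.pow_le_pow_right (by omega) (by omega))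
  rw [← hN] at hs
  refine (hs _ (6 * N / X) (1 / X) (by positivity) (by positivity) (fun l t => wp_le_const
    (fun _ _ => by split_ifs <;> norm_num) le_rfl) fun l t hl => ?_).trans ?_
  · refine wp_le_const_of_Tri (mateP_tri (c := ⟨N ^ (a + 2), true⟩) hl.1 (by simp only; omega))
      (fun out t' ⟨h1, h3⟩ => ?_) 1
    split_ifs with hb
    · positivity
    · have h4 : X < t₀ + (t + t') := by
        by_contra h5
        exact hb ⟨⟨_, hl.maximum, h1⟩, by omega⟩
      have h5 : (X : ℝ) ≤ 6 * N + t := by exact_mod_cast (by omega : X ≤ 6 * N + t)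
      rw [one_div, inv_mul_eq_div, ← add_div, le_div_iff₀ hX0]
      linarith
  · have : (X : ℝ) = 10 * (6 * N + (N * g N : ℕ)) := by rw [hX]; push_cast; ring
    rw [one_div (X : ℝ), inv_mul_eq_div, ← add_div, this]
    have h0 : (0 : ℝ) < 6 * N + (N * g N : ℕ) := by positivity
    rw [div_mul_eq_div_div_swap, div_self h0.ne']
    norm_num

end Vale.Agent.P305E
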