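import Vale.Agent.P305E.Rand
import Mathlib.Analysis.SpecialFunctions.Trigonometric.Series

/-!
# Engine: expectations of loops
-/

namespace Vale.Agent.P305E

variable {α β γ σ : Type} {B : ℕ}

/-! ### Priced operations -/

@[simp] theorem wp_pay (t : ℕ) (b : β) (F : β → ℕ → ℝ) (p : ℝ) : wp B (pay t b) F p = F b t := by
  simp [pay]
@[simp] theorem wp_inum (z : ℤ) (F : ℤ → ℕ → ℝ) (p : ℝ) :
    wp B (inum z) F p = if z.natAbs ≤ B then F z 0 else p := rfl
@[simp] theorem wp_foldP (g : σ → β → σ) (s : σ) (l : List β) (F : σ → ℕ → ℝ) (p : ℝ) :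
    wp B (foldP g s l) F p = F (l.foldl g s) l.length := wp_pay _ _ _ _
@[simp] theorem wp_revP (l : List β) (F : List β → ℕ → ℝ) (p : ℝ) :
    wp B (revP l) F p = F l.reverse l.length := wp_pay _ _ _ _
@[simp] theorem wp_mapP (f : β → γ) (l : List β) (F : List γ → ℕ → ℝ) (p : ℝ) :
    wp B (mapP f l) F p = F (l.map f) l.length := wp_pay _ _ _ _
@[simp] theorem wp_filterP (q : β → Bool) (l : List β) (F : List β → ℕ → ℝ) (p : ℝ) :
    wp B (filterP q l) F p = F (l.filter q) l.length := wp_pay _ _ _ _
@[simp] theorem wp_filterMapP (f : β → Option γ) (l : List β) (F : List γ → ℕ → ℝ) (p : ℝ) :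
    wp B (filterMapP f l) F p = F (l.filterMap f) l.length := wp_pay _ _ _ _
@[simp] theorem wp_appendP (l l' : List β) (F : List β → ℕ → ℝ) (p : ℝ) :
    wp B (appendP l l') F p = F (l ++ l') l.length := wp_pay _ _ _ _
@[simp] theorem wp_flattenP (l : List (List β)) (F : List β → ℕ → ℝ) (p : ℝ) :
    wp B (flattenP l) F p = F l.flatten (l.length + l.flatten.length) := wp_pay _ _ _ _
@[simp] theorem wp_rangeP (n : ℕ) (F : List ℕ → ℕ → ℝ) (p : ℝ) :
    wp B (rangeP n) F p = F (List.range n) n := wp_pay _ _ _ _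
@[simp] theorem wp_anyP (q : β → Bool) (l : List β) (F : Bool → ℕ → ℝ) (p : ℝ) :
    wp B (anyP q l) F p = F (l.any q) l.length := wp_pay _ _ _ _
@[simp] theorem wp_pow2 (k : ℕ) (F : ℕ → ℕ → ℝ) (p : ℝ) :
    wp B (pow2 k) F p = if 2 ^ k ≤ B then F (2 ^ k) 0 else p := rfl

@[simp] theorem Par_pure (b : β) (Q : β → ℕ → Prop) : Par B (pure b) Q ↔ Q b 0 := Iff.rfl
@[simp] theorem Par_tick (k : M β) (Q : β → ℕ → Prop) :
    Par B (.tick k) Q ↔ Par B k fun b t => Q b (t + 1) := Iff.rfl

/-- The value of failing runs can be separated. -/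
theorem wp_eq_add_fail (m : M β) (F : β → ℕ → ℝ) (p : ℝ) :
    wp B m F p = wp B m F 0 + p * pr B m fun _ _ => False := by
  unfold pr
  rw [← wp_mul_left, ← wp_add]
  simp

/-- For computations that never fail, the value of failing runs is irrelevant. -/
theorem wp_fail_irrel {cn : Bool} {m : M β} {Q : β → ℕ → Prop} (h : Tri ⟨B, cn⟩ m Q)
    (F : β → ℕ → ℝ) (p q : ℝ) : wp B m F p = wp B m F q :=
  le_antisymm (wp_le_of_Tri h (fun _ _ _ => le_rfl) p q) (wp_le_of_Tri h (fun _ _ _ => le_rfl) q p)

/-- The usual rule for sequencing, with an invariant for the intermediate result. -/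
theorem wp_bind_le {m : M α} {f : α → M β} {I : α → ℕ → Prop} {F : β → ℕ → ℝ} {G : α → ℕ → ℝ}
    {p q : ℝ} (hI : Par B m I)
    (h : ∀ a t, I a t → wp B (f a) (fun b t' => F b (t + t')) p ≤ G a t) (hp : p ≤ q) :
    wp B (m >>= f) F p ≤ wp B m G q := by
  rw [wp_bind]
  exact wp_le_of_Par hI h hp

/-! ### Potentials -/

/-- Supermartingale rule for the general loop; the first index is the remaining fuel. -/
theorem wp_loopM_le {F : σ → M (σ ⊕ β)} {G : β → ℕ → ℝ} {p : ℝ} (I : ℕ → σ → ℕ → Prop)
    (Φ : ℕ → σ → ℕ → ℝ) (h0 : ∀ s t, I 0 s t → p ≤ Φ 0 s t)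
    (hI : ∀ n s t, I (n + 1) s t →
      Par B (F s) fun r t' => ∀ s', r = .inl s' → I n s' (t + t' + 1))
    (hstep : ∀ n s t, I (n + 1) s t → wp B (F s) (fun r t' =>
      Sum.elim (fun s' => Φ n s' (t + t' + 1)) (fun b => G b (t + t')) r) p ≤ Φ (n + 1) s t)
    {n : ℕ} {s : σ} (hs : I n s 0) : wp B (loopM F n s) G p ≤ Φ n s 0 := by
  have key : ∀ n s t, I n s t → wp B (loopM F n s) (fun b t' => G b (t + t')) p ≤ Φ n s t := by
    intro n
    induction n with
    | zero => intro s t h; exact h0 s t h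
    | succ n ih =>
      intro s t h
      refine (wp_bind_le (hI n s t h) (fun r t' hr => ?_) le_rfl).trans (hstep n s t h)
      cases r with
      | inl s' =>
        refine le_trans (le_of_eq ?_) (ih s' _ (hr s' rfl))
        simp only [Sum.elim_inl, wp_tick]
        exact wp_congr fun b t'' => by congr 1; omega
      | inr b => exact le_rfl
  simpa using key n s 0 hs

/-- Supermartingale rule for the general loop with a decreasing measure. -/
theorem wp_loopM_le' {F : σ → M (σ ⊕ β)} {G : β → ℕ → ℝ} {p : ℝ} (I : σ → ℕ → Prop) (μ : σ → ℕ)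
    (Φ : σ → ℕ → ℝ)
    (hI : ∀ s t, I s t →
      Par B (F s) fun r t' => ∀ s', r = .inl s' → I s' (t + t' + 1) ∧ μ s' < μ s)
    (hstep : ∀ s t, I s t → wp B (F s) (fun r t' =>
      Sum.elim (fun s' => Φ s' (t + t' + 1)) (fun b => G b (t + t')) r) p ≤ Φ s t)
    {n : ℕ} {s : σ} (hs : I s 0) (hn : μ s < n) : wp B (loopM F n s) G p ≤ Φ s 0 :=
  wp_loopM_le (fun n s t => I s t ∧ μ s < n) (fun _ => Φ) (fun _ _ h => absurd h.2 (by omega))
    (fun _ s t h => (hI s t h.1).mono fun r t' hr s' e =>
      ⟨(hr s' e).1, by have := (hr s' e).2; have := h.2; omega⟩)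
    (fun _ s t h => hstep s t h.1) ⟨hs, hn⟩

/-- Supermartingale rule for the loop over a list; the first index is the part that is done. -/
theorem wp_foldM_le {f : σ → β → M σ} {l : List β} {s : σ} {G : σ → ℕ → ℝ} {p : ℝ}
    (I : List β → σ → ℕ → Prop) (Φ : List β → σ → ℕ → ℝ) (h0 : I [] s 0)
    (hI : ∀ pre x rest s t, l = pre ++ x :: rest → I pre s t →
      Par B (f s x) fun s' t' => I (pre ++ [x]) s' (t + t' + 1))
    (hstep : ∀ pre x rest s t, l = pre ++ x :: rest → I pre s t →
      wp B (f s x) (fun s' t' => Φ (pre ++ [x]) s' (t + t' + 1)) p ≤ Φ pre s t)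
    (hend : ∀ s t, I l s t → G s t ≤ Φ l s t) : wp B (foldM f s l) G p ≤ Φ [] s 0 := by
  have key : ∀ rest pre s t, l = pre ++ rest → I pre s t →
      wp B (foldM f s rest) (fun s' t' => G s' (t + t')) p ≤ Φ pre s t := by
    intro rest
    induction rest with
    | nil =>
      intro pre s t e h
      rw [List.append_nil] at e
      subst e
      exact hend s t h
    | cons x rest ih =>
      intro pre s t e h
      refine (wp_bind_le (hI pre x rest s t e h) (fun s' t' hr => ?_) le_rfl).trans
        (hstep pre x rest s t e h)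
      refine le_trans (le_of_eq ?_) (ih (pre ++ [x]) s' _ (by simp [e]) hr)
      simp only [wp_tick]
      exact wp_congr fun b t'' => by congr 1; omega
  simpa using key l [] s 0 rfl h0

theorem range_split {n : ℕ} {pre rest : List ℕ} {x : ℕ} (e : List.range n = pre ++ x :: rest) :
    pre.length < n ∧ x = pre.length := by
  have h1 : pre.length < n := by
    have := congrArg List.length e
    simp at this
    omega
  have := congrArg (fun l => l[pre.length]?) e
  exact ⟨h1, by simpa [List.getElem?_range h1, eq_comm] using this⟩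

/-- Supermartingale rule for the loop over `0, …, n - 1`. -/
theorem wp_iterM_le {f : σ → ℕ → M σ} {n : ℕ} {s : σ} {G : σ → ℕ → ℝ} {p : ℝ}
    (I : ℕ → σ → ℕ → Prop) (Φ : ℕ → σ → ℕ → ℝ) (h0 : I 0 s 0)
    (hI : ∀ k s t, k < n → I k s t → Par B (f s k) fun s' t' => I (k + 1) s' (t + t' + 1))
    (hstep : ∀ k s t, k < n → I k s t →
      wp B (f s k) (fun s' t' => Φ (k + 1) s' (t + t' + 1)) p ≤ Φ k s t)
    (hend : ∀ s t, I n s t → G s t ≤ Φ n s t) : wp B (iterM f s n) G p ≤ Φ 0 s 0 :=
  wp_foldM_le (l := List.range n) (fun l => I l.length) (fun l => Φ l.length) h0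
    (fun pre x rest s t e h => by
      obtain ⟨h1, rfl⟩ := range_split e
      simpa using hI _ s t h1 h)
    (fun pre x rest s t e h => by
      obtain ⟨h1, rfl⟩ := range_split e
      simpa using hstep _ s t h1 h)
    (fun s t h => by simpa using hend s t (by simpa using h))

/-- Additive drift: each round increases the potential by at most `c k` in expectation. -/
theorem wp_iterM_drift {f : σ → ℕ → M σ} {n : ℕ} {s : σ} {p : ℝ} (I : ℕ → σ → ℕ → Prop)
    (Φ : σ → ℕ → ℝ) (c : ℕ → ℝ) (h0 : I 0 s 0)
    (hI : ∀ k s t, k < n → I k s t → Tri ⟨B, true⟩ (f s k) fun s' t' => I (k + 1) s' (t + t' + 1))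
    (hstep : ∀ k s t, k < n → I k s t →
      wp B (f s k) (fun s' t' => Φ s' (t + t' + 1)) 0 ≤ Φ s t + c k) :
    wp B (iterM f s n) Φ p ≤ Φ s 0 + ∑ k ∈ Finset.range n, c k := by
  have h := wp_iterM_le (B := B) (f := f) (n := n) (s := s) (G := Φ) (p := p) I
    (fun k s t => Φ s t + ∑ j ∈ Finset.Ico k n, c j) h0
    (fun k s t hk h => (hI k s t hk h).par) (fun k s t hk h => by
      rw [wp_fail_irrel (hI k s t hk h) _ p (0 + ∑ j ∈ Finset.Ico (k + 1) n, c j), wp_add_const,
        Finset.sum_eq_sum_Ico_succ_bot hk]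
      linarith [hstep k s t hk h])
    (fun s t _ => by simp)
  rw [Finset.range_eq_Ico]
  exact h

/-! ### Union bounds -/

theorem pr_tick (m : M β) (bad : β → ℕ → Prop) :
    pr B (.tick m) bad = pr B m fun b t => bad b (t + 1) := rfl

theorem pr_congr {m : M β} {bad bad' : β → ℕ → Prop} (h : ∀ b t, bad b t ↔ bad' b t) :
    pr B m bad = pr B m bad' :=
  le_antisymm (pr_mono fun b t => (h b t).1) (pr_mono fun b t => (h b t).2)

theorem pr_foldM_le {f : σ → β → M σ} {l : List β} {s : σ} (I : List β → σ → ℕ → Prop)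
    (ε : β → ℝ) (hε : ∀ x, 0 ≤ ε x) (h0 : I [] s 0)
    (hstep : ∀ pre x rest s t, l = pre ++ x :: rest → I pre s t →
      pr B (f s x) (fun s' t' => ¬ I (pre ++ [x]) s' (t + t' + 1)) ≤ ε x) :
    pr B (foldM f s l) (fun s' t => ¬ I l s' t) ≤ (l.map ε).sum := by
  have key : ∀ rest pre s t, l = pre ++ rest → I pre s t →
      pr B (foldM f s rest) (fun s' t' => ¬ I l s' (t + t')) ≤ (rest.map ε).sum := by
    intro rest
    induction rest with
    | nil =>
      intro pre s t e h
      rw [List.append_nil] at e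
      subst e
      simp [foldM, pr, h]
    | cons x rest ih =>
      intro pre s t e h
      refine (pr_bind_le (bad₁ := fun s' t' => ¬ I (pre ++ [x]) s' (t + t' + 1))
        (x := (rest.map ε).sum) (fun s' t' hr => ?_)
        (List.sum_nonneg (by simp only [List.mem_map]; rintro _ ⟨y, -, rfl⟩; exact hε y))).trans ?_
      · refine le_trans (le_of_eq ?_) (ih (pre ++ [x]) s' _ (by simp [e]) (not_not.1 hr))
        rw [pr_tick]
        exact pr_congr fun b t'' => by rw [show t + (t' + (t'' + 1)) = t + t' + 1 + t'' by omega]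
      · have := hstep pre x rest s t e h
        simp only [List.map_cons, List.sum_cons]
        linarith
  simpa using key l [] s 0 rfl h0

theorem pr_iterM_le {f : σ → ℕ → M σ} {n : ℕ} {s : σ} (I : ℕ → σ → ℕ → Prop) (ε : ℕ → ℝ)
    (hε : ∀ x, 0 ≤ ε x) (h0 : I 0 s 0)
    (hstep : ∀ k s t, k < n → I k s t →
      pr B (f s k) (fun s' t' => ¬ I (k + 1) s' (t + t' + 1)) ≤ ε k) :
    pr B (iterM f s n) (fun s' t => ¬ I n s' t) ≤ ∑ k ∈ Finset.range n, ε k := by
  have h := pr_foldM_le (B := B) (f := f) (l := List.range n) (s := s) (fun l => I l.length) ε hε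
    h0 fun pre x rest s t e h => by
      obtain ⟨h1, rfl⟩ := range_split e
      simpa using hstep _ s t h1 h
  rw [List.length_range] at h
  exact h

theorem pr_loopM_le {F : σ → M (σ ⊕ β)} {Q : β → ℕ → Prop} (I : σ → ℕ → Prop) (μ : σ → ℕ)
    {ε : ℝ} (hε : 0 ≤ ε)
    (hstep : ∀ s t, I s t → pr B (F s) (fun r t' => ¬ Sum.elim
      (fun s' => I s' (t + t' + 1) ∧ μ s' < μ s) (fun b => Q b (t + t')) r) ≤ ε)
    {n : ℕ} {s : σ} (hs : I s 0) (hn : μ s < n) :
    pr B (loopM F n s) (fun b t => ¬ Q b t) ≤ (μ s + 1) * ε := by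
  have key : ∀ n s t, I s t → μ s < n →
      pr B (loopM F n s) (fun b t' => ¬ Q b (t + t')) ≤ (μ s + 1) * ε := by
    intro n
    induction n with
    | zero => intro s t _ h; omega
    | succ n ih =>
      intro s t h hn
      refine (pr_bind_le (x := μ s * ε) (fun r t' hr => ?_) (by positivity)).trans
        (by have := hstep s t h; linarith)
      rw [not_not] at hr
      cases r with
      | inl s' =>
        have h1 : ((μ s' : ℝ) + 1) * ε ≤ μ s * ε :=
          mul_le_mul_of_nonneg_right (by exact_mod_cast hr.2) hε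
        refine le_trans (le_of_eq ?_) ((ih s' _ hr.1 (by have := hr.2; omega)).trans h1)
        rw [Sum.elim_inl, pr_tick]
        exact pr_congr fun b t'' => by rw [show t + (t' + (t'' + 1)) = t + t' + 1 + t'' by omega]
      | inr b =>
        have h1 : Q b (t + t') := hr
        simp only [Sum.elim_inr, pr, wp_pure, add_zero, h1, not_true, if_false]
        positivity
  simpa using key n s 0 hs hn

/-! ### Independent samples -/

/-- The expectation of a product over independent samples. -/
theorem wp_mapM'_prod_le {f : β → M γ} {l : List β} {g : β → γ → ℝ} {c : β → ℝ}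
    (hg : ∀ x y, 0 ≤ g x y) (h : ∀ x ∈ l, wp B (f x) (fun y _ => g x y) 0 ≤ c x) :
    wp B (mapM' f l) (fun l' _ => (List.zipWith g l l').prod) 0 ≤ (l.map c).prod := by
  have hc : ∀ x ∈ l, 0 ≤ c x := fun x hx => (wp_nonneg (fun y _ => hg x y) le_rfl).trans (h x hx)
  have hz : ∀ (l : List β) (l' : List γ), 0 ≤ (List.zipWith g l l').prod := by
    intro l
    induction l with
    | nil => simp
    | cons x l ih =>
      intro l'
      cases l' with
      | nil => simp
      | cons y l' => simpa using mul_nonneg (hg x y) (ih l')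
  unfold mapM'
  simp only [wp_bind, wp_revP]
  have := wp_foldM_le (B := B) (f := fun acc x => f x >>= fun y => pure (y :: acc)) (l := l)
    (s := []) (G := fun acc _ => (List.zipWith g l acc.reverse).prod) (p := 0)
    (fun pre acc _ => acc.length = pre.length)
    (fun pre acc _ => (List.zipWith g pre acc.reverse).prod * ((l.drop pre.length).map c).prod) rfl
    (fun pre x rest acc t _ hI => (Par_bind _ _ _).2 ((Par_true _).mono fun y _ _ => by simp [hI]))
    (fun pre x rest acc t e hI => by
      have e1 : l.drop pre.length = x :: rest := by simp [e]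
      have e2 : l.drop (pre ++ [x]).length = rest := by simp [e]
      have h3 : 0 ≤ (rest.map c).prod := List.prod_nonneg (by
        simp only [List.mem_map]
        rintro _ ⟨y, hy, rfl⟩
        exact hc y (by simp [e, hy]))
      simp only [wp_bind, wp_pure, e1, e2, List.reverse_cons]
      have e3 : ∀ y, (List.zipWith g (pre ++ [x]) (acc.reverse ++ [y])).prod * (rest.map c).prod =
          ((List.zipWith g pre acc.reverse).prod * (rest.map c).prod) * g x y := by
        intro y
        rw [List.zipWith_append (by simp [hI])]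
        simp only [List.zipWith_cons_cons, List.zipWith_nil_left, List.prod_append,
          List.prod_cons, List.prod_nil]
        ring
      simp only [e3]
      have e4 := wp_mul_left (B := B) (f x)
        ((List.zipWith g pre acc.reverse).prod * (rest.map c).prod) (fun y _ => g x y) 0
      rw [mul_zero] at e4
      rw [e4, List.map_cons, List.prod_cons]
      have := mul_le_mul_of_nonneg_left (h x (by simp [e])) (mul_nonneg (hz pre acc.reverse) h3)
      linarith)
    (fun acc _ _ => by simp)
  simpa using this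

/-- The exponential moment of a fair sign. -/
theorem exp_sign_le (x : ℝ) : (Real.exp x + Real.exp (-x)) / 2 ≤ Real.exp (x ^ 2 / 2) := by
  rw [← Real.cosh_eq]
  exact Real.cosh_le_exp_half_sq x

theorem wp_flip_exp (x p : ℝ) :
    wp B flip (fun b _ => Real.exp (if b = true then x else -x)) p ≤ Real.exp (x ^ 2 / 2) := by
  simpa using exp_sign_le x

end Vale.Agent.P305E
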