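import Vale.Agent.P305E.Core

/-!
# Engine: the calculus of expectations `wp`
-/

namespace Vale.Agent.P305E

variable {α β γ : Type} {B : ℕ}

@[simp] theorem wp_ret (b : β) (F : β → ℕ → ℝ) (p : ℝ) : wp B (.ret b) F p = F b 0 := rfl
@[simp] theorem wp_pure (b : β) (F : β → ℕ → ℝ) (p : ℝ) : wp B (pure b) F p = F b 0 := rfl
@[simp] theorem wp_tick (k : M β) (F : β → ℕ → ℝ) (p : ℝ) :
    wp B (.tick k) F p = wp B k (fun b t => F b (t + 1)) p := rfl
@[simp] theorem wp_need (n : ℕ) (k : M β) (F : β → ℕ → ℝ) (p : ℝ) :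
    wp B (.need n k) F p = if n ≤ B then wp B k F p else p := rfl
@[simp] theorem wp_fail (F : β → ℕ → ℝ) (p : ℝ) : wp B (.fail : M β) F p = p := rfl
@[simp] theorem wp_coin (k : Bool → M β) (F : β → ℕ → ℝ) (p : ℝ) :
    wp B (.coin k) F p = (wp B (k true) (fun b t => F b (t + 1)) p +
      wp B (k false) (fun b t => F b (t + 1)) p) / 2 := rfl
@[simp] theorem wp_flip (F : Bool → ℕ → ℝ) (p : ℝ) :
    wp B flip F p = (F true 1 + F false 1) / 2 := rfl
@[simp] theorem wp_num (n : ℕ) (F : ℕ → ℕ → ℝ) (p : ℝ) :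
    wp B (num n) F p = if n ≤ B then F n 0 else p := rfl

@[simp] theorem wp_ticks (t : ℕ) (m : M β) (F : β → ℕ → ℝ) (p : ℝ) :
    wp B (ticks t m) F p = wp B m (fun b t' => F b (t' + t)) p := by
  induction t generalizing F with
  | zero => simp [ticks]
  | succ t ih => simp only [ticks, wp_tick, ih, Nat.add_assoc]

open Classical in
theorem wp_spec (P : Prop) (n t : ℕ) (b : β) (F : β → ℕ → ℝ) (p : ℝ) :
    wp B (spec P n t b) F p = if P ∧ n ≤ B then F b t else p := by
  unfold spec
  by_cases h : P <;> simp [h]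

theorem wp_spec_pos {P : Prop} {n : ℕ} (hP : P) (hn : n ≤ B) (t : ℕ) (b : β) (F : β → ℕ → ℝ)
    (p : ℝ) : wp B (spec P n t b) F p = F b t := by
  rw [wp_spec, if_pos ⟨hP, hn⟩]

theorem wp_ite (c : Prop) [Decidable c] (m m' : M β) (F : β → ℕ → ℝ) (p : ℝ) :
    wp B (if c then m else m') F p = if c then wp B m F p else wp B m' F p := by
  split_ifs <;> rfl

theorem wp_mbind (m : M α) (f : α → M β) (F : β → ℕ → ℝ) (p : ℝ) :
    wp B (m.bind f) F p = wp B m (fun a t => wp B (f a) (fun b t' => F b (t + t')) p) p := by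
  induction m generalizing F with
  | ret a => simp [M.bind]
  | coin k ih =>
    simp only [M.bind, wp_coin, ih]
    simp only [Nat.add_right_comm, Nat.add_assoc]
  | tick k ih =>
    simp only [M.bind, wp_tick, ih]
    simp only [Nat.add_right_comm, Nat.add_assoc]
  | need n k ih => simp only [M.bind, wp_need, ih]
  | fail => simp [M.bind]

@[simp] theorem wp_bind (m : M α) (f : α → M β) (F : β → ℕ → ℝ) (p : ℝ) :
    wp B (m >>= f) F p = wp B m (fun a t => wp B (f a) (fun b t' => F b (t + t')) p) p :=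
  wp_mbind m f F p

theorem wp_map (m : M α) (f : α → β) (F : β → ℕ → ℝ) (p : ℝ) :
    wp B (m >>= fun a => pure (f a)) F p = wp B m (fun a t => F (f a) t) p := by
  simp

/-! ### Monotonicity and linearity -/

theorem wp_mono {m : M β} {F G : β → ℕ → ℝ} {p q : ℝ} (h : ∀ b t, F b t ≤ G b t) (hp : p ≤ q) :
    wp B m F p ≤ wp B m G q := by
  induction m generalizing F G with
  | ret b => exact h _ _
  | coin k ih =>
    have h1 := ih true (F := fun b t => F b (t + 1)) (G := fun b t => G b (t + 1))
      fun b t => h b (t + 1)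
    have h2 := ih false (F := fun b t => F b (t + 1)) (G := fun b t => G b (t + 1))
      fun b t => h b (t + 1)
    simp only [wp_coin]
    linarith
  | tick k ih => exact ih fun b t => h b (t + 1)
  | need n k ih =>
    simp only [wp_need]
    split_ifs
    · exact ih h
    · exact hp
  | fail => exact hp

theorem wp_congr {m : M β} {F G : β → ℕ → ℝ} {p : ℝ} (h : ∀ b t, F b t = G b t) :
    wp B m F p = wp B m G p := by
  have : F = G := funext fun b => funext fun t => h b t
  rw [this]

@[simp] theorem wp_const (m : M β) (c : ℝ) : wp B m (fun _ _ => c) c = c := by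
  induction m with
  | ret b => rfl
  | coin k ih => simp only [wp_coin, ih]; ring
  | tick k ih => exact ih
  | need n k ih => simp only [wp_need, ih, ite_self]
  | fail => rfl

theorem wp_add (m : M β) (F G : β → ℕ → ℝ) (p q : ℝ) :
    wp B m (fun b t => F b t + G b t) (p + q) = wp B m F p + wp B m G q := by
  induction m generalizing F G with
  | ret b => rfl
  | coin k ih =>
    simp only [wp_coin]
    rw [ih true (fun b t => F b (t + 1)) (fun b t => G b (t + 1)),
      ih false (fun b t => F b (t + 1)) (fun b t => G b (t + 1))]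
    ring
  | tick k ih => exact ih (fun b t => F b (t + 1)) (fun b t => G b (t + 1))
  | need n k ih =>
    simp only [wp_need]
    split_ifs
    · exact ih F G
    · rfl
  | fail => rfl

theorem wp_mul_left (m : M β) (c : ℝ) (F : β → ℕ → ℝ) (p : ℝ) :
    wp B m (fun b t => c * F b t) (c * p) = c * wp B m F p := by
  induction m generalizing F with
  | ret b => rfl
  | coin k ih =>
    simp only [wp_coin]
    rw [ih true (fun b t => F b (t + 1)), ih false (fun b t => F b (t + 1))]
    ring
  | tick k ih => exact ih (fun b t => F b (t + 1))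
  | need n k ih =>
    simp only [wp_need]
    split_ifs
    · exact ih F
    · rfl
  | fail => rfl

theorem wp_mul_right (m : M β) (c : ℝ) (F : β → ℕ → ℝ) (p : ℝ) :
    wp B m (fun b t => F b t * c) (p * c) = wp B m F p * c := by
  rw [mul_comm p c, mul_comm _ c, ← wp_mul_left]
  exact wp_congr fun b t => mul_comm _ _

theorem wp_div (m : M β) (c : ℝ) (F : β → ℕ → ℝ) (p : ℝ) :
    wp B m (fun b t => F b t / c) (p / c) = wp B m F p / c := by
  simp only [div_eq_mul_inv, wp_mul_right]

theorem wp_neg (m : M β) (F : β → ℕ → ℝ) (p : ℝ) :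
    wp B m (fun b t => -F b t) (-p) = -wp B m F p := by
  have := wp_mul_left (B := B) m (-1) F p
  simpa using this

theorem wp_sub (m : M β) (F G : β → ℕ → ℝ) (p q : ℝ) :
    wp B m (fun b t => F b t - G b t) (p - q) = wp B m F p - wp B m G q := by
  simp only [sub_eq_add_neg, wp_add, wp_neg]

theorem wp_add_const (m : M β) (F : β → ℕ → ℝ) (p c : ℝ) :
    wp B m (fun b t => F b t + c) (p + c) = wp B m F p + c := by
  rw [wp_add, wp_const]

theorem wp_const_add (m : M β) (F : β → ℕ → ℝ) (p c : ℝ) :
    wp B m (fun b t => c + F b t) (c + p) = c + wp B m F p := by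
  rw [wp_add, wp_const]

theorem wp_sum {ι : Type*} (s : Finset ι) (m : M β) (F : ι → β → ℕ → ℝ) (p : ι → ℝ) :
    wp B m (fun b t => ∑ i ∈ s, F i b t) (∑ i ∈ s, p i) = ∑ i ∈ s, wp B m (F i) (p i) := by
  classical
  induction s using Finset.induction_on with
  | empty => simp
  | insert i s hi ih => simp only [Finset.sum_insert hi, wp_add, ih]

theorem wp_le_const {m : M β} {F : β → ℕ → ℝ} {p c : ℝ} (h : ∀ b t, F b t ≤ c) (hp : p ≤ c) :
    wp B m F p ≤ c :=
  (wp_mono h hp).trans (wp_const m c).le

theorem const_le_wp {m : M β} {F : β → ℕ → ℝ} {p c : ℝ} (h : ∀ b t, c ≤ F b t) (hp : c ≤ p) :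
    c ≤ wp B m F p :=
  (wp_const m c).ge.trans (wp_mono h hp)

theorem wp_nonneg {m : M β} {F : β → ℕ → ℝ} {p : ℝ} (h : ∀ b t, 0 ≤ F b t) (hp : 0 ≤ p) :
    0 ≤ wp B m F p :=
  const_le_wp h hp

/-- `F ≤ G + H` pointwise gives the same for expectations. -/
theorem wp_le_add {m : M β} {F G H : β → ℕ → ℝ} {p q r : ℝ} (h : ∀ b t, F b t ≤ G b t + H b t)
    (hp : p ≤ q + r) : wp B m F p ≤ wp B m G q + wp B m H r := by
  rw [← wp_add]
  exact wp_mono h hp

/-! ### Link with the triple -/

/-- On the paths described by a triple one may compare pointwise. -/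
theorem wp_le_of_Tri {c : Cx} {m : M β} {Q : β → ℕ → Prop} (hQ : Tri c m Q) {F G : β → ℕ → ℝ}
    (h : ∀ b t, Q b t → F b t ≤ G b t) (p q : ℝ) : wp c.B m F p ≤ wp c.B m G q := by
  induction m generalizing Q F G with
  | ret b => exact h _ _ hQ
  | coin k ih =>
    have h1 := ih true (hQ.2 true) (F := fun b t => F b (t + 1)) (G := fun b t => G b (t + 1))
      fun b t hb => h b (t + 1) hb
    have h2 := ih false (hQ.2 false) (F := fun b t => F b (t + 1)) (G := fun b t => G b (t + 1))
      fun b t hb => h b (t + 1) hb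
    simp only [wp_coin]
    linarith
  | tick k ih => exact ih hQ fun b t hb => h b (t + 1) hb
  | need n k ih =>
    simp only [wp_need, if_pos hQ.1]
    exact ih hQ.2 h
  | fail => exact hQ.elim

theorem wp_eq_of_Tri {c : Cx} {m : M β} {Q : β → ℕ → Prop} (hQ : Tri c m Q) {F G : β → ℕ → ℝ}
    (h : ∀ b t, Q b t → F b t = G b t) (p q : ℝ) : wp c.B m F p = wp c.B m G q :=
  le_antisymm (wp_le_of_Tri hQ (fun b t hb => (h b t hb).le) p q)
    (wp_le_of_Tri hQ (fun b t hb => (h b t hb).ge) q p)

theorem wp_le_const_of_Tri {c : Cx} {m : M β} {Q : β → ℕ → Prop} (hQ : Tri c m Q)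
    {F : β → ℕ → ℝ} {x : ℝ} (h : ∀ b t, Q b t → F b t ≤ x) (p : ℝ) : wp c.B m F p ≤ x :=
  (wp_le_of_Tri hQ (G := fun _ _ => x) h p x).trans (wp_const m x).le

theorem const_le_wp_of_Tri {c : Cx} {m : M β} {Q : β → ℕ → Prop} (hQ : Tri c m Q)
    {F : β → ℕ → ℝ} {x : ℝ} (h : ∀ b t, Q b t → x ≤ F b t) (p : ℝ) : x ≤ wp c.B m F p :=
  (wp_const m x).ge.trans (wp_le_of_Tri hQ (F := fun _ _ => x) h x p)

/-- A deterministic or random triple whose conclusion is an upper bound. -/
theorem Tri.wp_le {c : Cx} {m : M β} {F : β → ℕ → ℝ} {x : ℝ}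
    (hQ : Tri c m fun b t => F b t ≤ x) (p : ℝ) : wp c.B m F p ≤ x :=
  wp_le_const_of_Tri hQ (fun _ _ h => h) p

/-- A deterministic triple is a random triple. -/
theorem Tri.coins {m : M β} {Q : β → ℕ → Prop} {cn : Bool} (h : Tri ⟨B, cn⟩ m Q) :
    Tri ⟨B, true⟩ m Q := by
  induction m generalizing Q with
  | ret b => exact h
  | coin k ih => exact ⟨rfl, fun x => ih x (h.2 x)⟩
  | tick k ih => exact ih h
  | need n k ih => exact ⟨h.1, ih h.2⟩
  | fail => exact h

/-- Partial correctness: `Par m Q` says that on all paths that return, `Q` holds (failures and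
large needs are allowed). -/
def Par (B : ℕ) : M β → (β → ℕ → Prop) → Prop
  | .ret b, Q => Q b 0
  | .coin k, Q => ∀ x, Par B (k x) fun b t => Q b (t + 1)
  | .tick k, Q => Par B k fun b t => Q b (t + 1)
  | .need n k, Q => n ≤ B → Par B k Q
  | .fail, _ => True

theorem Tri.par {c : Cx} {m : M β} {Q : β → ℕ → Prop} (h : Tri c m Q) : Par c.B m Q := by
  induction m generalizing Q with
  | ret b => exact h
  | coin k ih => exact fun x => ih x (h.2 x)
  | tick k ih => exact ih h
  | need n k ih => exact fun _ => ih h.2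
  | fail => trivial

theorem Par.mono {m : M β} {Q Q' : β → ℕ → Prop} (h : Par B m Q)
    (hQ : ∀ b t, Q b t → Q' b t) : Par B m Q' := by
  induction m generalizing Q Q' with
  | ret b => exact hQ _ _ h
  | coin k ih => exact fun x => ih x (h x) fun b t => hQ b (t + 1)
  | tick k ih => exact ih h fun b t => hQ b (t + 1)
  | need n k ih => exact fun hn => ih (h hn) hQ
  | fail => trivial

theorem Par_true (m : M β) : Par B m fun _ _ => True := by
  induction m with
  | ret b => trivial
  | coin k ih => exact fun x => ih x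
  | tick k ih => exact ih
  | need n k ih => exact fun _ => ih
  | fail => trivial

theorem Par_mbind (m : M α) (f : α → M β) (Q : β → ℕ → Prop) :
    Par B (m.bind f) Q ↔ Par B m fun a t => Par B (f a) fun b t' => Q b (t + t') := by
  induction m generalizing Q with
  | ret a => simp [M.bind, Par]
  | coin k ih =>
    simp only [M.bind, Par, ih]
    simp only [Nat.add_right_comm, Nat.add_assoc]
  | tick k ih =>
    simp only [M.bind, Par, ih]
    simp only [Nat.add_right_comm, Nat.add_assoc]
  | need n k ih => simp only [M.bind, Par, ih]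
  | fail => simp [M.bind, Par]

theorem Par_bind (m : M α) (f : α → M β) (Q : β → ℕ → Prop) :
    Par B (m >>= f) Q ↔ Par B m fun a t => Par B (f a) fun b t' => Q b (t + t') :=
  Par_mbind m f Q

theorem wp_le_of_Par {m : M β} {Q : β → ℕ → Prop} (hQ : Par B m Q) {F G : β → ℕ → ℝ}
    (h : ∀ b t, Q b t → F b t ≤ G b t) {p q : ℝ} (hp : p ≤ q) : wp B m F p ≤ wp B m G q := by
  induction m generalizing Q F G with
  | ret b => exact h _ _ hQ
  | coin k ih =>
    have h1 := ih true (hQ true) (F := fun b t => F b (t + 1)) (G := fun b t => G b (t + 1))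
      fun b t hb => h b (t + 1) hb
    have h2 := ih false (hQ false) (F := fun b t => F b (t + 1)) (G := fun b t => G b (t + 1))
      fun b t hb => h b (t + 1) hb
    simp only [wp_coin]
    linarith
  | tick k ih => exact ih hQ fun b t hb => h b (t + 1) hb
  | need n k ih =>
    simp only [wp_need]
    split_ifs with hn
    · exact ih (hQ hn) h
    · exact hp
  | fail => exact hp

/-! ### Probabilities of bad events (failures count as bad) -/

open Classical in
/-- The probability that the run fails or that its result is bad. -/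
noncomputable def pr (B : ℕ) (m : M β) (bad : β → ℕ → Prop) : ℝ :=
  wp B m (fun b t => if bad b t then 1 else 0) 1

theorem pr_nonneg (m : M β) (bad : β → ℕ → Prop) : 0 ≤ pr B m bad :=
  wp_nonneg (fun _ _ => by split_ifs <;> norm_num) zero_le_one

theorem pr_le_one (m : M β) (bad : β → ℕ → Prop) : pr B m bad ≤ 1 :=
  wp_le_const (fun _ _ => by split_ifs <;> norm_num) le_rfl

theorem pr_mono {m : M β} {bad bad' : β → ℕ → Prop} (h : ∀ b t, bad b t → bad' b t) :
    pr B m bad ≤ pr B m bad' :=
  wp_mono (fun b t => by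
    split_ifs with h1 h2
    · exact le_rfl
    · exact absurd (h b t h1) h2
    · norm_num
    · exact le_rfl) le_rfl

/-- An upper bound for an indicator gives an upper bound for the probability. -/
theorem pr_le_wp {m : M β} {bad : β → ℕ → Prop} {F : β → ℕ → ℝ} {p : ℝ}
    (h0 : ∀ b t, 0 ≤ F b t) (h1 : ∀ b t, bad b t → 1 ≤ F b t) (hp : 1 ≤ p) :
    pr B m bad ≤ wp B m F p :=
  wp_mono (fun b t => by
    split_ifs with h
    · exact h1 b t h
    · exact h0 b t) hp

/-- Markov's inequality. -/
theorem pr_le_div {m : M β} {F : β → ℕ → ℝ} {c p : ℝ} (hc : 0 < c) (h0 : ∀ b t, 0 ≤ F b t)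
    (hp : c ≤ p) : pr B m (fun b t => c ≤ F b t) ≤ wp B m F p / c := by
  rw [← wp_div]
  exact pr_le_wp (fun b t => div_nonneg (h0 b t) hc.le)
    (fun b t h => (one_le_div hc).2 h) ((one_le_div hc).2 hp)

/-- Union bound for two events. -/
theorem pr_or_le (m : M β) (bad bad' : β → ℕ → Prop) :
    pr B m (fun b t => bad b t ∨ bad' b t) ≤ pr B m bad + pr B m bad' := by
  classical
  refine wp_le_add (fun b t => ?_) (by norm_num)
  by_cases h1 : bad b t <;> by_cases h2 : bad' b t <;> simp [h1, h2]

/-- With a triple, only the events that are compatible with it count. -/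
theorem pr_le_of_Tri {c : Cx} {m : M β} {Q : β → ℕ → Prop} (hQ : Tri c m Q)
    {bad : β → ℕ → Prop} {F : β → ℕ → ℝ} (h0 : ∀ b t, Q b t → 0 ≤ F b t)
    (h1 : ∀ b t, Q b t → bad b t → 1 ≤ F b t) (p : ℝ) : pr c.B m bad ≤ wp c.B m F p :=
  wp_le_of_Tri hQ (fun b t hb => by
    split_ifs with h
    · exact h1 b t hb h
    · exact h0 b t hb) 1 p

theorem pr_eq_zero_of_Tri {c : Cx} {m : M β} {bad : β → ℕ → Prop}
    (hQ : Tri c m fun b t => ¬ bad b t) : pr c.B m bad = 0 :=
  le_antisymm (wp_le_const_of_Tri hQ (fun b t h => by simp [h]) 1) (pr_nonneg m bad)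

/-- A bounded function is bounded by its bound on good results plus the bad probability. -/
theorem wp_le_add_pr {m : M β} {bad : β → ℕ → Prop} {F G : β → ℕ → ℝ} {p q c : ℝ}
    (hg : ∀ b t, ¬ bad b t → F b t ≤ G b t) (hb : ∀ b t, bad b t → F b t ≤ G b t + c)
    (hp : p ≤ q + c) : wp B m F p ≤ wp B m G q + c * pr B m bad := by
  classical
  unfold pr
  rw [← wp_mul_left]
  refine wp_le_add (fun b t => ?_) (by simpa using hp)
  split_ifs with h
  · simpa using hb b t h
  · simpa using hg b t h

/-- Sequencing of bad events. -/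
theorem pr_bind_le {m : M α} {f : α → M β} {bad₁ : α → ℕ → Prop} {bad : β → ℕ → Prop} {x : ℝ}
    (h : ∀ a t, ¬ bad₁ a t → pr B (f a) (fun b t' => bad b (t + t')) ≤ x) (hx : 0 ≤ x) :
    pr B (m >>= f) bad ≤ pr B m bad₁ + x := by
  classical
  have h1 : pr B (m >>= f) bad =
      wp B m (fun a t => pr B (f a) (fun b t' => bad b (t + t'))) 1 := by
    unfold pr
    rw [wp_bind]
  rw [h1]
  have h2 := wp_le_add_pr (B := B) (m := m) (bad := bad₁)
    (F := fun a t => pr B (f a) (fun b t' => bad b (t + t'))) (G := fun _ _ => x) (p := 1)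
    (q := x) (c := 1) h (fun a t _ => (pr_le_one _ _).trans (by linarith)) (by linarith)
  rw [wp_const] at h2
  linarith

end Vale.Agent.P305E
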