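import Vale.Agent.P305E.Lists
import Vale.Agent.P305E.Wp

/-!
# Engine, part 9: uniform random numbers
-/

namespace Vale.Agent.P305E

/-- A uniform random number below `2 ^ k`; `2 k` ticks. -/
def rbits (k : ℕ) : M ℕ :=
  iterM (fun s _ => flip >>= fun b => num (2 * s + if b = true then 1 else 0)) 0 k

@[fun_prop] theorem Impl.rbits {α : Type} [Rep α] {k : α → ℕ} (hk : Pure k) :
    Impl fun a => rbits (k a) := by
  unfold P305E.rbits
  fun_prop

theorem foldM_append {σ β : Type} (f : σ → β → M σ) (l l' : List β) (s : σ) :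
    foldM f s (l ++ l') = foldM f s l >>= fun s' => foldM f s' l' := by
  induction l generalizing s with
  | nil => simp [foldM]
  | cons x l ih =>
    simp only [List.cons_append, foldM, ih, bind_assoc]
    rfl

theorem iterM_succ {σ : Type} (f : σ → ℕ → M σ) (s : σ) (n : ℕ) :
    iterM f s (n + 1) = iterM f s n >>= fun s' => f s' n >>= fun s'' => .tick (pure s'') := by
  simp only [iterM, List.range_succ, foldM_append, foldM]

theorem Tri.rbits {B k : ℕ} (h : 2 ^ k ≤ B) :
    Tri ⟨B, true⟩ (rbits k) fun x t => x < 2 ^ k ∧ t = 2 * k := by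
  refine Tri.iterM (fun i s t => s < 2 ^ i ∧ t = 2 * i) (by simp) ?_
  rintro i s _ hi ⟨hs, rfl⟩
  have : 2 ^ (i + 1) ≤ 2 ^ k := Nat.pow_le_pow_right (by omega) hi
  rw [pow_succ] at this
  simp only [Tri_bind, Tri_flip, Tri_num, true_and, pow_succ]
  intro b
  split_ifs <;> omega

theorem wp_rbits {B k : ℕ} (h : 2 ^ k ≤ B) (F : ℕ → ℕ → ℝ) (p : ℝ) :
    wp B (rbits k) F p = (∑ x ∈ Finset.range (2 ^ k), F x (2 * k)) / 2 ^ k := by
  induction k generalizing F with
  | zero => simp [rbits, iterM, foldM]
  | succ k ih =>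
    have h2 : 2 ^ k ≤ B := (Nat.pow_le_pow_right (by omega) (by omega)).trans h
    have e : rbits (k + 1) = rbits k >>= fun s => (flip >>= fun b =>
        num (2 * s + if b = true then 1 else 0)) >>= fun s'' => .tick (pure s'') :=
      iterM_succ _ _ _
    rw [e, wp_bind, ih h2]
    have hs : ∑ x ∈ Finset.range (2 ^ (k + 1)), F x (2 * (k + 1)) =
        ∑ x ∈ Finset.range (2 ^ k), (F (2 * x + 1) (2 * (k + 1)) + F (2 * x) (2 * (k + 1))) := by
      rw [pow_succ, mul_comm (2 ^ k)]
      generalize 2 ^ k = n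
      induction n with
      | zero => simp
      | succ n ihn =>
        rw [Nat.mul_succ, Finset.sum_range_succ, Finset.sum_range_succ, ihn,
          Finset.sum_range_succ]
        ring
    rw [hs, Finset.sum_div, Finset.sum_div]
    refine Finset.sum_congr rfl fun x hx => ?_
    have hx' := Finset.mem_range.1 hx
    rw [pow_succ] at h
    have h3 : 2 * x + 1 ≤ B := by omega
    have h4 : 2 * x ≤ B := by omega
    simp only [wp_bind, wp_flip, wp_num, wp_tick, wp_pure, if_true, h3, Bool.false_eq_true,
      if_false, add_zero, h4]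
    rw [pow_succ]
    have e1 : 2 * k + (1 + (0 + 1)) = 2 * (k + 1) := by ring
    simp only [e1]
    field_simp

end Vale.Agent.P305E
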