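import Vale.Agent.P305E.Loop

/-!
# Engine, part 6: operations on lists, with their prices
-/

namespace Vale.Agent.P305E

section defs
variable {α β γ σ : Type}

/-- `List.foldl` with a fast function. -/
def foldP (g : σ → β → σ) (s : σ) (l : List β) : M σ := pay l.length (l.foldl g s)
/-- `List.reverse`. -/
def revP (l : List β) : M (List β) := pay l.length l.reverse
/-- `List.map` with a fast function. -/
def mapP (f : β → γ) (l : List β) : M (List γ) := pay l.length (l.map f)
/-- `List.filter` with a fast test. -/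
def filterP (p : β → Bool) (l : List β) : M (List β) := pay l.length (l.filter p)
/-- `List.filterMap` with a fast function. -/
def filterMapP (f : β → Option γ) (l : List β) : M (List γ) := pay l.length (l.filterMap f)
/-- `List.append`; the price is the length of the first list. -/
def appendP (l l' : List β) : M (List β) := pay l.length (l ++ l')
/-- `List.flatten`. -/
def flattenP (l : List (List β)) : M (List β) := pay (l.length + l.flatten.length) l.flatten
/-- `List.range`. -/
def rangeP (n : ℕ) : M (List ℕ) := pay n (List.range n)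
/-- `List.length`. -/
def lenP (l : List β) : M ℕ := .need l.length (pay l.length l.length)
/-- The sum of the values of a fast function. -/
def sumP (f : β → ℕ) (l : List β) : M ℕ := .need (l.map f).sum (pay l.length (l.map f).sum)
/-- `List.zipIdx`. -/
def zipIdxP (l : List β) : M (List (β × ℕ)) := .need l.length (pay l.length l.zipIdx)
/-- `List.any` with a fast test. -/
def anyP (p : β → Bool) (l : List β) : M Bool := pay l.length (l.any p)
/-- Powers of two. -/
def pow2 (k : ℕ) : M ℕ := .need (2 ^ k) (pure (2 ^ k))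
/-- A computation for each entry of a list; two ticks per entry. -/
def mapM' (f : β → M γ) (l : List β) : M (List γ) :=
  foldM (fun acc x => f x >>= fun y => pure (y :: acc)) [] l >>= revP

variable {c : Cx}

@[simp] theorem Tri_foldP (g : σ → β → σ) (s : σ) (l : List β) (Q : σ → ℕ → Prop) :
    Tri c (foldP g s l) Q ↔ Q (l.foldl g s) l.length := Tri_pay _ _ _
@[simp] theorem Tri_revP (l : List β) (Q : List β → ℕ → Prop) :
    Tri c (revP l) Q ↔ Q l.reverse l.length := Tri_pay _ _ _
@[simp] theorem Tri_mapP (f : β → γ) (l : List β) (Q : List γ → ℕ → Prop) :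
    Tri c (mapP f l) Q ↔ Q (l.map f) l.length := Tri_pay _ _ _
@[simp] theorem Tri_filterP (p : β → Bool) (l : List β) (Q : List β → ℕ → Prop) :
    Tri c (filterP p l) Q ↔ Q (l.filter p) l.length := Tri_pay _ _ _
@[simp] theorem Tri_filterMapP (f : β → Option γ) (l : List β) (Q : List γ → ℕ → Prop) :
    Tri c (filterMapP f l) Q ↔ Q (l.filterMap f) l.length := Tri_pay _ _ _
@[simp] theorem Tri_appendP (l l' : List β) (Q : List β → ℕ → Prop) :
    Tri c (appendP l l') Q ↔ Q (l ++ l') l.length := Tri_pay _ _ _
@[simp] theorem Tri_flattenP (l : List (List β)) (Q : List β → ℕ → Prop) :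
    Tri c (flattenP l) Q ↔ Q l.flatten (l.length + l.flatten.length) := Tri_pay _ _ _
@[simp] theorem Tri_rangeP (n : ℕ) (Q : List ℕ → ℕ → Prop) :
    Tri c (rangeP n) Q ↔ Q (List.range n) n := Tri_pay _ _ _
@[simp] theorem Tri_lenP (l : List β) (Q : ℕ → ℕ → Prop) :
    Tri c (lenP l) Q ↔ l.length ≤ c.B ∧ Q l.length l.length := by simp [lenP]
@[simp] theorem Tri_sumP (f : β → ℕ) (l : List β) (Q : ℕ → ℕ → Prop) :
    Tri c (sumP f l) Q ↔ (l.map f).sum ≤ c.B ∧ Q (l.map f).sum l.length := by
  simp only [sumP, Tri_need, Tri_pay]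
@[simp] theorem Tri_zipIdxP (l : List β) (Q : List (β × ℕ) → ℕ → Prop) :
    Tri c (zipIdxP l) Q ↔ l.length ≤ c.B ∧ Q l.zipIdx l.length := by simp [zipIdxP]
@[simp] theorem Tri_anyP (p : β → Bool) (l : List β) (Q : Bool → ℕ → Prop) :
    Tri c (anyP p l) Q ↔ Q (l.any p) l.length := Tri_pay _ _ _
@[simp] theorem Tri_pow2 (k : ℕ) (Q : ℕ → ℕ → Prop) :
    Tri c (pow2 k) Q ↔ 2 ^ k ≤ c.B ∧ Q (2 ^ k) 0 := Iff.rfl

theorem Tri.mapM' {f : β → M γ} {l : List β} {P : β → γ → Prop} {T : β → ℕ}
    (h : ∀ x ∈ l, Tri c (f x) fun y t => P x y ∧ t ≤ T x) :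
    Tri c (mapM' f l) fun l' t => List.Forall₂ P l l' ∧ t ≤ (l.map T).sum + 2 * l.length := by
  refine (Tri.foldM (fun pre acc t => List.Forall₂ P pre acc.reverse ∧
    t ≤ (pre.map T).sum + pre.length) (by simp) ?_).bind ?_
  · intro pre x rest acc t e hI
    simp only [Tri_bind, Tri_pure]
    refine (h x (by simp [e])).mono fun y t' hy => ⟨?_, ?_⟩
    · rw [List.reverse_cons]
      exact List.rel_append hI.1 (List.forall₂_cons.2 ⟨hy.1, List.Forall₂.nil⟩)
    · simp only [List.map_append, List.sum_append, List.length_append, List.map_singleton,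
        List.sum_singleton, List.length_singleton]
      omega
  · intro acc t hI
    have := hI.1.length_eq
    simp only [Tri_revP, List.length_reverse] at this ⊢
    exact ⟨hI.1, by omega⟩

/-- Fold with a deterministic specification of each round. -/
theorem Tri.foldM_det {f : σ → β → M σ} {g : σ → β → σ} {l : List β} {s : σ} {T : ℕ}
    (h : ∀ pre x rest, l = pre ++ x :: rest →
      Tri c (f (pre.foldl g s) x) fun s' t => s' = g (pre.foldl g s) x ∧ t ≤ T) :
    Tri c (P305E.foldM f s l) fun s' t => s' = l.foldl g s ∧ t ≤ l.length * (T + 1) := by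
  refine Tri.foldM (fun pre s' t => s' = pre.foldl g s ∧ t ≤ pre.length * (T + 1)) (by simp) ?_
  rintro pre x rest _ t e ⟨rfl, ht⟩
  refine (h pre x rest e).mono fun s' t' h' => ⟨by simp [h'.1], ?_⟩
  have := h'.2
  simp only [List.length_append, List.length_singleton]
  nlinarith

end defs

variable {α β γ σ : Type} [Rep α] [Rep β] [Rep γ] [Rep σ]

theorem lg_slack (B a T t : ℕ) (h : t ≤ a * T + a) : t + 1 ≤ lg B ^ (a + 1) * (T + 1) := by
  have := le_lg_pow B (a + 1)
  nlinarith

theorem Impl.need_pay {f : α → M β} (hf : Impl f) (k : ℕ) {n T : α → ℕ} {g : α → β}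
    (h : ∀ B a, 2 ≤ B → k ≤ B → (∃ v, R B v a) → n a ≤ B →
      Tri ⟨B, false⟩ (f a) fun b t => b = g a ∧ t + 1 ≤ lg B ^ k * (T a + 1)) :
    Impl fun a => M.need (n a) (pay (T a) (g a)) :=
  (hf.of_det k (P := fun _ => True) fun B a h1 h2 h3 _ h4 => h B a h1 h2 h3 h4).of_eq
    fun a => by simp [spec, pay]

@[fun_prop] theorem Impl.foldP {g : α → σ → β → σ} {s : α → σ} {l : α → List β}
    (hg : Pure fun p : α × σ × β => g p.1 p.2.1 p.2.2) (hs : Pure s) (hl : Pure l) :
    Impl fun a => foldP (g a) (s a) (l a) := by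
  refine (Impl.foldM (f := fun a s x => Pure.pure (g a s x)) (Impl.pure hg) hs hl).of_pay 2
    fun B a _ _ _ => ?_
  exact (Tri.foldM_det (g := g a) (T := 0) fun _ _ _ _ => by simp).mono
    fun _ _ h => ⟨h.1, lg_slack _ 1 _ _ (by have := h.2; omega)⟩

@[fun_prop] theorem Impl.revP {l : α → List β} (hl : Pure l) : Impl fun a => revP (l a) :=
  (show Impl fun a => P305E.foldP (fun acc x => x :: acc) [] (l a) by fun_prop).of_eq fun a => by
    simp [P305E.foldP, P305E.revP]

@[fun_prop] theorem Impl.filterMapP {f : α → β → Option γ} {l : α → List β}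
    (hf : Pure fun p : α × β => f p.1 p.2) (hl : Pure l) :
    Impl fun a => filterMapP (f a) (l a) := by
  have h : Impl fun a => P305E.foldP (fun acc x => (f a x).elim acc fun y => y :: acc) [] (l a)
      >>= P305E.revP := by fun_prop
  refine h.of_pay 3 fun B a _ _ _ => ?_
  have key : ∀ (l : List β) (acc : List γ), l.foldl (fun acc x => (f a x).elim acc
      fun y => y :: acc) acc = (l.filterMap (f a)).reverse ++ acc := by
    intro l
    induction l with
    | nil => simp
    | cons x l ih =>
      intro acc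
      rw [List.foldl_cons, ih, List.filterMap_cons]
      cases f a x <;> simp
  have := List.length_filterMap_le (f a) (l a)
  simp only [Tri_bind, Tri_foldP, Tri_revP, key, List.append_nil, List.reverse_reverse,
    List.length_reverse, true_and]
  exact lg_slack _ 2 _ _ (by omega)

@[fun_prop] theorem Impl.mapP {f : α → β → γ} {l : α → List β}
    (hf : Pure fun p : α × β => f p.1 p.2) (hl : Pure l) : Impl fun a => mapP (f a) (l a) :=
  (show Impl fun a => P305E.filterMapP (fun x => Option.some (f a x)) (l a) by fun_prop).of_eq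
    fun a => by simp [P305E.filterMapP, P305E.mapP]

@[fun_prop] theorem Impl.filterP {p : α → β → Bool} {l : α → List β}
    (hp : Pure fun q : α × β => p q.1 q.2) (hl : Pure l) : Impl fun a => filterP (p a) (l a) :=
  (show Impl fun a => P305E.filterMapP (fun x => if p a x = true then Option.some x else none)
    (l a) by fun_prop).of_eq fun a => by
    simp only [P305E.filterMapP, P305E.filterP]
    rw [← List.filterMap_eq_filter]
    congr 2

@[fun_prop] theorem Impl.appendP {l l' : α → List β} (hl : Pure l) (hl' : Pure l') :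
    Impl fun a => appendP (l a) (l' a) := by
  have h : Impl fun a => P305E.revP (l a) >>= fun r =>
      P305E.foldP (fun acc x => x :: acc) (l' a) r := by fun_prop
  refine h.of_pay 3 fun B a _ _ _ => ?_
  simp only [Tri_bind, Tri_foldP, Tri_revP, List.length_reverse]
  exact ⟨by simp, lg_slack _ 2 _ _ (by omega)⟩

@[fun_prop] theorem Impl.flattenP {l : α → List (List β)} (hl : Pure l) :
    Impl fun a => flattenP (l a) := by
  have h : Impl fun a => P305E.revP (l a) >>= fun r =>
      P305E.foldM (fun acc x => P305E.appendP x acc) [] r := by fun_prop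
  refine h.of_pay 3 fun B a _ _ _ => ?_
  simp only [Tri_bind, Tri_revP]
  refine (Tri.foldM (fun pre acc t => acc = pre.reverse.flatten ∧
    t = pre.length + pre.reverse.flatten.length) (by simp) ?_).mono ?_
  · rintro pre x rest _ t - ⟨rfl, rfl⟩
    simp only [Tri_appendP, List.reverse_append, List.reverse_singleton, List.singleton_append,
      List.flatten_cons, List.length_append, List.length_singleton, true_and]
    omega
  · rintro _ _ ⟨rfl, rfl⟩
    simp only [List.reverse_reverse, List.length_reverse, true_and]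
    exact lg_slack _ 2 _ _ (by omega)

@[fun_prop] theorem Impl.rangeP {n : α → ℕ} (hn : Pure n) : Impl fun a => rangeP (n a) := by
  have h : Impl fun a => P305E.iterM (fun acc i => Pure.pure (i :: acc)) [] (n a)
      >>= P305E.revP := by fun_prop
  refine h.of_pay 3 fun B a _ _ _ => ?_
  refine (Tri.iterM (fun k acc t => acc = (List.range k).reverse ∧ t = k) (by simp) ?_).bind ?_
  · rintro k _ _ - ⟨rfl, rfl⟩
    simp [List.range_succ]
  · rintro _ _ ⟨rfl, rfl⟩
    simp only [Tri_revP, List.reverse_reverse, List.length_reverse, List.length_range, true_and]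
    exact lg_slack _ 2 _ _ (by omega)

@[fun_prop] theorem Impl.sumP {f : α → β → ℕ} {l : α → List β}
    (hf : Grow fun p : α × β => f p.1 p.2) (hl : Pure l) : Impl fun a => sumP (f a) (l a) := by
  have h : Impl fun a => P305E.foldM (fun s x => P305E.num (s + f a x)) 0 (l a) := by fun_prop
  refine h.need_pay 2 fun B a _ _ _ hn => ?_
  refine (Tri.foldM (fun pre s t => s = (pre.map (f a)).sum ∧ t = pre.length) (by simp) ?_).mono ?_
  · rintro pre x rest _ _ e ⟨rfl, rfl⟩
    rw [e] at hn
    simp only [List.map_append, List.map_cons, List.sum_append, List.sum_cons] at hn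
    simp only [Tri_num, List.map_append, List.sum_append, List.length_append]
    exact ⟨by omega, by simp, by simp⟩
  · rintro _ _ ⟨rfl, rfl⟩
    exact ⟨rfl, lg_slack _ 1 _ _ (by omega)⟩

@[fun_prop] theorem Impl.lenP {l : α → List β} (hl : Pure l) : Impl fun a => lenP (l a) :=
  (show Impl fun a => P305E.sumP (fun _ => 1) (l a) by fun_prop).of_eq fun a => by
    simp [P305E.sumP, P305E.lenP]

@[fun_prop] theorem Impl.zipIdxP {l : α → List β} (hl : Pure l) :
    Impl fun a => zipIdxP (l a) := by
  have h : Impl fun a => P305E.foldM (fun (s : List (β × ℕ) × ℕ) x =>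
      P305E.num (s.2 + 1) >>= fun i => Pure.pure ((x, s.2) :: s.1, i)) ([], 0) (l a) >>= fun s =>
      P305E.revP s.1 := by fun_prop
  refine h.need_pay 3 fun B a _ _ _ hn => ?_
  refine (Tri.foldM (fun pre s t => s = (pre.zipIdx.reverse, pre.length) ∧ t = pre.length)
    (by simp) ?_).bind ?_
  · rintro pre x rest _ _ e ⟨rfl, rfl⟩
    rw [e] at hn
    simp only [List.length_append, List.length_cons] at hn
    simp only [Tri_bind, Tri_num, Tri_pure]
    exact ⟨by omega, by simp [List.zipIdx_append], by simp⟩
  · rintro _ _ ⟨rfl, rfl⟩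
    simp only [Tri_revP, List.reverse_reverse, List.length_reverse, List.length_zipIdx, true_and]
    exact lg_slack _ 2 _ _ (by omega)

@[fun_prop] theorem Impl.anyP {p : α → β → Bool} {l : α → List β}
    (hp : Pure fun q : α × β => p q.1 q.2) (hl : Pure l) : Impl fun a => anyP (p a) (l a) :=
  (show Impl fun a => P305E.foldP (fun s x => s || p a x) false (l a) by fun_prop).of_eq
    fun a => by
      simp only [P305E.foldP, P305E.anyP]
      congr 1
      have : ∀ (l : List β) (s : Bool), l.foldl (fun s x => s || p a x) s = (s || l.any (p a)) := by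
        intro l
        induction l with
        | nil => simp
        | cons x l ih => intro s; simp [ih, Bool.or_assoc]
      simp [this]

@[fun_prop] theorem Impl.pow2 {k : α → ℕ} (hk : Pure k) : Impl fun a => pow2 (k a) := by
  have h : Impl fun a => P305E.iterM (fun s _ => P305E.num (2 * s)) 1 (k a) := by fun_prop
  refine h.need_pay (T := fun _ => 0) 1 fun B a _ _ _ hn => ?_
  refine (Tri.iterM (fun i s t => s = 2 ^ i ∧ t = i) (by simp) ?_).mono ?_
  · rintro i _ _ hi ⟨rfl, rfl⟩
    simp only [Tri_num]
    exact ⟨le_trans (by rw [← pow_succ']; exact Nat.pow_le_pow_right (by omega) hi) hn,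
      by ring, trivial⟩
  · rintro _ _ ⟨rfl, rfl⟩
    have := Nat.lt_size.2 hn
    exact ⟨rfl, by simp only [lg, pow_one]; omega⟩

@[fun_prop] theorem Impl.mapM' {f : α → β → M γ} {l : α → List β}
    (hf : Impl fun p : α × β => f p.1 p.2) (hl : Pure l) : Impl fun a => mapM' (f a) (l a) := by
  unfold P305E.mapM'
  fun_prop

/-- The binary length of a number is fast. -/
@[fun_prop] theorem Pure.size {n : α → ℕ} (hn : Pure n) : Pure fun a => Nat.size (n a) := by
  have h : Impl fun n : ℕ => P305E.loopM (fun p : ℕ × ℕ => if p.1 = 0 then Pure.pure (.inr p.2) else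
      P305E.num (p.2 + 1) >>= fun s => Pure.pure (.inl (p.1 / 2, s))) (n + 1) (n, 0) := by fun_prop
  refine Pure.comp (f := Nat.size) (Pure.of_impl h 1 fun B n hB _ ⟨v, hv⟩ => ?_) hn
  have hsz : ∀ x : ℕ, x ≠ 0 → Nat.size x = Nat.size (x / 2) + 1 := by
    intro x hx
    conv_lhs => rw [← Nat.bit_bodd_div2 x]
    rw [Nat.size_bit (by rwa [Nat.bit_bodd_div2]), Nat.div2_val]
  have h1 : Nat.size n ≤ Nat.size B := Nat.size_le_size hv.2
  have h2 : Nat.size B ≤ B := Nat.size_le.2 Nat.lt_two_pow_self
  refine Tri.loopM (fun p t => p.2 + Nat.size p.1 = Nat.size n ∧ t = p.2) (fun p => p.1) ?_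
    (by simp) (by simp)
  rintro ⟨x, s⟩ _ ⟨hI, rfl⟩
  simp only [Tri_ite, Tri_pure, Tri_bind, Tri_num, Sum.elim_inl, Sum.elim_inr] at hI ⊢
  refine ⟨fun h0 => ?_, fun h0 => ?_⟩
  · subst h0
    simp only [Nat.size_zero, add_zero] at hI
    exact ⟨hI, by simp only [lg, pow_one]; omega⟩
  · have := hsz x h0
    exact ⟨by omega, ⟨by omega, by simp⟩, by omega⟩

end Vale.Agent.P305E
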