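import Vale.Agent.P305E.GraphIO

/-!
# Engine: two-colouring of bipartite graphs
-/

namespace Vale.Agent.P305E

open Finset

variable {n : ℕ}

/-- One step of the search: a stack of vertices with colours, the marks and the colours. -/
def colStep (adj : Arr (List ℕ)) (p : List (ℕ × Bool) × Arr Bool × Arr Bool) :
    M ((List (ℕ × Bool) × Arr Bool × Arr Bool) ⊕ (Arr Bool × Arr Bool)) :=
  caseL p.1 (pure (.inr p.2)) fun x rest =>
    if p.2.1.get x.1 = true then pure (.inl (rest, p.2)) else
      foldP (fun st w => (w, !x.2) :: st) rest (adj.get x.1) >>= fun st =>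
        pure (.inl (st, p.2.1.set x.1 true, p.2.2.set x.1 x.2))

/-- A colouring with two colours. -/
def colour (n : ℕ) (adj : Arr (List ℕ)) : M (Arr Bool) :=
  iterM (fun s v => loopM (colStep adj) (∑ u ∈ range n, (adj.get u).length + 2) ([(v, true)], s))
    (Arr.const false, Arr.const false) n >>= fun s => pure s.2

@[fun_prop] theorem impl_colour : Impl fun p : ℕ × Arr (List ℕ) => colour p.1 p.2 := by
  unfold colour colStep
  fun_prop

/-- Total length of the adjacency lists of the unmarked vertices. -/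
def remA (n : ℕ) (adj : Arr (List ℕ)) (vis : Arr Bool) : ℕ :=
  ∑ u ∈ range n, if vis.get u = true then 0 else (adj.get u).length

theorem remA_set {v : ℕ} (adj : Arr (List ℕ)) {vis : Arr Bool} (hv : v < n)
    (h : ¬ vis.get v = true) :
    remA n adj (vis.set v true) + (adj.get v).length = remA n adj vis := by
  unfold remA
  rw [← add_sum_erase _ _ (mem_range.2 hv), ← add_sum_erase _ _ (mem_range.2 hv), if_neg h,
    Arr.get_set_self, if_pos rfl, zero_add, add_comm]
  exact congrArg _ (sum_congr rfl fun j hj => by rw [Arr.get_set_ne _ (ne_of_mem_erase hj)])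

theorem remA_le (adj : Arr (List ℕ)) (vis : Arr Bool) :
    remA n adj vis ≤ ∑ u ∈ range n, (adj.get u).length :=
  sum_le_sum fun u _ => by split_ifs <;> omega

theorem foldl_push {α β : Type} (f : α → β) (l : List α) (r : List β) :
    l.foldl (fun st w => f w :: st) r = (l.map f).reverse ++ r := by
  induction l generalizing r with
  | nil => rfl
  | cons x l ih => simp [ih]

theorem colLoop_tri {c : Cx} {G : SimpleGraph (Fin n)} {adj : Arr (List ℕ)} (hA : AdjOK G adj)
    {χ : ℕ → Bool} (hχ : ∀ u v, GA G u v → χ u ≠ χ v) {s : Arr Bool × Arr Bool} {v : ℕ}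
    (hv : v < n) (h1 : ∀ u, s.1.get u = true → s.2.get u = χ u)
    (h2 : ∀ u w, s.1.get u = true → GA G u w → s.1.get w = true)
    (h3 : ¬ s.1.get v = true → χ v = true) :
    Tri c (loopM (colStep adj) (∑ u ∈ range n, (adj.get u).length + 2) ([(v, true)], s))
      fun s' t => (∀ u, s'.1.get u = true → s'.2.get u = χ u) ∧
        (∀ u w, s'.1.get u = true → GA G u w → s'.1.get w = true) ∧
        (∀ u, s.1.get u = true → s'.1.get u = true) ∧ s'.1.get v = true ∧
        t + 2 * remA n adj s'.1 ≤ 2 * remA n adj s.1 + 1 := by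
  refine Tri.loopM (fun p t => (∀ u, p.2.1.get u = true → p.2.2.get u = χ u) ∧
    (∀ x ∈ p.1, x.1 < n ∧ (¬ p.2.1.get x.1 = true → x.2 = χ x.1)) ∧
    (∀ u w, p.2.1.get u = true → GA G u w → p.2.1.get w = true ∨ ∃ b, (w, b) ∈ p.1) ∧
    (∀ u, s.1.get u = true → p.2.1.get u = true) ∧ (p.2.1.get v = true ∨ ∃ b, (v, b) ∈ p.1) ∧
    t + p.1.length + 2 * remA n adj p.2.1 ≤ 2 * remA n adj s.1 + 1)
    (fun p => p.1.length + remA n adj p.2.1) ?_ ?_ ?_
  · rintro ⟨st, vis, col⟩ t ⟨a1, a2, a3, a4, a5, a6⟩
    simp only at a1 a2 a3 a4 a5 a6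
    rcases st with _ | ⟨⟨x, b⟩, rest⟩
    · simp only [colStep, caseL_nil, Tri_pure, Sum.elim_inr]
      exact ⟨a1, fun u w a b => by simpa using a3 u w a b, a4, by simpa using a5,
        by simpa using a6⟩
    · simp only [colStep, caseL_cons, Tri_ite, Tri_pure, Tri_bind, Tri_foldP, Sum.elim_inl,
        foldl_push, List.length_cons] at a6 ⊢
      have hx := a2 (x, b) (by simp)
      refine ⟨fun h => ⟨⟨a1, fun y hy => a2 y (by simp [hy]), fun u w a d => ?_, a4, ?_,
        by omega⟩, by omega⟩, fun h => ?_⟩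
      · rcases a3 u w a d with e | ⟨b', e⟩
        · exact Or.inl e
        · rcases List.mem_cons.1 e with e | e
          · exact Or.inl ((Prod.mk.inj e).1 ▸ h)
          · exact Or.inr ⟨b', e⟩
      · rcases a5 with e | ⟨b', e⟩
        · exact Or.inl e
        · rcases List.mem_cons.1 e with e | e
          · exact Or.inl ((Prod.mk.inj e).1 ▸ h)
          · exact Or.inr ⟨b', e⟩
      · have hr := remA_set (v := x) adj hx.1 h
        have hm : ∀ u, vis.get u = true → (vis.set x true).get u = true := fun u a => by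
          rw [Arr.get_set]; split_ifs <;> simp [a]
        have hs : ∀ w b', (w, b') ∈ (x, b) :: rest → (vis.set x true).get w = true ∨
            ∃ b'', (w, b'') ∈ ((adj.get x).map fun w => (w, !b)).reverse ++ rest := by
          intro w b' e
          rcases List.mem_cons.1 e with e | e
          · exact Or.inl (by rw [(Prod.mk.inj e).1, Arr.get_set_self])
          · exact Or.inr ⟨b', List.mem_append_right _ e⟩
        simp only [List.length_append, List.length_reverse, List.length_map]
        refine ⟨⟨fun u a => ?_, fun y hy => ?_, fun u w a d => ?_, fun u a => hm u (a4 u a),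
          a5.elim (fun e => Or.inl (hm _ e)) fun ⟨b', e⟩ => hs _ _ e, by omega⟩, by omega⟩
        · rw [Arr.get_set] at a ⊢
          split_ifs at a ⊢ with e
          · exact e ▸ hx.2 h
          · exact a1 u a
        · rcases List.mem_append.1 hy with e | e
          · obtain ⟨w, a, rfl⟩ := List.mem_map.1 (List.mem_reverse.1 e)
            have d := (hA.mem _ _).1 a
            have := hχ _ _ d
            refine ⟨d.lt', fun _ => ?_⟩
            rw [show b = χ x from hx.2 h]
            revert this
            cases χ x <;> cases χ w <;> simp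
          · exact ⟨(a2 y (by simp [e])).1, fun a => (a2 y (by simp [e])).2 fun d => a (hm _ d)⟩
        · rw [Arr.get_set] at a
          split_ifs at a with e
          · subst e
            exact Or.inr ⟨!b, by simp [(hA.mem _ _).2 d]⟩
          · exact (a3 u w a d).elim (fun e => Or.inl (hm _ e)) fun ⟨b', e⟩ => hs _ _ e
  · refine ⟨h1, fun x hx => ?_, fun u w a b => Or.inl (h2 u w a b), fun _ a => a,
      Or.inr ⟨true, by simp⟩, by simp only [List.length_singleton]; omega⟩
    obtain rfl := List.mem_singleton.1 hx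
    exact ⟨hv, fun a => (h3 a).symm⟩
  · have := remA_le (n := n) adj s.1
    simp only [List.length_singleton]
    omega

theorem colour_tri {c : Cx} {G : SimpleGraph (Fin n)} {adj : Arr (List ℕ)} (hA : AdjOK G adj)
    (hG : G.IsBipartite) : Tri c (colour n adj) fun col t =>
      (∀ u v, GA G u v → col.get u ≠ col.get v) ∧ t ≤ 2 * n + 4 * G.edgeSet.ncard := by
  obtain ⟨C⟩ := hG
  refine (Tri.iterM (fun k (s : Arr Bool × Arr Bool) t => (∃ χ : ℕ → Bool,
    (∀ u v, GA G u v → χ u ≠ χ v) ∧ ∀ u, s.1.get u = true → s.2.get u = χ u) ∧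
    (∀ u w, s.1.get u = true → GA G u w → s.1.get w = true) ∧ (∀ u < k, s.1.get u = true) ∧
    t + 2 * remA n adj s.1 ≤ 2 * k + 4 * G.edgeSet.ncard) ?_ ?_).bind ?_
  · refine ⟨⟨fun u => if h : u < n then decide (C ⟨u, h⟩ = 0) else false, ?_, by simp⟩, by simp,
      by simp, ?_⟩
    · rintro u v ⟨a, b, h⟩
      have := C.valid h
      simp only [a, b, dite_true, ne_eq, decide_eq_decide]
      omega
    · have := remA_le (n := n) adj (Arr.const false)
      have := hA.len
      simp only
      omega
  · rintro k s t hk ⟨⟨χ, a1, a2⟩, a3, a4, a5⟩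
    have hχ : ∀ u v, GA G u v → (if s.1.get u = true then χ u else (χ u == χ k)) ≠
        if s.1.get v = true then χ v else (χ v == χ k) := fun u v d => by
      have e : s.1.get u = true ↔ s.1.get v = true :=
        ⟨fun a => a3 _ _ a d, fun a => a3 _ _ a d.symm⟩
      have := a1 u v d
      by_cases a : s.1.get u = true
      · simpa [a, e.1 a] using this
      · have b : ¬ s.1.get v = true := fun b => a (e.2 b)
        simp only [a, b]
        revert this
        cases χ u <;> cases χ v <;> cases χ k <;> simp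
    refine (colLoop_tri hA hχ hk (fun u a => by simp [a, a2 u a]) a3
      (fun a => by simp [a])).mono ?_
    · rintro s' t' ⟨b1, b2, b3, b4, b5⟩
      refine ⟨⟨_, hχ, b1⟩, b2, fun u hu => ?_, by omega⟩
      · rcases Nat.lt_succ_iff_lt_or_eq.1 hu with e | rfl
        · exact b3 u (a4 u e)
        · exact b4
  · rintro s t ⟨⟨χ, a1, a2⟩, -, a4, a5⟩
    simp only [Tri_pure]
    refine ⟨fun u v d => ?_, by omega⟩
    rw [a2 u (a4 u d.lt), a2 v (a4 v d.lt')]
    exact a1 u v d

/-- The list of the pairs `(u, w)` with `u < n`, `w` in the list of `u`, that pass a test. -/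
def pairsP (n : ℕ) (adj : Arr (List ℕ)) (p : ℕ → ℕ → Bool) : M (List (ℕ × ℕ)) :=
  iterM (fun acc u => foldP (fun acc w => if p u w = true then (u, w) :: acc else acc) acc
    (adj.get u)) [] n

@[fun_prop] theorem Impl.pairsP {α : Type} [Rep α] {n : α → ℕ} {adj : α → Arr (List ℕ)}
    {p : α → ℕ → ℕ → Bool} (hn : Pure n) (ha : Pure adj)
    (hp : Pure fun q : α × ℕ × ℕ => p q.1 q.2.1 q.2.2) :
    Impl fun a => pairsP (n a) (adj a) (p a) := by
  unfold P305E.pairsP
  have : Pure fun q : (α × List (ℕ × ℕ) × ℕ) × List (ℕ × ℕ) × ℕ => p q.1.1 q.1.2.2 q.2.2 :=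
    Pure.comp (g := fun q : (α × List (ℕ × ℕ) × ℕ) × List (ℕ × ℕ) × ℕ => (q.1.1, q.1.2.2, q.2.2))
      hp (by fun_prop)
  fun_prop

theorem pairsP_tri {c : Cx} {G : SimpleGraph (Fin n)} {adj : Arr (List ℕ)} (hA : AdjOK G adj)
    (p : ℕ → ℕ → Bool) : Tri c (pairsP n adj p) fun E t =>
      (∀ u w, (u, w) ∈ E ↔ GA G u w ∧ p u w = true) ∧ E.Nodup ∧
      E.length ≤ 2 * G.edgeSet.ncard ∧ t ≤ n + 2 * G.edgeSet.ncard := by
  have key : ∀ (u : ℕ) (l : List ℕ) (acc : List (ℕ × ℕ)),
      l.foldl (fun acc w => if p u w = true then (u, w) :: acc else acc) acc =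
      ((l.filter (p u)).map fun w => (u, w)).reverse ++ acc := by
    intro u l
    induction l with
    | nil => simp
    | cons x l ih =>
      intro acc
      rw [List.foldl_cons, ih, List.filter_cons]
      split_ifs <;> simp
  refine (Tri.iterM (fun k (E : List (ℕ × ℕ)) t =>
    (∀ u w, (u, w) ∈ E ↔ u < k ∧ GA G u w ∧ p u w = true) ∧ E.Nodup ∧
    E.length ≤ ∑ u ∈ range k, (adj.get u).length ∧
    t = k + ∑ u ∈ range k, (adj.get u).length) (by simp) ?_).mono ?_
  · rintro k E _ hk ⟨a1, a2, a3, rfl⟩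
    simp only [Tri_foldP, key, sum_range_succ]
    refine ⟨fun u w => ?_, ?_, ?_, by omega⟩
    · simp only [List.mem_append, List.mem_reverse, List.mem_map, List.mem_filter, hA.mem, a1,
        Prod.mk.injEq]
      constructor
      · rintro (⟨x, a, rfl, rfl⟩ | a)
        · exact ⟨by omega, a⟩
        · exact ⟨by omega, a.2⟩
      · rintro ⟨a, b⟩
        rcases Nat.lt_succ_iff_lt_or_eq.1 a with e | rfl
        · exact Or.inr ⟨e, b⟩
        · exact Or.inl ⟨w, b, rfl, rfl⟩
    · refine List.nodup_append.2 ⟨List.nodup_reverse.2 (((hA.nodup k).filter _).map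
        fun x y e => (Prod.mk.inj e).2), a2, ?_⟩
      rintro x hx _ hy rfl
      obtain ⟨w, -, rfl⟩ := List.mem_map.1 (List.mem_reverse.1 hx)
      exact lt_irrefl _ ((a1 _ _).1 hy).1
    · have := List.length_filter_le (p k) (adj.get k)
      simp only [List.length_append, List.length_reverse, List.length_map]
      omega
  · rintro E _ ⟨a1, a2, a3, rfl⟩
    rw [hA.len] at a3 ⊢
    exact ⟨fun u w => (a1 u w).trans ⟨fun a => a.2, fun a => ⟨a.1.lt, a⟩⟩, a2, a3, le_rfl⟩

end Vale.Agent.P305E
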