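import Mathlib.Tactic
import Mathlib.Data.Nat.Size

/-!
# Engine, part 1: values, code, big-step semantics, and the monad of computations

`Ex` is a small call-by-value combinator language on trees of numbers.  `M` is the free monad of
computations that flip coins (`coin`), spend time (`tick`), assume that a number fits into a word
(`need`) or give up (`fail`).
-/

namespace Vale.Agent.P305E

/-- Values: trees of numbers. -/
inductive V
  | nat (n : ℕ)
  | pair (a b : V)

/-- Binary operations on numbers. -/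
inductive Bop
  | add | sub | mul | div | mod | lt | eq

/-- Value of an operation. -/
def Bop.eval : Bop → ℕ → ℕ → ℕ
  | .add, a, b => a + b
  | .sub, a, b => a - b
  | .mul, a, b => a * b
  | .div, a, b => a / b
  | .mod, a, b => a % b
  | .lt, a, b => if a < b then 1 else 0
  | .eq, a, b => if a = b then 1 else 0

/-- Number of an operation. -/
def Bop.code : Bop → ℕ
  | .add => 0
  | .sub => 1
  | .mul => 2
  | .div => 3
  | .mod => 4
  | .lt => 5
  | .eq => 6

/-- Code; every instruction acts on one value, the environment. -/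
inductive Ex
  | id
  | fst
  | snd
  | lit (n : ℕ)
  | op (o : Bop)
  | coin
  | lam (b : Ex)
  | app
  | ite (e₁ e₂ : Ex)
  | pair (e₁ e₂ : Ex)
  | comp (e₁ e₂ : Ex)

/-- Code as a value. -/
def Ex.quote : Ex → V
  | .id => .pair (.nat 0) (.nat 0)
  | .fst => .pair (.nat 1) (.nat 0)
  | .snd => .pair (.nat 2) (.nat 0)
  | .lit n => .pair (.nat 3) (.nat n)
  | .op o => .pair (.nat 4) (.nat o.code)
  | .coin => .pair (.nat 5) (.nat 0)
  | .lam b => .pair (.nat 6) b.quote
  | .app => .pair (.nat 7) (.nat 0)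
  | .ite e₁ e₂ => .pair (.nat 8) (.pair e₁.quote e₂.quote)
  | .pair e₁ e₂ => .pair (.nat 9) (.pair e₁.quote e₂.quote)
  | .comp e₁ e₂ => .pair (.nat 10) (.pair e₁.quote e₂.quote)

/-- `Ev W ω e v i t v' i'`: code `e` on the value `v`, with the random bits `ω i, ω (i + 1), …`,
gives `v'` in `t` steps; then the next random bit is `ω i'`. Results of operations are `≤ W`. -/
inductive Ev (W : ℕ) (ω : ℕ → Bool) : Ex → V → ℕ → ℕ → V → ℕ → Prop
  | id (v : V) (i : ℕ) : Ev W ω .id v i 1 v i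
  | fst (a b : V) (i : ℕ) : Ev W ω .fst (.pair a b) i 1 a i
  | snd (a b : V) (i : ℕ) : Ev W ω .snd (.pair a b) i 1 b i
  | lit (n : ℕ) (v : V) (i : ℕ) : Ev W ω (.lit n) v i 1 (.nat n) i
  | op (o : Bop) (a b i : ℕ) (h : o.eval a b ≤ W) :
      Ev W ω (.op o) (.pair (.nat a) (.nat b)) i 1 (.nat (o.eval a b)) i
  | coin (v : V) (i : ℕ) : Ev W ω .coin v i 1 (.nat (if ω i then 1 else 0)) (i + 1)
  | lam (b : Ex) (v : V) (i : ℕ) : Ev W ω (.lam b) v i 1 (.pair b.quote v) i
  | app (b : Ex) (ρ a v' : V) (i t i' : ℕ)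
      (h : Ev W ω b (.pair (.pair b.quote ρ) a) i t v' i') :
      Ev W ω .app (.pair (.pair b.quote ρ) a) i (t + 1) v' i'
  | iteT (e₁ e₂ : Ex) (c r v' : V) (i t i' : ℕ) (hc : c ≠ .nat 0) (h : Ev W ω e₁ r i t v' i') :
      Ev W ω (.ite e₁ e₂) (.pair c r) i (t + 1) v' i'
  | iteF (e₁ e₂ : Ex) (r v' : V) (i t i' : ℕ) (h : Ev W ω e₂ r i t v' i') :
      Ev W ω (.ite e₁ e₂) (.pair (.nat 0) r) i (t + 1) v' i'
  | pair (e₁ e₂ : Ex) (v v₁ v₂ : V) (i t₁ i₁ t₂ i₂ : ℕ) (h₁ : Ev W ω e₁ v i t₁ v₁ i₁)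
      (h₂ : Ev W ω e₂ v i₁ t₂ v₂ i₂) : Ev W ω (.pair e₁ e₂) v i (t₁ + t₂ + 1) (.pair v₁ v₂) i₂
  | comp (e₁ e₂ : Ex) (v v₁ v₂ : V) (i t₁ i₁ t₂ i₂ : ℕ) (h₁ : Ev W ω e₁ v i t₁ v₁ i₁)
      (h₂ : Ev W ω e₂ v₁ i₁ t₂ v₂ i₂) : Ev W ω (.comp e₁ e₂) v i (t₁ + t₂ + 1) v₂ i₂

/-- The value of a list of numbers. -/
def V.ofList : List ℕ → V
  | [] => .nat 0
  | a :: l => .pair (.nat a) (V.ofList l)

/-! ### Computations -/

/-- Computations. -/
inductive M (β : Type) : Type
  | ret (b : β)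
  | coin (k : Bool → M β)
  | tick (k : M β)
  | need (n : ℕ) (k : M β)
  | fail

variable {α β γ : Type}

/-- Sequencing. -/
def M.bind : M α → (α → M β) → M β
  | .ret a, f => f a
  | .coin k, f => .coin fun x => (k x).bind f
  | .tick k, f => .tick (k.bind f)
  | .need n k, f => .need n (k.bind f)
  | .fail, _ => .fail

instance : Monad M where
  pure := M.ret
  bind := M.bind

theorem M.pure_def (a : α) : (pure a : M α) = .ret a := rfl
theorem M.bind_def (m : M α) (f : α → M β) : m >>= f = m.bind f := rfl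

/-- One more tick. -/
def addT (r : β × ℕ × ℕ) : β × ℕ × ℕ := (r.1, r.2.1, r.2.2 + 1)

/-- The run of a computation with word bound `B` and random bits `ω i, ω (i + 1), …`: the result,
the position of the next random bit and the number of ticks (a coin counts as a tick). -/
def M.run (B : ℕ) (ω : ℕ → Bool) : M β → ℕ → Option (β × ℕ × ℕ)
  | .ret b, i => some (b, i, 0)
  | .coin k, i => ((k (ω i)).run B ω (i + 1)).map addT
  | .tick k, i => (k.run B ω i).map addT
  | .need n k, i => if n ≤ B then k.run B ω i else none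
  | .fail, _ => none

theorem M.run_bind {B : ℕ} {ω : ℕ → Bool} (m : M α) (f : α → M β) (i : ℕ) {b : β} {i' t : ℕ} :
    (m.bind f).run B ω i = some (b, i', t) ↔ ∃ a i₁ t₁ t₂, m.run B ω i = some (a, i₁, t₁) ∧
      (f a).run B ω i₁ = some (b, i', t₂) ∧ t = t₁ + t₂ := by
  induction m generalizing i t with
  | ret a =>
    simp only [M.bind, M.run, Option.some.injEq, Prod.mk.injEq]
    constructor
    · intro h
      exact ⟨a, i, 0, t, ⟨rfl, rfl, rfl⟩, h, by simp⟩
    · rintro ⟨a', i₁, t₁, t₂, ⟨rfl, rfl, rfl⟩, h, rfl⟩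
      simpa using h
  | coin k ih =>
    simp only [M.bind, M.run, Option.map_eq_some_iff, addT, Prod.mk.injEq, Prod.exists]
    constructor
    · rintro ⟨b', j, s, h, rfl, rfl, rfl⟩
      obtain ⟨a, i₁, t₁, t₂, h1, h2, rfl⟩ := (ih _ _).1 h
      exact ⟨a, i₁, t₁ + 1, t₂, ⟨a, i₁, t₁, h1, rfl, rfl, rfl⟩, h2, by omega⟩
    · rintro ⟨a, i₁, t₁, t₂, ⟨a', j, s, h1, rfl, rfl, rfl⟩, h2, rfl⟩
      exact ⟨b, i', s + t₂, (ih _ _).2 ⟨a', j, s, t₂, h1, h2, rfl⟩, rfl, rfl, by omega⟩
  | tick k ih =>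
    simp only [M.bind, M.run, Option.map_eq_some_iff, addT, Prod.mk.injEq, Prod.exists]
    constructor
    · rintro ⟨b', j, s, h, rfl, rfl, rfl⟩
      obtain ⟨a, i₁, t₁, t₂, h1, h2, rfl⟩ := (ih _).1 h
      exact ⟨a, i₁, t₁ + 1, t₂, ⟨a, i₁, t₁, h1, rfl, rfl, rfl⟩, h2, by omega⟩
    · rintro ⟨a, i₁, t₁, t₂, ⟨a', j, s, h1, rfl, rfl, rfl⟩, h2, rfl⟩
      exact ⟨b, i', s + t₂, (ih _).2 ⟨a', j, s, t₂, h1, h2, rfl⟩, rfl, rfl, by omega⟩
  | need n k ih =>
    simp only [M.bind, M.run]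
    split_ifs with h
    · exact ih i
    · simp
  | fail => simp [M.bind, M.run]

/-- `t` ticks, then `m`. -/
def ticks : ℕ → M β → M β
  | 0, m => m
  | t + 1, m => .tick (ticks t m)

/-- A number that is assumed to fit into a word. -/
def num (n : ℕ) : M ℕ := .need n (.ret n)

/-- A fair coin. -/
def flip : M Bool := .coin .ret

open Classical in
/-- The computation that, under the condition `P` and if `n` fits into a word, returns `b` after
`t` ticks. -/
noncomputable def spec (P : Prop) (n t : ℕ) (b : β) : M β :=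
  if P then .need n (ticks t (.ret b)) else .fail

/-! ### The triple (all paths) -/

/-- Contexts of triples: the word bound, and whether coins may be used. -/
structure Cx where
  B : ℕ
  cn : Bool

/-- `Tri c m Q`: on all paths, `m` does not fail, its needs are `≤ c.B`, and the result `b` and
the number `t` of ticks satisfy `Q b t`. -/
def Tri (c : Cx) : M β → (β → ℕ → Prop) → Prop
  | .ret b, Q => Q b 0
  | .coin k, Q => c.cn = true ∧ ∀ x, Tri c (k x) fun b t => Q b (t + 1)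
  | .tick k, Q => Tri c k fun b t => Q b (t + 1)
  | .need n k, Q => n ≤ c.B ∧ Tri c k Q
  | .fail, _ => False

variable {c : Cx}

@[simp] theorem Tri_ret (b : β) (Q : β → ℕ → Prop) : Tri c (.ret b) Q ↔ Q b 0 := Iff.rfl
@[simp] theorem Tri_pure (b : β) (Q : β → ℕ → Prop) : Tri c (pure b) Q ↔ Q b 0 := Iff.rfl
@[simp] theorem Tri_tick (k : M β) (Q : β → ℕ → Prop) :
    Tri c (.tick k) Q ↔ Tri c k fun b t => Q b (t + 1) := Iff.rfl
@[simp] theorem Tri_need (n : ℕ) (k : M β) (Q : β → ℕ → Prop) :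
    Tri c (.need n k) Q ↔ n ≤ c.B ∧ Tri c k Q := Iff.rfl
@[simp] theorem Tri_fail (Q : β → ℕ → Prop) : Tri c (.fail : M β) Q ↔ False := Iff.rfl
@[simp] theorem Tri_coin (k : Bool → M β) (Q : β → ℕ → Prop) :
    Tri c (.coin k) Q ↔ c.cn = true ∧ ∀ x, Tri c (k x) fun b t => Q b (t + 1) := Iff.rfl
@[simp] theorem Tri_num (n : ℕ) (Q : ℕ → ℕ → Prop) : Tri c (num n) Q ↔ n ≤ c.B ∧ Q n 0 := Iff.rfl
@[simp] theorem Tri_flip (Q : Bool → ℕ → Prop) :
    Tri c flip Q ↔ c.cn = true ∧ ∀ x, Q x 1 := Iff.rfl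

theorem Tri.mono {m : M β} {Q Q' : β → ℕ → Prop} (h : Tri c m Q)
    (hQ : ∀ b t, Q b t → Q' b t) : Tri c m Q' := by
  induction m generalizing Q Q' with
  | ret b => exact hQ _ _ h
  | coin k ih => exact ⟨h.1, fun x => ih x (h.2 x) fun b t => hQ b (t + 1)⟩
  | tick k ih => exact ih h fun b t => hQ b (t + 1)
  | need n k ih => exact ⟨h.1, ih h.2 hQ⟩
  | fail => exact h

theorem Tri.and {m : M β} {Q Q' : β → ℕ → Prop} (h : Tri c m Q) (h' : Tri c m Q') :
    Tri c m fun b t => Q b t ∧ Q' b t := by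
  induction m generalizing Q Q' with
  | ret b => exact ⟨h, h'⟩
  | coin k ih => exact ⟨h.1, fun x => ih x (h.2 x) (h'.2 x)⟩
  | tick k ih => exact ih h h'
  | need n k ih => exact ⟨h.1, ih h.2 h'.2⟩
  | fail => exact h

theorem Tri_mbind (m : M α) (f : α → M β) (Q : β → ℕ → Prop) :
    Tri c (m.bind f) Q ↔ Tri c m fun a t => Tri c (f a) fun b t' => Q b (t + t') := by
  induction m generalizing Q with
  | ret a => simp [M.bind]
  | coin k ih =>
    simp only [M.bind, Tri_coin, ih]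
    simp only [Nat.add_right_comm]
  | tick k ih =>
    simp only [M.bind, Tri_tick, ih]
    simp only [Nat.add_right_comm]
  | need n k ih => simp only [M.bind, Tri_need, ih]
  | fail => simp [M.bind]

@[simp] theorem Tri_bind (m : M α) (f : α → M β) (Q : β → ℕ → Prop) :
    Tri c (m >>= f) Q ↔ Tri c m fun a t => Tri c (f a) fun b t' => Q b (t + t') :=
  Tri_mbind m f Q

/-- The usual rule for sequencing. -/
theorem Tri.bind {m : M α} {f : α → M β} {P : α → ℕ → Prop} {Q : β → ℕ → Prop}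
    (h : Tri c m P) (hf : ∀ a t, P a t → Tri c (f a) fun b t' => Q b (t + t')) :
    Tri c (m >>= f) Q :=
  (Tri_bind m f Q).2 (h.mono hf)

@[simp] theorem Tri_ticks (t : ℕ) (m : M β) (Q : β → ℕ → Prop) :
    Tri c (ticks t m) Q ↔ Tri c m fun b t' => Q b (t' + t) := by
  induction t generalizing Q with
  | zero => simp [ticks]
  | succ t ih => simp only [ticks, Tri_tick, ih, Nat.add_assoc]

@[simp] theorem Tri_spec (P : Prop) (n t : ℕ) (b : β) (Q : β → ℕ → Prop) :
    Tri c (spec P n t b) Q ↔ P ∧ n ≤ c.B ∧ Q b t := by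
  unfold spec
  split_ifs with h <;> simp [h]

@[simp] theorem Tri_ite (p : Prop) [Decidable p] (m m' : M β) (Q : β → ℕ → Prop) :
    Tri c (if p then m else m') Q ↔ (p → Tri c m Q) ∧ (¬ p → Tri c m' Q) := by
  split_ifs with h <;> simp [h]

/-- A deterministic triple describes the run. -/
theorem Tri.run_det {B : ℕ} {m : M β} {Q : β → ℕ → Prop} (h : Tri ⟨B, false⟩ m Q)
    (ω : ℕ → Bool) (i : ℕ) : ∃ b t, m.run B ω i = some (b, i, t) ∧ Q b t := by
  induction m generalizing Q with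
  | ret b => exact ⟨b, 0, rfl, h⟩
  | coin k ih => exact absurd h.1 (by simp)
  | tick k ih =>
    obtain ⟨b, t, h1, h2⟩ := ih h
    exact ⟨b, t + 1, by simp [M.run, h1, addT], h2⟩
  | need n k ih =>
    obtain ⟨b, t, h1, h2⟩ := ih h.2
    exact ⟨b, t, by simp only [M.run, if_pos (show n ≤ B from h.1), h1], h2⟩
  | fail => exact h.elim

theorem run_ticks {B : ℕ} {ω : ℕ → Bool} (t : ℕ) (b : β) (i : ℕ) :
    (ticks t (.ret b)).run B ω i = some (b, i, t) := by
  induction t with
  | zero => rfl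
  | succ t ih => simp [ticks, M.run, ih, addT]

theorem run_spec {B : ℕ} {ω : ℕ → Bool} {P : Prop} {n t : ℕ} {b b' : β} {i i' t' : ℕ}
    (h : (spec P n t b).run B ω i = some (b', i', t')) :
    P ∧ n ≤ B ∧ b' = b ∧ i' = i ∧ t' = t := by
  unfold spec at h
  split_ifs at h with hP
  · simp only [M.run] at h
    split_ifs at h with hn
    rw [run_ticks] at h
    simp only [Option.some.injEq, Prod.mk.injEq] at h
    exact ⟨hP, hn, h.1.symm, h.2.1.symm, h.2.2.symm⟩
  · simp [M.run] at h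

/-! ### Expectations -/

/-- `wp B m F p`: the expectation of `F b t` (`b` the result, `t` the number of ticks); runs that
fail or need more than `B` count as `p`. -/
noncomputable def wp (B : ℕ) : M β → (β → ℕ → ℝ) → ℝ → ℝ
  | .ret b, F, _ => F b 0
  | .coin k, F, p => (wp B (k true) (fun b t => F b (t + 1)) p +
      wp B (k false) (fun b t => F b (t + 1)) p) / 2
  | .tick k, F, p => wp B k (fun b t => F b (t + 1)) p
  | .need n k, F, p => if n ≤ B then wp B k F p else p
  | .fail, _, p => p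

end Vale.Agent.P305E
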