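import Vale.Agent.P305E.Impl

/-!
# Engine, part 4: `fun_prop` rules for comparisons, integers, lists, options, sums and trees
-/

namespace Vale.Agent.P305E

variable {α β γ δ : Type} [Rep α] [Rep β] [Rep γ] [Rep δ]

/-! ### Comparisons of numbers, booleans -/

attribute [fun_prop] PPred.nat_lt

@[fun_prop] theorem PPred.nat_le {f g : α → ℕ} (hf : Grow f) (hg : Grow g) :
    PPred fun a => f a ≤ g a := (PPred.nat_lt hg hf).not.of_iff fun _ => not_lt

@[fun_prop] theorem PPred.nat_gt {f g : α → ℕ} (hf : Grow f) (hg : Grow g) :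
    PPred fun a => f a > g a := PPred.nat_lt hg hf

@[fun_prop] theorem PPred.nat_ge {f g : α → ℕ} (hf : Grow f) (hg : Grow g) :
    PPred fun a => f a ≥ g a := PPred.nat_le hg hf

/-- Types with fast equality test. -/
class PEq (β : Type) [Rep β] : Prop where
  out : PPred fun p : β × β => p.1 = p.2

@[fun_prop] theorem PPred.eq [PEq β] {f g : α → β} (hf : Grow f) (hg : Grow g) :
    PPred fun a => f a = g a := PPred.comp (g := fun a => (f a, g a)) PEq.out (hf.pair hg)

@[fun_prop] theorem PPred.ne [PEq β] {f g : α → β} (hf : Grow f) (hg : Grow g) :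
    PPred fun a => f a ≠ g a := (PPred.eq hf hg).not

instance : PEq ℕ := ⟨PPred.nat_eq (by fun_prop) (by fun_prop)⟩

instance : PEq Bool := ⟨by
  have h1 : PPred fun p : Bool × Bool => p.1 = true := PPred.of_bool (by fun_prop)
  have h2 : PPred fun p : Bool × Bool => p.2 = true := PPred.of_bool (by fun_prop)
  exact ((h1.and h2).or (h1.not.and h2.not)).of_iff fun ⟨a, b⟩ => by
    cases a <;> cases b <;> simp⟩

instance : PEq Unit := ⟨(PPred.const True).of_iff fun _ => by simp⟩

instance [PEq α] [PEq β] : PEq (α × β) :=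
  ⟨(show PPred fun p : (α × β) × (α × β) => p.1.1 = p.2.1 ∧ p.1.2 = p.2.2 by fun_prop).of_iff
    fun _ => Prod.ext_iff.symm⟩

@[fun_prop] theorem Pure.not {f : α → Bool} (hf : Grow f) : Pure fun a => !(f a) :=
  (show Pure fun a => Decidable.decide (¬ f a = true) by fun_prop).of_eq fun a => by simp

@[fun_prop] theorem Pure.and {f g : α → Bool} (hf : Grow f) (hg : Grow g) :
    Pure fun a => (f a && g a) :=
  (show Pure fun a => Decidable.decide (f a = true ∧ g a = true) by fun_prop).of_eq fun a => by simp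

@[fun_prop] theorem Pure.or {f g : α → Bool} (hf : Grow f) (hg : Grow g) :
    Pure fun a => (f a || g a) :=
  (show Pure fun a => Decidable.decide (f a = true ∨ g a = true) by fun_prop).of_eq fun a => by simp

@[fun_prop] theorem Grow.not {f : α → Bool} (hf : Grow f) : Grow fun a => !(f a) :=
  (Pure.not hf).grow
@[fun_prop] theorem Grow.and {f g : α → Bool} (hf : Grow f) (hg : Grow g) :
    Grow fun a => (f a && g a) := (Pure.and hf hg).grow
@[fun_prop] theorem Grow.or {f g : α → Bool} (hf : Grow f) (hg : Grow g) :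
    Grow fun a => (f a || g a) := (Pure.or hf hg).grow
@[fun_prop] theorem Grow.decide {p : α → Prop} [DecidablePred p] (hp : PPred p) :
    Grow fun a => decide (p a) := (Pure.decide hp).grow

@[fun_prop] theorem Pure.nat_min {f g : α → ℕ} (hf : Pure f) (hg : Grow g) :
    Pure fun a => min (f a) (g a) :=
  (show Pure fun a => f a - (f a - g a) by fun_prop).of_eq fun a => by omega

@[fun_prop] theorem Pure.nat_max {f g : α → ℕ} (hf : Pure f) (hg : Pure g) :
    Pure fun a => max (f a) (g a) :=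
  (show Pure fun a => if f a ≤ g a then g a else f a by fun_prop).of_eq fun a => by
    split_ifs <;> omega

@[fun_prop] theorem Grow.nat_min {f g : α → ℕ} (hf : Grow f) (hg : Grow g) :
    Grow fun a => min (f a) (g a) :=
  (show Grow fun a => f a - (f a - g a) by fun_prop).of_eq fun a => by omega

@[fun_prop] theorem Grow.nat_max {f g : α → ℕ} (hf : Grow f) (hg : Grow g) :
    Grow fun a => max (f a) (g a) :=
  (show Grow fun a => f a + (g a - f a) by fun_prop).of_eq fun a => by omega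

/-! ### Integers -/

theorem Grow.int_pos {f : α → ℤ} (hf : Grow f) : Grow fun a => (f a).toNat :=
  Grow.comp (f := fun z : ℤ => z.toNat)
    (Pure.of_comap (fun z : ℤ => (z.toNat, (-z).toNat)) (h := Prod.fst) (by fun_prop)).grow hf

theorem Grow.int_neg_part {f : α → ℤ} (hf : Grow f) : Grow fun a => (-f a).toNat :=
  Grow.comp (f := fun z : ℤ => (-z).toNat)
    (Pure.of_comap (fun z : ℤ => (z.toNat, (-z).toNat)) (h := Prod.snd) (by fun_prop)).grow hf

theorem Pure.int_neg_part {f : α → ℤ} (hf : Pure f) : Pure fun a => (-f a).toNat :=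
  Pure.comp (f := fun z : ℤ => (-z).toNat)
    (Pure.of_comap (fun z : ℤ => (z.toNat, (-z).toNat)) (h := Prod.snd) (by fun_prop)) hf

@[fun_prop] theorem Pure.toNat {f : α → ℤ} (hf : Pure f) : Pure fun a => (f a).toNat :=
  Pure.comp (f := fun z : ℤ => z.toNat)
    (Pure.of_comap (fun z : ℤ => (z.toNat, (-z).toNat)) (h := Prod.fst) (by fun_prop)) hf

attribute [fun_prop] Grow.int_pos

/-- The difference of two numbers, as an integer. -/
theorem Grow.int_diff {f g : α → ℕ} (hf : Grow f) (hg : Grow g) :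
    Grow fun a => (f a : ℤ) - g a :=
  Grow.to_comap _ ((show Grow fun a => (f a - g a, g a - f a) by fun_prop).of_eq fun a => by
    ext <;> simp only <;> omega)

theorem Pure.int_diff {f g : α → ℕ} (hf : Pure f) (hg : Pure g) :
    Pure fun a => (f a : ℤ) - g a :=
  Pure.to_comap _ ((show Pure fun a => (f a - g a, g a - f a) by fun_prop).of_eq fun a => by
    ext <;> simp only <;> omega)

@[fun_prop] theorem Grow.natCast {f : α → ℕ} (hf : Grow f) : Grow fun a => (f a : ℤ) :=
  (Grow.int_diff hf (Grow.const 0)).of_eq fun a => by simp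

@[fun_prop] theorem Pure.natCast {f : α → ℕ} (hf : Pure f) : Pure fun a => (f a : ℤ) :=
  (Pure.int_diff hf (Pure.const 0)).of_eq fun a => by simp

@[fun_prop] theorem Grow.int_neg {f : α → ℤ} (hf : Grow f) : Grow fun a => -f a :=
  (Grow.int_diff hf.int_neg_part hf.int_pos).of_eq fun a => by omega

@[fun_prop] theorem Pure.int_neg {f : α → ℤ} (hf : Pure f) : Pure fun a => -f a :=
  (Pure.int_diff hf.int_neg_part hf.toNat).of_eq fun a => by omega

@[fun_prop] theorem Grow.natAbs {f : α → ℤ} (hf : Grow f) : Grow fun a => (f a).natAbs :=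
  (hf.int_pos.add hf.int_neg_part).of_eq fun a => by omega

@[fun_prop] theorem Pure.natAbs {f : α → ℤ} (hf : Pure f) : Pure fun a => (f a).natAbs :=
  (hf.toNat.nat_max hf.int_neg_part).of_eq fun a => by omega

@[fun_prop] theorem Grow.int_add {f g : α → ℤ} (hf : Grow f) (hg : Grow g) :
    Grow fun a => f a + g a :=
  (Grow.int_diff (hf.int_pos.add hg.int_pos) (hf.int_neg_part.add hg.int_neg_part)).of_eq
    fun a => by omega

@[fun_prop] theorem Grow.int_sub {f g : α → ℤ} (hf : Grow f) (hg : Grow g) :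
    Grow fun a => f a - g a := (hf.int_add hg.int_neg).of_eq fun a => by ring

@[fun_prop] theorem Grow.int_mul {f g : α → ℤ} (hf : Grow f) (hg : Grow g) :
    Grow fun a => f a * g a := by
  refine (Grow.int_diff ((hf.int_pos.mul hg.int_pos).add (hf.int_neg_part.mul hg.int_neg_part))
    ((hf.int_pos.mul hg.int_neg_part).add (hf.int_neg_part.mul hg.int_pos))).of_eq fun a => ?_
  push_cast
  have h1 := Int.toNat_sub_toNat_neg (f a)
  have h2 := Int.toNat_sub_toNat_neg (g a)
  linear_combination (((g a).toNat : ℤ) - (-g a).toNat) * h1 + f a * h2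

@[fun_prop] theorem PPred.int_lt {f g : α → ℤ} (hf : Grow f) (hg : Grow g) :
    PPred fun a => f a < g a :=
  (PPred.nat_lt (Grow.const 0) (hg.int_sub hf).int_pos).of_iff fun a => by omega

@[fun_prop] theorem PPred.int_le {f g : α → ℤ} (hf : Grow f) (hg : Grow g) :
    PPred fun a => f a ≤ g a := (PPred.int_lt hg hf).not.of_iff fun _ => not_lt

@[fun_prop] theorem PPred.int_gt {f g : α → ℤ} (hf : Grow f) (hg : Grow g) :
    PPred fun a => f a > g a := PPred.int_lt hg hf

@[fun_prop] theorem PPred.int_ge {f g : α → ℤ} (hf : Grow f) (hg : Grow g) :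
    PPred fun a => f a ≥ g a := PPred.int_le hg hf

instance : PEq ℤ :=
  ⟨(show PPred fun p : ℤ × ℤ => p.1 ≤ p.2 ∧ p.2 ≤ p.1 by fun_prop).of_iff fun _ => by omega⟩

/-- An integer that is assumed to fit into a word. -/
def inum (z : ℤ) : M ℤ := .need z.natAbs (.ret z)

@[simp] theorem Tri_inum {c : Cx} (z : ℤ) (Q : ℤ → ℕ → Prop) :
    Tri c (inum z) Q ↔ z.natAbs ≤ c.B ∧ Q z 0 := Iff.rfl

@[fun_prop] theorem Impl.inum {f : α → ℤ} (hf : Grow f) : Impl fun a => inum (f a) := by
  obtain ⟨k, e, j, h⟩ := hf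
  refine ⟨e, j, fun B W hok v a hv ω i b i' t hr => ?_⟩
  simp only [P305E.inum, M.run] at hr
  split_ifs at hr with hn
  simp only [Option.some.injEq, Prod.mk.injEq] at hr
  obtain ⟨rfl, rfl, rfl⟩ := hr
  obtain ⟨v', n, h1, ⟨x, y, e, h2, h2'⟩, h3⟩ := h B W hok v a hv ω i
  exact ⟨v', n, h1, ⟨x, y, e, ⟨h2.1, by simp only; omega⟩, ⟨h2'.1, by simp only; omega⟩⟩,
    by simpa using h3⟩

/-! ### From `Pure` rules to `Grow` rules -/

/-- The representation with a polynomially larger bound. -/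
@[reducible] def Rep.up (β : Type) [Rep β] (k : ℕ) : Rep β :=
  ⟨fun B v b => R (B ^ (k + 1)) v b, fun h h' => Rep.mono (Nat.pow_le_pow_left h _) h'⟩

theorem Grow.up {f : α → β} (hf : Grow f) : ∃ k, ∀ k', k ≤ k' → @Pure α β _ (Rep.up β k') f := by
  obtain ⟨k, hf⟩ := hf
  refine ⟨k, fun k' hk => Comp.mono hf 0 fun B a v hB _ h => ?_⟩
  exact (Rep.mono (pow_succ_mono hB hk) h : R (B ^ (k' + 1)) v (f a))

/-! ### Lists -/

/-- Case distinction on lists. -/
def caseL {β γ : Type} (l : List β) (n : γ) (c : β → List β → γ) : γ :=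
  match l with
  | [] => n
  | x :: l => c x l

@[simp] theorem caseL_nil {β γ : Type} (n : γ) (c : β → List β → γ) : caseL [] n c = n := rfl
@[simp] theorem caseL_cons {β γ : Type} (x : β) (l : List β) (n : γ) (c : β → List β → γ) :
    caseL (x :: l) n c = c x l := rfl

@[fun_prop] theorem Pure.cons {f : α → β} {g : α → List β} (hf : Pure f) (hg : Pure g) :
    Pure fun a => f a :: g a := Comp.pair hf hg

@[fun_prop] theorem Impl.caseL {l : α → List β} {n : α → M γ} {c : α → β → List β → M γ}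
    (hl : Pure l) (hn : Impl n) (hc : Impl fun p : α × β × List β => c p.1 p.2.1 p.2.2) :
    Impl fun a => caseL (l a) (n a) (c a) := by
  have h1 : Impl fun p : α × V => n p.1 := Impl.comp hn (by fun_prop)
  refine CompM.branch (Comp.pair hl (Comp.pair Comp.id hl)) hc h1 ?_
  rintro B a v ⟨x, y, rfl, hx, y1, y2, rfl, hy1, hy2⟩
  refine ⟨_, _, rfl, fun h0 => ?_, fun h0 => ?_⟩
  · cases hl' : l a with
    | nil => rw [hl'] at hx; exact absurd hx h0
    | cons b l' =>
      rw [hl'] at hy2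
      exact ⟨(a, b, l'), ⟨y1, y2, rfl, hy1, hy2⟩, rfl, fun _ _ h => h⟩
  · cases hl' : l a with
    | nil => exact ⟨(a, y2), ⟨y1, y2, rfl, hy1, rfl⟩, rfl, fun _ _ h => h⟩
    | cons b l' =>
      rw [hl', h0] at hx
      obtain ⟨_, _, e, _⟩ := hx
      cases e

@[fun_prop] theorem Pure.caseL {l : α → List β} {n : α → γ} {c : α → β → List β → γ}
    (hl : Pure l) (hn : Pure n) (hc : Pure fun p : α × β × List β => c p.1 p.2.1 p.2.2) :
    Pure fun a => caseL (l a) (n a) (c a) :=
  Impl.toPure ((Impl.caseL (c := fun a x l => M.ret (c a x l)) hl (Impl.ret hn)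
    (Impl.ret hc)).of_eq fun a => by cases l a <;> rfl)

@[fun_prop] theorem Pure.tail {l : α → List β} (hl : Pure l) : Pure fun a => (l a).tail :=
  (show Pure fun a => P305E.caseL (l a) [] fun _ l' => l' by fun_prop).of_eq fun a => by
    cases l a <;> rfl

@[fun_prop] theorem Pure.headD {l : α → List β} {d : α → β} (hl : Pure l) (hd : Pure d) :
    Pure fun a => (l a).headD (d a) :=
  (show Pure fun a => P305E.caseL (l a) (d a) fun x _ => x by fun_prop).of_eq fun a => by
    cases l a <;> rfl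

@[fun_prop] theorem Pure.isEmpty {l : α → List β} (hl : Pure l) : Pure fun a => (l a).isEmpty :=
  (show Pure fun a => P305E.caseL (l a) true fun _ _ => false by fun_prop).of_eq fun a => by
    cases l a <;> rfl

/-! ### Options -/

@[fun_prop] theorem Pure.some {f : α → β} (hf : Pure f) : Pure fun a => some (f a) :=
  (Comp.pair hf Comp.id).mono 0 fun _ _ _ _ _ ⟨x, y, e, h, _⟩ => ⟨x, y, e, h⟩

@[fun_prop] theorem Impl.optElim {o : α → Option β} {n : α → M γ} {c : α → β → M γ}
    (ho : Pure o) (hn : Impl n) (hc : Impl fun p : α × β => c p.1 p.2) :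
    Impl fun a => (o a).elim (n a) (c a) := by
  have h1 : Impl fun p : α × V => n p.1 := Impl.comp hn (by fun_prop)
  have h2 : Impl fun p : α × β × V => c p.1 p.2.1 :=
    Impl.comp (g := fun p : α × β × V => (p.1, p.2.1)) hc (by fun_prop)
  refine CompM.branch (Comp.pair ho (Comp.pair Comp.id ho)) h2 h1 ?_
  rintro B a v ⟨x, y, rfl, hx, y1, y2, rfl, hy1, hy2⟩
  refine ⟨_, _, rfl, fun h0 => ?_, fun h0 => ?_⟩
  · cases hl' : o a with
    | none => rw [hl'] at hx; exact absurd hx h0
    | some b =>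
      rw [hl'] at hy2
      obtain ⟨z, z', rfl, hz⟩ := hy2
      exact ⟨(a, b, z'), ⟨y1, _, rfl, hy1, z, z', rfl, hz, rfl⟩, rfl, fun _ _ h => h⟩
  · cases hl' : o a with
    | none => exact ⟨(a, y2), ⟨y1, y2, rfl, hy1, rfl⟩, rfl, fun _ _ h => h⟩
    | some b =>
      rw [hl', h0] at hx
      obtain ⟨_, _, e, _⟩ := hx
      cases e

@[fun_prop] theorem Pure.optElim {o : α → Option β} {n : α → γ} {c : α → β → γ}
    (ho : Pure o) (hn : Pure n) (hc : Pure fun p : α × β => c p.1 p.2) :
    Pure fun a => (o a).elim (n a) (c a) :=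
  Impl.toPure ((Impl.optElim (c := fun a x => M.ret (c a x)) ho (Impl.ret hn)
    (Impl.ret hc)).of_eq fun a => by cases o a <;> rfl)

@[fun_prop] theorem Pure.getD {o : α → Option β} {d : α → β} (ho : Pure o) (hd : Pure d) :
    Pure fun a => (o a).getD (d a) :=
  (show Pure fun a => (o a).elim (d a) fun x => x by fun_prop).of_eq fun a => by
    cases o a <;> rfl

@[fun_prop] theorem Pure.isSome {o : α → Option β} (ho : Pure o) : Pure fun a => (o a).isSome :=
  (show Pure fun a => (o a).elim false fun _ => true by fun_prop).of_eq fun a => by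
    cases o a <;> rfl

@[fun_prop] theorem Pure.head? {l : α → List β} (hl : Pure l) : Pure fun a => (l a).head? :=
  (show Pure fun a => P305E.caseL (l a) none fun x _ => Option.some x by fun_prop).of_eq fun a => by
    cases l a <;> rfl

/-! ### Sums -/

@[fun_prop] theorem Pure.inl {f : α → β} (hf : Pure f) :
    Pure fun a => (Sum.inl (f a) : β ⊕ γ) :=
  (Comp.pair (Comp.lit (.nat 0)) hf).mono 0 fun _ _ _ _ _ ⟨_, y, e, h, h'⟩ => ⟨y, h ▸ e, h'⟩

@[fun_prop] theorem Pure.inr {f : α → γ} (hf : Pure f) :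
    Pure fun a => (Sum.inr (f a) : β ⊕ γ) :=
  (Comp.pair (Comp.lit (.nat 1)) hf).mono 0 fun _ _ _ _ _ ⟨_, y, e, h, h'⟩ => ⟨y, h ▸ e, h'⟩

theorem Comp.sumView {s : α → β ⊕ γ} (hs : Pure s) : Comp α fun B a v => ∃ c y z,
    v = .pair c (.pair y z) ∧ R B y a ∧ R B (.pair c z) (s a) := by
  have h : Comp α fun B a v => ∃ c z, v = .pair c z ∧ R B (.pair c z) (s a) :=
    Comp.mono hs 0 fun B a v _ _ h => by
      cases hs' : s a <;> rw [hs'] at h <;> obtain ⟨x, rfl, h⟩ := h <;> exact ⟨_, _, rfl, x, rfl, h⟩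
  have h1 : Pure fun p : V × V × V => (p.2.1, p.1, p.2.2) := by fun_prop
  refine Comp.comp (Comp.pair Comp.id h) h1 0 ?_
  rintro B a v _ ⟨y, _, rfl, hy, c, z, rfl, hz⟩
  refine ⟨(y, c, z), ⟨_, _, rfl, rfl, _, _, rfl, rfl, rfl⟩, ?_⟩
  rintro w ⟨_, _, rfl, rfl, _, _, rfl, rfl, rfl⟩
  exact ⟨_, _, _, rfl, hy, hz⟩

@[fun_prop] theorem Impl.sumElim {s : α → β ⊕ γ} {f : α → β → M δ} {g : α → γ → M δ}
    (hf : Impl fun p : α × β => f p.1 p.2) (hg : Impl fun p : α × γ => g p.1 p.2) (hs : Pure s) :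
    Impl fun a => Sum.elim (f a) (g a) (s a) := by
  refine CompM.branch (Comp.sumView hs) hg hf ?_
  rintro B a v ⟨c, y, z, rfl, hy, hz⟩
  refine ⟨_, _, rfl, fun h0 => ?_, fun h0 => ?_⟩
  · cases hs' : s a with
    | inl b => rw [hs'] at hz; obtain ⟨x, e, _⟩ := hz; cases e; exact absurd rfl h0
    | inr b =>
      rw [hs'] at hz
      obtain ⟨x, e, hx⟩ := hz
      cases e
      exact ⟨(a, b), ⟨_, _, rfl, hy, hx⟩, rfl, fun _ _ h => h⟩
  · cases hs' : s a with
    | inr b => rw [hs', h0] at hz; obtain ⟨x, e, _⟩ := hz; cases e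
    | inl b =>
      rw [hs'] at hz
      obtain ⟨x, e, hx⟩ := hz
      cases e
      exact ⟨(a, b), ⟨_, _, rfl, hy, hx⟩, rfl, fun _ _ h => h⟩

@[fun_prop] theorem Pure.sumElim {s : α → β ⊕ γ} {f : α → β → δ} {g : α → γ → δ}
    (hf : Pure fun p : α × β => f p.1 p.2) (hg : Pure fun p : α × γ => g p.1 p.2) (hs : Pure s) :
    Pure fun a => Sum.elim (f a) (g a) (s a) :=
  Impl.toPure ((Impl.sumElim (f := fun a x => M.ret (f a x)) (g := fun a x => M.ret (g a x))
    (Impl.ret hf) (Impl.ret hg) hs).of_eq fun a => by cases s a <;> rfl)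

/-! ### Trees -/

/-- Case distinction on trees. -/
def caseT {β γ δ : Type} (t : BT β γ) (f : γ → δ) (g : β → BT β γ → BT β γ → δ) : δ :=
  match t with
  | .leaf b => f b
  | .node a l r => g a l r

@[simp] theorem caseT_leaf {β γ δ : Type} (b : γ) (f : γ → δ) (g : β → BT β γ → BT β γ → δ) :
    caseT (.leaf b) f g = f b := rfl
@[simp] theorem caseT_node {β γ δ : Type} (a : β) (l r : BT β γ) (f : γ → δ)
    (g : β → BT β γ → BT β γ → δ) : caseT (.node a l r) f g = g a l r := rfl

/-- One layer of a tree. -/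
def BT.view {β γ : Type} : BT β γ → γ ⊕ β × BT β γ × BT β γ
  | .leaf b => .inl b
  | .node a l r => .inr (a, l, r)

theorem R_view {B : ℕ} {v : V} {t : BT β γ} : R B v t.view ↔ R B v t := by
  cases t with
  | leaf b => exact Iff.rfl
  | node a l r =>
    constructor
    · rintro ⟨_, rfl, x, _, rfl, h1, y, z, rfl, h2, h3⟩
      exact ⟨x, y, z, rfl, h1, h2, h3⟩
    · rintro ⟨x, y, z, rfl, h1, h2, h3⟩
      exact ⟨_, rfl, x, _, rfl, h1, y, z, rfl, h2, h3⟩

theorem Pure.view {t : α → BT β γ} (ht : Pure t) : Pure fun a => (t a).view :=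
  Comp.mono ht 0 fun _ _ _ _ _ h => R_view.2 h

@[fun_prop] theorem Pure.leaf {f : α → γ} (hf : Pure f) :
    Pure fun a => (BT.leaf (f a) : BT β γ) :=
  Comp.mono (Pure.inl (γ := β × BT β γ × BT β γ) hf) 0 fun _ _ _ _ _ h => R_view.1 h

@[fun_prop] theorem Pure.node {f : α → β} {l r : α → BT β γ} (hf : Pure f) (hl : Pure l)
    (hr : Pure r) : Pure fun a => BT.node (f a) (l a) (r a) :=
  Comp.mono (Pure.inr (β := γ) (hf.pair (hl.pair hr))) 0 fun _ _ _ _ _ h => R_view.1 h

@[fun_prop] theorem Impl.caseT {t : α → BT β γ} {f : α → γ → M δ}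
    {g : α → β → BT β γ → BT β γ → M δ} (ht : Pure t) (hf : Impl fun p : α × γ => f p.1 p.2)
    (hg : Impl fun p : α × β × BT β γ × BT β γ => g p.1 p.2.1 p.2.2.1 p.2.2.2) :
    Impl fun a => caseT (t a) (f a) (g a) :=
  (Impl.sumElim (g := fun a q => g a q.1 q.2.1 q.2.2) hf hg ht.view).of_eq fun a => by
    cases t a <;> rfl

@[fun_prop] theorem Pure.caseT {t : α → BT β γ} {f : α → γ → δ}
    {g : α → β → BT β γ → BT β γ → δ} (ht : Pure t) (hf : Pure fun p : α × γ => f p.1 p.2)
    (hg : Pure fun p : α × β × BT β γ × BT β γ => g p.1 p.2.1 p.2.2.1 p.2.2.2) :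
    Pure fun a => caseT (t a) (f a) (g a) :=
  (Pure.sumElim (g := fun a q => g a q.1 q.2.1 q.2.2) hf hg ht.view).of_eq fun a => by
    cases t a <;> rfl

end Vale.Agent.P305E
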