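import Vale.Agent.P305.MM.Model
import Mathlib.Analysis.SpecialFunctions.Pow.Real

/-!
# Almost-linear time bounds, and randomized matching programs that are correct on a class of graphs
-/

namespace Vale.Agent.P305E

open Vale.Agent.P305 Vale.Agent.P305.MM

/-- `T n m = (n + m) ^ (1 + o(1))`: for every `ε > 0`, `T n m = O((n + m + 1) ^ (1 + ε))`. -/
def AlmostLin (T : ℕ → ℕ → ℕ) : Prop :=
  ∀ ε : ℝ, 0 < ε → ∃ C : ℝ, ∀ n m : ℕ, (T n m : ℝ) ≤ C * ((n : ℝ) + m + 1) ^ (1 + ε)

/-- As `RandSolves`, but the output is only required to be correct (with probability at least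
`2 / 3`) for graphs of the class `Cl`; the time bound holds for all graphs. -/
def RandSolvesOn (Cl : ∀ n : ℕ, SimpleGraph (Fin n) → Prop) (P : RProg) (T : ℕ → ℕ → ℕ) : Prop :=
  ∃ k : ℕ, ∀ (n : ℕ) (G : SimpleGraph (Fin n)) (L : AdjLists G),
    (∀ ω : ℕ → Bool, ∃ (t : ℕ) (s : State) (i : ℕ),
      RExec ((n + G.edgeSet.ncard + 2) ^ k) ω P (State.init L.encode) 0 t s i ∧
      t ≤ T n G.edgeSet.ncard) ∧
    (Cl n G → ∀ B : ℕ, T n G.edgeSet.ncard ≤ B →
      2 * 2 ^ B ≤ 3 * Nat.card {ω : Fin B → Bool //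
        ∃ (t : ℕ) (s : State) (i : ℕ) (M : G.Subgraph),
          RExec ((n + G.edgeSet.ncard + 2) ^ k) (extend ω) P (State.init L.encode) 0 t s i ∧
          IsMaximumMatching G M ∧ Represents s.mem M})

theorem randSolvesOn_true (P : RProg) (T : ℕ → ℕ → ℕ) :
    RandSolvesOn (fun _ _ => True) P T ↔ RandSolves P T := by
  simp only [RandSolvesOn, RandSolves, forall_const]

end Vale.Agent.P305E
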