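import Vale.Agent.P305E.Lists
import Vale.Agent.P305E.Spec

/-!
# Engine: subpolynomial functions and the fuel
-/

namespace Vale.Agent.P305E

/-- `log N / log log log N`. -/
def sb (N : ℕ) : ℕ := Nat.size N / Nat.size (Nat.size (Nat.size N))

/-- Exponents of subpolynomial functions. -/
def Lin (h : ℕ → ℕ) : Prop := ∃ c, ∀ N, 2 ≤ N → h N ≤ c * sb N

/-- Subpolynomial functions (of a kind that is closed under all operations that are needed). -/
def Sub (g : ℕ → ℕ) : Prop := ∃ c, ∀ N, 2 ≤ N → g N ≤ c * 2 ^ (c * sb N)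

theorem size_le_self (x : ℕ) : Nat.size x ≤ x := Nat.size_le.2 Nat.lt_two_pow_self

theorem two_le_size {x : ℕ} (h : 2 ≤ x) : 2 ≤ Nat.size x := Nat.lt_size.2 (by simpa using h)

theorem two_pow_size_le {x : ℕ} (h : 1 ≤ x) : 2 ^ Nat.size x ≤ 2 * x := by
  have h1 : 0 < Nat.size x := Nat.size_pos.2 h
  have h2 : 2 ^ (Nat.size x - 1) ≤ x := Nat.lt_size.1 (by omega)
  calc 2 ^ Nat.size x = 2 ^ (Nat.size x - 1 + 1) := by congr 1; omega
    _ = 2 * 2 ^ (Nat.size x - 1) := by ring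
    _ ≤ 2 * x := by omega

theorem one_le_sb {N : ℕ} (h : 2 ≤ N) : 1 ≤ sb N := by
  have h1 := two_le_size (two_le_size (two_le_size h))
  exact Nat.div_pos ((size_le_self _).trans (size_le_self _)) (by omega)

theorem sb_le (N : ℕ) : sb N ≤ Nat.size N := Nat.div_le_self _ _

theorem two_pow_sb_le {N : ℕ} (h : 2 ≤ N) : 2 ^ sb N ≤ N := by
  have h0 := two_le_size h
  have h1 := two_le_size (two_le_size h0)
  have h2 : sb N ≤ Nat.size N / 2 := Nat.div_le_div_left h1 (by omega)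
  exact Nat.lt_size.1 (by omega)

theorem pow_le_mul_two_pow (x a : ℕ) : x ^ a ≤ a ^ a * 2 ^ x := by
  rcases Nat.eq_zero_or_pos a with rfl | ha
  · simpa using Nat.one_le_two_pow
  have h1 : x ≤ a * 2 ^ (x / a) := by
    have h2 : x < a * (x / a + 1) := Nat.lt_mul_div_succ x ha
    have h3 : x / a + 1 ≤ 2 ^ (x / a) := Nat.lt_two_pow_self
    exact h2.le.trans (Nat.mul_le_mul_left _ h3)
  calc x ^ a ≤ (a * 2 ^ (x / a)) ^ a := Nat.pow_le_pow_left h1 _
    _ = a ^ a * 2 ^ (x / a * a) := by rw [mul_pow, ← pow_mul]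
    _ ≤ a ^ a * 2 ^ x :=
      Nat.mul_le_mul_left _ (Nat.pow_le_pow_right (by omega) (Nat.div_mul_le_self _ _))

/-- Polylogarithmic is at most linear. -/
theorem lg_pow_le_lin (a : ℕ) {x : ℕ} (h : 1 ≤ x) : lg x ^ a ≤ 8 * a ^ a * x := by
  have h1 := pow_le_mul_two_pow (lg x) a
  have h2 : 2 ^ lg x ≤ 8 * x := by
    have := two_pow_size_le h
    unfold lg
    rw [pow_add]
    omega
  calc lg x ^ a ≤ a ^ a * (8 * x) := h1.trans (Nat.mul_le_mul_left _ h2)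
    _ = _ := by ring

/-! ### Exponents -/

theorem Lin.mono {h h' : ℕ → ℕ} (hh : Lin h) (e : ∀ N, 2 ≤ N → h' N ≤ h N) : Lin h' :=
  let ⟨c, hc⟩ := hh
  ⟨c, fun N hN => (e N hN).trans (hc N hN)⟩

theorem Lin.const (c : ℕ) : Lin fun _ => c :=
  ⟨c, fun _ hN => Nat.le_mul_of_pos_right _ (one_le_sb hN)⟩

theorem Lin.sb : Lin sb := ⟨1, fun _ _ => by simp⟩

theorem Lin.add {h h' : ℕ → ℕ} (hh : Lin h) (hh' : Lin h') : Lin fun N => h N + h' N :=
  let ⟨c, hc⟩ := hh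
  let ⟨c', hc'⟩ := hh'
  ⟨c + c', fun N hN => by rw [add_mul]; exact Nat.add_le_add (hc N hN) (hc' N hN)⟩

theorem Lin.const_mul (a : ℕ) {h : ℕ → ℕ} (hh : Lin h) : Lin fun N => a * h N :=
  let ⟨c, hc⟩ := hh
  ⟨a * c, fun N hN => by rw [mul_assoc]; exact Nat.mul_le_mul_left _ (hc N hN)⟩

/-- A criterion: `h N * log log log N = O(log N)`. -/
theorem Lin.of_mul_le {h : ℕ → ℕ} (c : ℕ)
    (hc : ∀ N, 2 ≤ N → h N * Nat.size (Nat.size (Nat.size N)) ≤ c * Nat.size N) : Lin h := by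
  refine ⟨2 * c, fun N hN => ?_⟩
  have h1 := two_le_size (two_le_size (two_le_size hN))
  have h2 := one_le_sb hN
  have h3 : Nat.size N < Nat.size (Nat.size (Nat.size N)) * (P305E.sb N + 1) :=
    Nat.lt_mul_div_succ _ (by omega)
  refine Nat.le_of_mul_le_mul_right ((hc N hN).trans ?_) (by omega : 0 < _)
  calc c * Nat.size N ≤ c * (Nat.size (Nat.size (Nat.size N)) * (2 * P305E.sb N)) :=
        Nat.mul_le_mul_left _ (h3.le.trans (Nat.mul_le_mul_left _ (by omega)))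
    _ = _ := by ring

/-- `log N / log log N`. -/
theorem Lin.div_size : Lin fun N => Nat.size N / Nat.size (Nat.size N) :=
  Lin.sb.mono fun N hN => Nat.div_le_div_left (size_le_self _)
    (by have := two_le_size (two_le_size (two_le_size hN)); omega)

/-- Powers of `log log N`. -/
theorem Lin.lg_size_pow (k : ℕ) : Lin fun N => lg (Nat.size N) ^ k := by
  refine Lin.of_mul_le (8 * (k + 1) ^ (k + 1)) fun N hN => ?_
  have h1 := two_le_size hN
  refine le_trans ?_ (lg_pow_le_lin (k + 1) (by omega))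
  rw [pow_succ]
  exact Nat.mul_le_mul_left _ ((size_le_self _).trans (Nat.le_add_right _ _))

theorem Lin.size_size_pow (k : ℕ) : Lin fun N => Nat.size (Nat.size N) ^ k :=
  (Lin.lg_size_pow k).mono fun _ _ => Nat.pow_le_pow_left (Nat.le_add_right _ _) _

/-- `(log N) ^ (1 - 1 / q)` times a power of `log log N`. -/
theorem Lin.of_pow_le {h : ℕ → ℕ} (q k c : ℕ)
    (hc : ∀ N, 2 ≤ N → h N ^ (q + 1) ≤ c * Nat.size N ^ q * lg (Nat.size N) ^ k) : Lin h := by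
  refine Lin.of_mul_le (c * (8 * (k + (q + 1)) ^ (k + (q + 1))) + 1) fun N hN => ?_
  have h1 := two_le_size hN
  obtain ⟨b, hb⟩ : ∃ b, b = Nat.size N := ⟨_, rfl⟩
  obtain ⟨C, hC⟩ : ∃ C, C = c * (8 * (k + (q + 1)) ^ (k + (q + 1))) := ⟨_, rfl⟩
  have h2 := hc N hN
  rw [← hb] at h1 h2 ⊢
  rw [← hC]
  have h3 : Nat.size (Nat.size b) ≤ lg b := (size_le_self _).trans (Nat.le_add_right _ _)
  refine (Nat.pow_le_pow_iff_left (by omega : q + 1 ≠ 0)).1 ?_
  calc (h N * Nat.size (Nat.size b)) ^ (q + 1)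
      ≤ c * b ^ q * lg b ^ k * lg b ^ (q + 1) := by
        rw [mul_pow]
        exact Nat.mul_le_mul h2 (Nat.pow_le_pow_left h3 _)
    _ = c * b ^ q * lg b ^ (k + (q + 1)) := by ring
    _ ≤ c * b ^ q * (8 * (k + (q + 1)) ^ (k + (q + 1)) * b) :=
        Nat.mul_le_mul_left _ (lg_pow_le_lin _ (by omega))
    _ = C * b ^ (q + 1) := by rw [hC]; ring
    _ ≤ (C + 1) ^ (q + 1) * b ^ (q + 1) :=
        Nat.mul_le_mul_right _ ((Nat.le_succ C).trans (Nat.le_self_pow (by omega) _))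
    _ = _ := by rw [mul_pow]

/-! ### Subpolynomial functions -/

theorem Sub.mono {g g' : ℕ → ℕ} (hg : Sub g) (e : ∀ N, 2 ≤ N → g' N ≤ g N) : Sub g' :=
  let ⟨c, hc⟩ := hg
  ⟨c, fun N hN => (e N hN).trans (hc N hN)⟩

theorem Sub.const (c : ℕ) : Sub fun _ => c :=
  ⟨c, fun _ _ => Nat.le_mul_of_pos_right _ (by positivity)⟩

theorem Sub.two_pow {h : ℕ → ℕ} (hh : Lin h) : Sub fun N => 2 ^ h N := by
  obtain ⟨c, hc⟩ := hh
  refine ⟨c + 1, fun N hN => le_trans ?_ (Nat.le_mul_of_pos_left _ (by omega))⟩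
  exact Nat.pow_le_pow_right (by omega) ((hc N hN).trans (Nat.mul_le_mul_right _ (by omega)))

theorem Sub.exists_lin {g : ℕ → ℕ} (hg : Sub g) : ∃ c, ∀ N, 2 ≤ N → g N ≤ 2 ^ (c * sb N) := by
  obtain ⟨c, hc⟩ := hg
  refine ⟨2 * c, fun N hN => (hc N hN).trans ?_⟩
  rw [show 2 * c * sb N = c * sb N + c * sb N by ring, pow_add]
  refine Nat.mul_le_mul_right _ (Nat.lt_two_pow_self.le.trans ?_)
  exact Nat.pow_le_pow_right (by omega) (Nat.le_mul_of_pos_right _ (one_le_sb hN))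

theorem Sub.mul {g g' : ℕ → ℕ} (hg : Sub g) (hg' : Sub g') : Sub fun N => g N * g' N := by
  obtain ⟨c, hc⟩ := hg.exists_lin
  obtain ⟨c', hc'⟩ := hg'.exists_lin
  refine (Sub.two_pow ((Lin.sb.const_mul c).add (Lin.sb.const_mul c'))).mono fun N hN => ?_
  rw [pow_add]
  exact Nat.mul_le_mul (hc N hN) (hc' N hN)

theorem Sub.add {g g' : ℕ → ℕ} (hg : Sub g) (hg' : Sub g') : Sub fun N => g N + g' N := by
  obtain ⟨c, hc⟩ := hg.exists_lin
  obtain ⟨c', hc'⟩ := hg'.exists_lin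
  refine ((Sub.const 2).mul (Sub.two_pow (Lin.sb.const_mul (c + c')))).mono fun N hN => ?_
  have h1 : 2 ^ (c * sb N) ≤ 2 ^ ((c + c') * sb N) :=
    Nat.pow_le_pow_right (by omega) (Nat.mul_le_mul_right _ (by omega))
  have h2 : 2 ^ (c' * sb N) ≤ 2 ^ ((c + c') * sb N) :=
    Nat.pow_le_pow_right (by omega) (Nat.mul_le_mul_right _ (by omega))
  have := hc N hN
  have := hc' N hN
  omega

theorem Sub.pow {g : ℕ → ℕ} (hg : Sub g) (k : ℕ) : Sub fun N => g N ^ k := by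
  induction k with
  | zero => simpa using Sub.const 1
  | succ k ih => simpa only [pow_succ] using ih.mul hg

theorem lg_le_two_pow (x : ℕ) : lg x ≤ 2 ^ lg (Nat.size x) := by
  have h1 := Nat.lt_size_self (Nat.size x)
  have h2 : 1 ≤ 2 ^ Nat.size (Nat.size x) := Nat.one_le_two_pow
  unfold lg
  rw [pow_add]
  omega

theorem Sub.lg : Sub lg :=
  (Sub.two_pow (Lin.lg_size_pow 1)).mono fun N _ => by simpa using lg_le_two_pow N

theorem Sub.size : Sub Nat.size := Sub.lg.mono fun _ _ => Nat.le_add_right _ _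

/-- The unit of time for the word bound `N ^ a`. -/
theorem Sub.lg_pow (a : ℕ) : Sub fun N => P305E.lg (N ^ a) := by
  rcases a with _ | a
  · simpa using Sub.const (P305E.lg 1)
  · exact (Sub.lg.pow (a + 1)).mono fun N _ => lg_pow_le N a

/-- `(log N) ^ h` with `h * log log N = O(log N / log log log N)`. -/
theorem Sub.lg_pow_fun {h : ℕ → ℕ} (hh : Lin fun N => P305E.lg (Nat.size N) * h N) :
    Sub fun N => P305E.lg N ^ h N :=
  (Sub.two_pow hh).mono fun N _ => by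
    rw [pow_mul]
    exact Nat.pow_le_pow_left (lg_le_two_pow N) _

/-- Quasi-polylogarithmic functions. -/
theorem Sub.lg_pow_poly (c k : ℕ) : Sub fun N => P305E.lg N ^ (c * Nat.size (Nat.size N) ^ k) :=
  Sub.lg_pow_fun (((Lin.lg_size_pow (k + 1)).const_mul c).mono fun N _ => by
    have : Nat.size (Nat.size N) ^ k ≤ P305E.lg (Nat.size N) ^ k :=
      Nat.pow_le_pow_left (Nat.le_add_right _ _) _
    calc _ ≤ P305E.lg (Nat.size N) * (c * P305E.lg (Nat.size N) ^ k) :=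
          Nat.mul_le_mul_left _ (Nat.mul_le_mul_left _ this)
      _ = _ := by ring)

theorem Sub.overhead (c k : ℕ) : Sub fun N =>
    2 ^ (c * (Nat.size N / Nat.size (Nat.size N) + Nat.size (Nat.size N) ^ k)) :=
  Sub.two_pow ((Lin.div_size.add (Lin.size_size_pow k)).const_mul c)

theorem Sub.le_pow {g : ℕ → ℕ} (hg : Sub g) : ∃ c, ∀ N, 2 ≤ N → g N ≤ N ^ c := by
  obtain ⟨c, hc⟩ := hg.exists_lin
  refine ⟨c, fun N hN => (hc N hN).trans ?_⟩
  rw [mul_comm, pow_mul]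
  exact Nat.pow_le_pow_left (two_pow_sb_le hN) _

/-- Subpolynomial functions are `O(N ^ ε)`. -/
theorem Sub.le_rpow {g : ℕ → ℕ} (hg : Sub g) {ε : ℝ} (hε : 0 < ε) :
    ∃ C : ℝ, 0 ≤ C ∧ ∀ N, 2 ≤ N → (g N : ℝ) ≤ C * (N : ℝ) ^ ε := by
  obtain ⟨c, hc⟩ := hg.exists_lin
  obtain ⟨D, hD⟩ := exists_nat_ge (c / ε)
  refine ⟨2 ^ ε + 2 ^ (c * 2 ^ 2 ^ D), by positivity, fun N hN => ?_⟩
  have h0 : (g N : ℝ) ≤ 2 ^ (c * sb N) := by exact_mod_cast hc N hN
  have hN1 : (1 : ℝ) ≤ N := by exact_mod_cast (by omega : 1 ≤ N)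
  have h1 : (1 : ℝ) ≤ (N : ℝ) ^ ε := Real.one_le_rpow hN1 hε.le
  have p1 : (0 : ℝ) < 2 ^ ε := by positivity
  have p2 : (0 : ℝ) < 2 ^ (c * 2 ^ 2 ^ D) := by positivity
  by_cases hs : D ≤ Nat.size (Nat.size (Nat.size N))
  · have h2 : sb N * D ≤ Nat.size N :=
      (Nat.mul_le_mul_left _ hs).trans (Nat.div_mul_le_self _ _)
    have h3 : ((c * sb N : ℕ) : ℝ) ≤ (Nat.size N : ℝ) * ε := by
      have h4 : (sb N : ℝ) * D ≤ Nat.size N := by exact_mod_cast h2
      have h5 : (c : ℝ) ≤ D * ε := (div_le_iff₀ hε).1 hD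
      have h6 : (0 : ℝ) ≤ sb N := Nat.cast_nonneg _
      push_cast
      nlinarith
    have h7 : (2 : ℝ) ^ (c * sb N) ≤ 2 ^ ε * (N : ℝ) ^ ε := by
      calc (2 : ℝ) ^ (c * sb N) = (2 : ℝ) ^ ((c * sb N : ℕ) : ℝ) := (Real.rpow_natCast _ _).symm
        _ ≤ (2 : ℝ) ^ ((Nat.size N : ℝ) * ε) := Real.rpow_le_rpow_of_exponent_le (by norm_num) h3
        _ = ((2 : ℝ) ^ Nat.size N) ^ ε := by
            rw [Real.rpow_mul (by norm_num), Real.rpow_natCast]
        _ ≤ (2 * N : ℝ) ^ ε := by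
            refine Real.rpow_le_rpow (by positivity) ?_ hε.le
            exact_mod_cast two_pow_size_le (by omega : 1 ≤ N)
        _ = _ := Real.mul_rpow (by norm_num) (by positivity)
    nlinarith
  · have h2 : Nat.size (Nat.size N) < 2 ^ D := Nat.size_le.1 (by omega)
    have h3 : Nat.size N < 2 ^ 2 ^ D := Nat.size_le.1 h2.le
    have h4 : (2 : ℝ) ^ (c * sb N) ≤ 2 ^ (c * 2 ^ 2 ^ D) :=
      pow_le_pow_right₀ (by norm_num) (Nat.mul_le_mul_left _ ((sb_le N).trans h3.le))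
    nlinarith

theorem Sub.almostLin {g : ℕ → ℕ} (hg : Sub g) {T : ℕ → ℕ → ℕ}
    (hT : ∀ n m, T n m ≤ (n + m + 2) * g (n + m + 2)) : AlmostLin T := by
  intro ε hε
  obtain ⟨C, hC0, hC⟩ := hg.le_rpow hε
  refine ⟨C * 2 ^ (1 + ε), fun n m => ?_⟩
  have h1 : (T n m : ℝ) ≤ ((n + m + 2 : ℕ) : ℝ) * g (n + m + 2) := by exact_mod_cast hT n m
  have h2 := hC (n + m + 2) (by omega)
  have h3 : (0 : ℝ) < ((n + m + 2 : ℕ) : ℝ) := by positivity
  have h4 : ((n + m + 2 : ℕ) : ℝ) ≤ 2 * ((n : ℝ) + m + 1) := by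
    have : (0 : ℝ) ≤ n := Nat.cast_nonneg _
    have : (0 : ℝ) ≤ m := Nat.cast_nonneg _
    push_cast
    linarith
  calc (T n m : ℝ) ≤ ((n + m + 2 : ℕ) : ℝ) * (C * ((n + m + 2 : ℕ) : ℝ) ^ ε) :=
        h1.trans (mul_le_mul_of_nonneg_left h2 h3.le)
    _ = C * ((n + m + 2 : ℕ) : ℝ) ^ (1 + ε) := by rw [Real.rpow_add h3, Real.rpow_one]; ring
    _ ≤ C * (2 * ((n : ℝ) + m + 1)) ^ (1 + ε) :=
        mul_le_mul_of_nonneg_left (Real.rpow_le_rpow h3.le h4 (by linarith)) hC0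
    _ = _ := by rw [Real.mul_rpow (by norm_num) (by positivity)]; ring

/-! ### The fuel is computed fast -/

theorem Grow.pow {α : Type} [Rep α] {f : α → ℕ} (hf : Grow f) (k : ℕ) : Grow fun a => f a ^ k := by
  induction k with
  | zero => simpa using Grow.const (α := α) (1 : ℕ)
  | succ k ih => simpa only [pow_succ] using ih.mul hf

theorem pure_two_pow_sb : Pure fun N : ℕ => 2 ^ sb N := by
  have h : Impl fun N : ℕ => pow2 (sb N) := by unfold sb; fun_prop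
  refine Pure.of_impl h 0 fun B N hB _ ⟨v, hv⟩ => ?_
  simp only [Tri_pow2, pow_zero, zero_add, le_refl, and_true]
  by_cases hN : 2 ≤ N
  · exact (two_pow_sb_le hN).trans hv.2
  · have h1 : Nat.size N ≤ 1 := (size_le_self N).trans (by omega)
    exact (Nat.pow_le_pow_right (by omega) ((sb_le N).trans h1)).trans hB

/-- The fuel. -/
def fuelF (c N : ℕ) : ℕ := N * 2 ^ (c * sb N)

theorem grow_fuelF (c : ℕ) : Grow (fuelF c) :=
  (Grow.id.mul (pure_two_pow_sb.grow.pow c)).of_eq fun N => by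
    rw [fuelF, ← pow_mul, mul_comm c]

end Vale.Agent.P305E
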