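import Vale.Agent.P305E.Rep

/-!
# Engine, part 3: the predicates `Pure`, `Grow`, `PPred`, `Impl` and their `fun_prop` rules

* `Pure f`: `f` has code of polylogarithmic time, and does not increase the bound on numbers;
* `Grow f`: the same, but the numbers of the result are only polynomially bounded;
* `PPred p`: `p` is decided in polylogarithmic time;
* `Impl f`: the computations `f a` have code of polylogarithmic time per tick.
-/

namespace Vale.Agent.P305E

variable {α β γ δ : Type} [Rep α] [Rep β] [Rep γ] [Rep δ]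

/-- Fast functions that do not increase numbers. -/
@[fun_prop] def Pure (f : α → β) : Prop := Comp α fun B a v => R B v (f a)

/-- Fast functions. -/
@[fun_prop] def Grow (f : α → β) : Prop := ∃ k, Comp α fun B a v => R (B ^ (k + 1)) v (f a)

open Classical in
/-- Fast predicates. -/
@[fun_prop] def PPred (p : α → Prop) : Prop :=
  Comp α fun _ a v => v = .nat (if p a then 1 else 0)

/-- Computations with code. -/
@[fun_prop] def Impl (f : α → M β) : Prop := CompM f fun B _ b v => R B v b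

/-- Constants that have a representation. -/
class Lit (x : β) : Prop where
  out : ∃ B v, R B v x

instance (x : V) : Lit x := ⟨0, x, rfl⟩
instance (n : ℕ) : Lit n := ⟨n, _, rfl, le_rfl⟩
instance (b : Bool) : Lit b := ⟨0, _, rfl⟩
instance (u : Unit) : Lit u := ⟨0, .nat 0, trivial⟩
instance (z : ℤ) : Lit z :=
  ⟨z.toNat + (-z).toNat, _, _, _, rfl, ⟨rfl, Nat.le_add_right _ _⟩, rfl, Nat.le_add_left _ _⟩
instance : Lit ([] : List β) := ⟨0, _, rfl⟩
instance : Lit (none : Option β) := ⟨0, _, rfl⟩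

theorem pow_succ_mono {B : ℕ} (hB : 2 ≤ B) {k k' : ℕ} (h : k ≤ k') : B ^ (k + 1) ≤ B ^ (k' + 1) :=
  Nat.pow_le_pow_right (by omega) (by omega)

/-! ### Lambda rules -/

@[fun_prop] theorem Pure.id : Pure fun a : α => a := Comp.id

@[fun_prop] theorem Pure.const (x : β) [h : Lit x] : Pure fun _ : α => x := by
  obtain ⟨B, v, hv⟩ := h.out
  exact (Comp.lit v).mono B fun _ _ _ _ hB e => e ▸ Rep.mono hB hv

@[fun_prop] theorem Pure.comp {f : β → γ} {g : α → β} (hf : Pure f) (hg : Pure g) :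
    Pure fun a => f (g a) :=
  Comp.comp hg hf 0 fun B a v _ h => ⟨g a, by simpa using h, fun w hw => by simpa using hw⟩

@[fun_prop] theorem Pure.grow {f : α → β} (hf : Pure f) : Grow f :=
  ⟨0, Comp.mono hf 0 fun _ _ _ _ _ h => by simpa using h⟩

@[fun_prop] theorem Grow.id : Grow fun a : α => a := Pure.id.grow

@[fun_prop] theorem Grow.const (x : β) [Lit x] : Grow fun _ : α => x := (Pure.const x).grow

@[fun_prop] theorem Grow.comp {f : β → γ} {g : α → β} (hf : Grow f) (hg : Grow g) :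
    Grow fun a => f (g a) := by
  obtain ⟨k, hf⟩ := hf
  obtain ⟨k', hg⟩ := hg
  refine ⟨k' * k + k' + k, Comp.comp hg hf k' fun B a v _ h => ⟨g a, h, fun w hw => ?_⟩⟩
  rw [← pow_mul] at hw
  convert hw using 2
  ring

@[fun_prop] theorem PPred.comp {p : β → Prop} {g : α → β} (hp : PPred p) (hg : Grow g) :
    PPred fun a => p (g a) := by
  obtain ⟨k', hg⟩ := hg
  exact Comp.comp hg hp k' fun B a v _ h => ⟨g a, h, fun w hw => hw⟩

@[fun_prop] theorem PPred.const (p : Prop) : PPred fun _ : α => p := Comp.lit _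

@[fun_prop] theorem Impl.comp {f : β → M γ} {g : α → β} (hf : Impl f) (hg : Pure g) :
    Impl fun a => f (g a) :=
  CompM.seq (k := fun a _ => f (g a)) (Comp.toM hg fun _ => ()) hf
    fun _ a _ _ h => ⟨g a, h.2, rfl, fun _ _ h => h⟩

theorem Pure.of_eq {f g : α → β} (h : Pure f) (e : ∀ a, f a = g a) : Pure g :=
  (funext e : f = g) ▸ h
theorem Grow.of_eq {f g : α → β} (h : Grow f) (e : ∀ a, f a = g a) : Grow g :=
  (funext e : f = g) ▸ h
theorem Impl.of_eq {f g : α → M β} (h : Impl f) (e : ∀ a, f a = g a) : Impl g :=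
  (funext e : f = g) ▸ h
theorem PPred.of_iff {p q : α → Prop} (h : PPred p) (e : ∀ a, p a ↔ q a) : PPred q :=
  (funext fun a => propext (e a) : p = q) ▸ h

/-! ### Pairs -/

@[fun_prop] theorem Pure.pair {f : α → β} {g : α → γ} (hf : Pure f) (hg : Pure g) :
    Pure fun a => (f a, g a) := Comp.pair hf hg

@[fun_prop] theorem Pure.fst {f : α → β × γ} (hf : Pure f) : Pure fun a => (f a).1 :=
  Pure.comp (f := Prod.fst) Comp.fst hf

@[fun_prop] theorem Pure.snd {f : α → β × γ} (hf : Pure f) : Pure fun a => (f a).2 :=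
  Pure.comp (f := Prod.snd) Comp.snd hf

@[fun_prop] theorem Grow.pair {f : α → β} {g : α → γ} (hf : Grow f) (hg : Grow g) :
    Grow fun a => (f a, g a) := by
  obtain ⟨k, hf⟩ := hf
  obtain ⟨k', hg⟩ := hg
  exact ⟨k + k', (hf.pair hg).mono 0 fun B a v hB _ ⟨x, y, e, h1, h2⟩ =>
    ⟨x, y, e, Rep.mono (pow_succ_mono hB (by omega)) h1,
      Rep.mono (pow_succ_mono hB (by omega)) h2⟩⟩

@[fun_prop] theorem Grow.fst {f : α → β × γ} (hf : Grow f) : Grow fun a => (f a).1 :=
  Grow.comp (f := Prod.fst) (Pure.fst Pure.id).grow hf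

@[fun_prop] theorem Grow.snd {f : α → β × γ} (hf : Grow f) : Grow fun a => (f a).2 :=
  Grow.comp (f := Prod.snd) (Pure.snd Pure.id).grow hf

/-- Functions from a type represented through a map. -/
theorem Pure.of_comap {σ : Type} (φ : σ → α) {h : α → β} (hh : Pure h) :
    @Pure σ β (Rep.comap φ) _ fun s => h (φ s) := by
  obtain ⟨e, j, hh⟩ := hh
  exact ⟨e, j, fun B W hok v s hv => hh B W hok v (φ s) hv⟩

/-- Functions into a type represented through a map. -/
theorem Pure.to_comap {σ : Type} (φ : σ → β) {f : α → σ} (hh : Pure fun a => φ (f a)) :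
    @Pure α σ _ (Rep.comap φ) f := hh

theorem Grow.to_comap {σ : Type} (φ : σ → β) {f : α → σ} (hh : Grow fun a => φ (f a)) :
    @Grow α σ _ (Rep.comap φ) f := hh

/-! ### The monad -/

theorem Impl.ret {f : α → β} (hf : Pure f) : Impl fun a => M.ret (f a) :=
  (Comp.toM hf f).mono 0 fun _ _ _ _ _ _ h => h.1 ▸ h.2

@[fun_prop] theorem Impl.pure {f : α → β} (hf : Pure f) : Impl fun a => (pure (f a) : M β) :=
  Impl.ret hf

theorem Impl.toPure {f : α → β} (hf : Impl fun a => M.ret (f a)) : Pure f := CompM.toComp hf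

@[fun_prop] theorem Impl.bind {f : α → M β} {g : α → β → M γ} (hf : Impl f)
    (hg : Impl fun p : α × β => g p.1 p.2) : Impl fun a => f a >>= g a :=
  CompM.seq (CompM.pair Comp.id hf) hg fun _ a b _ h => ⟨(a, b), h, rfl, fun _ _ h => h⟩

@[fun_prop] theorem Impl.map {f : α → M β} {g : α → β → γ} (hf : Impl f)
    (hg : Pure fun p : α × β => g p.1 p.2) : Impl fun a => g a <$> f a :=
  Impl.bind (g := fun a b => M.ret (g a b)) hf (Impl.ret hg)

@[fun_prop] theorem Impl.flip : Impl fun _ : α => flip := CompM.flip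

@[fun_prop] theorem Impl.fail : Impl fun _ : α => (M.fail : M β) :=
  ⟨.id, 0, fun _ _ _ _ _ _ _ _ _ _ _ hr => by simp [M.run] at hr⟩

@[fun_prop] theorem Impl.tick {f : α → M β} (hf : Impl f) : Impl fun a => M.tick (f a) := by
  refine CompM.refine hf 0 fun B _ _ v a _ ω i c i' t hr => ?_
  simp only [M.run, Option.map_eq_some_iff, addT, Prod.mk.injEq, Prod.exists] at hr
  obtain ⟨c', j, s, h, rfl, rfl, rfl⟩ := hr
  exact ⟨s, h, by simp⟩

/-- A ghost assumption on the word size. -/
theorem Impl.need {f : α → M β} (hf : Impl f) (n : α → ℕ) : Impl fun a => M.need (n a) (f a) := by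
  refine CompM.refine hf 0 fun B _ _ v a _ ω i c i' t hr => ?_
  simp only [M.run] at hr
  split_ifs at hr
  exact ⟨t, hr, by simp⟩

@[fun_prop] theorem Impl.num {f : α → ℕ} (hf : Grow f) : Impl fun a => num (f a) := by
  obtain ⟨k, e, j, h⟩ := hf
  refine ⟨e, j, fun B W hok v a hv ω i b i' t hr => ?_⟩
  simp only [P305E.num, M.run] at hr
  split_ifs at hr with hn
  simp only [Option.some.injEq, Prod.mk.injEq] at hr
  obtain ⟨rfl, rfl, rfl⟩ := hr
  obtain ⟨v', n, h1, h2, h3⟩ := h B W hok v a hv ω i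
  exact ⟨v', n, h1, ⟨h2.1, hn⟩, by simpa using h3⟩

/-! ### Branching -/

omit [Rep δ] in
theorem CompM.ite {p : α → Prop} [DecidablePred p] {f g : α → M δ} {Q : ℕ → α → δ → V → Prop}
    (hp : PPred p) (hf : CompM f Q) (hg : CompM g Q) :
    CompM (fun a => if p a then f a else g a) Q :=
  CompM.branch (Comp.pair hp Comp.id) hf hg fun _ a _ ⟨x, y, e, h1, h2⟩ =>
    ⟨x, y, e, fun hc => ⟨a, h2, if_pos (by by_contra hn; simp [h1, hn] at hc), fun _ _ h => h⟩,
      fun hc => ⟨a, h2, if_neg (by intro hn; simp [h1, hn] at hc), fun _ _ h => h⟩⟩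

@[fun_prop] theorem Impl.ite {p : α → Prop} [DecidablePred p] {f g : α → M β} (hp : PPred p)
    (hf : Impl f) (hg : Impl g) : Impl fun a => if p a then f a else g a := CompM.ite hp hf hg

theorem Comp.ite {p : α → Prop} [DecidablePred p] {Q Q' : ℕ → α → V → Prop} (hp : PPred p)
    (hf : Comp α Q) (hg : Comp α Q') : Comp α fun B a v => if p a then Q B a v else Q' B a v := by
  have h := CompM.branch (f := fun _ : α => M.ret ()) (Comp.pair hp Comp.id)
    (hf.toM fun _ => ()) (hg.toM fun _ => ())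
    (Q' := fun B a _ v => if p a then Q B a v else Q' B a v) fun _ a _ ⟨x, y, e, h1, h2⟩ =>
    ⟨x, y, e, fun hc => ⟨a, h2, rfl, fun _ _ h => by
        rw [if_pos (by by_contra hn; simp [h1, hn] at hc)]; exact h.2⟩,
      fun hc => ⟨a, h2, rfl, fun _ _ h => by
        rw [if_neg (by intro hn; simp [h1, hn] at hc)]; exact h.2⟩⟩
  exact h.toComp

@[fun_prop] theorem Pure.ite {p : α → Prop} [DecidablePred p] {f g : α → β} (hp : PPred p)
    (hf : Pure f) (hg : Pure g) : Pure fun a => if p a then f a else g a :=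
  (Comp.ite hp hf hg).mono 0 fun _ a _ _ _ h => by
    beta_reduce
    split_ifs at h ⊢ <;> exact h

@[fun_prop] theorem Grow.ite {p : α → Prop} [DecidablePred p] {f g : α → β} (hp : PPred p)
    (hf : Grow f) (hg : Grow g) : Grow fun a => if p a then f a else g a := by
  obtain ⟨k, hf⟩ := hf
  obtain ⟨k', hg⟩ := hg
  refine ⟨k + k', (Comp.ite hp hf hg).mono 0 fun B a v hB _ h => ?_⟩
  beta_reduce
  split_ifs at h ⊢
  · exact Rep.mono (pow_succ_mono hB (by omega)) h
  · exact Rep.mono (pow_succ_mono hB (by omega)) h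

@[fun_prop] theorem Pure.decide {p : α → Prop} [DecidablePred p] (hp : PPred p) :
    Pure fun a => decide (p a) :=
  Comp.mono hp 0 fun _ a v _ _ h => by
    show v = _
    rw [h]
    by_cases hn : p a <;> simp [hn]

theorem PPred.of_bool {f : α → Bool} (hf : Grow f) : PPred fun a => f a = true := by
  obtain ⟨k, hf⟩ := hf
  exact Comp.mono hf 0 fun _ a v _ _ h => by
    have h' : v = _ := h
    rw [h']
    by_cases hn : f a = true <;> simp [hn]

@[fun_prop] theorem PPred.not {p : α → Prop} (hp : PPred p) : PPred fun a => ¬ p a := by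
  classical
  exact (PPred.of_bool (f := fun a => if p a then false else true) (by fun_prop)).of_iff
    fun a => by by_cases h : p a <;> simp [h]

@[fun_prop] theorem PPred.and {p q : α → Prop} (hp : PPred p) (hq : PPred q) :
    PPred fun a => p a ∧ q a := by
  classical
  exact (PPred.of_bool (f := fun a => if p a then decide (q a) else false)
    (Pure.grow (by fun_prop))).of_iff fun a => by by_cases h : p a <;> simp [h]

@[fun_prop] theorem PPred.or {p q : α → Prop} (hp : PPred p) (hq : PPred q) :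
    PPred fun a => p a ∨ q a := by
  classical
  exact (PPred.of_bool (f := fun a => if p a then true else decide (q a))
    (Pure.grow (by fun_prop))).of_iff fun a => by by_cases h : p a <;> simp [h]

/-! ### Natural numbers -/

theorem Pure.op2 (o : Bop) {f g : α → ℕ} {k : ℕ}
    (ho : ∀ B a b, 2 ≤ B → a ≤ B → b ≤ B → o.eval a b ≤ B ^ 2)
    (hf : Comp α fun B a v => R (B ^ (k + 1)) v (f a, g a)) :
    Comp α fun B a v => v = .nat (o.eval (f a) (g a)) ∧ f a ≤ B ^ (k + 1) ∧ g a ≤ B ^ (k + 1) :=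
  Comp.comp hf (Comp.op o ho) k fun _ a _ _ h => ⟨(f a, g a), h, fun _ hw => hw⟩

theorem Grow.op2 (o : Bop) {f g : α → ℕ} (hf : Grow f) (hg : Grow g)
    (ho : ∀ B a b, 2 ≤ B → a ≤ B → b ≤ B → o.eval a b ≤ B ^ 2) :
    Grow fun a => o.eval (f a) (g a) := by
  obtain ⟨k, h⟩ := hf.pair hg
  refine ⟨2 * k + 1, (Pure.op2 o ho h).mono 0 fun B a v hB _ h => ⟨h.1, ?_⟩⟩
  have h2 : 2 ≤ B ^ (k + 1) := hB.trans (Nat.le_self_pow (by omega) _)
  refine (ho _ _ _ h2 h.2.1 h.2.2).trans (le_of_eq ?_)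
  ring

theorem Pure.op2l (o : Bop) {f g : α → ℕ} (hf : Pure f) (hg : Grow g)
    (ho : ∀ a b, o.eval a b ≤ a) : Pure fun a => o.eval (f a) (g a) := by
  obtain ⟨k, h⟩ := hf.grow.pair hg
  have h' := Pure.op2 o (fun B a b hB ha _ => (ho a b).trans (ha.trans (by nlinarith))) h
  obtain ⟨e, j, h1⟩ := h'
  obtain ⟨e', j', h2⟩ := hf
  refine ⟨e, j + j', fun B W hok v a hv ω i => ?_⟩
  obtain ⟨v', n, a1, a2, a3⟩ := h1 B W (hok.mono (by omega)) v a hv ω i
  obtain ⟨v'', n', -, b2, -⟩ := h2 B W (hok.mono (by omega)) v a hv ω i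
  exact ⟨v', n, a1, ⟨a2.1, (ho _ _).trans b2.2⟩, a3.trans (lg_pow_mono B (by omega))⟩

@[fun_prop] theorem Grow.add {f g : α → ℕ} (hf : Grow f) (hg : Grow g) :
    Grow fun a => f a + g a :=
  Grow.op2 .add hf hg fun B a b hB ha hb => by simp only [Bop.eval]; nlinarith

@[fun_prop] theorem Grow.mul {f g : α → ℕ} (hf : Grow f) (hg : Grow g) :
    Grow fun a => f a * g a :=
  Grow.op2 .mul hf hg fun B a b hB ha hb => by simp only [Bop.eval]; nlinarith

@[fun_prop] theorem Grow.sub {f g : α → ℕ} (hf : Grow f) (hg : Grow g) :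
    Grow fun a => f a - g a :=
  Grow.op2 .sub hf hg fun B a b hB ha hb => (Nat.sub_le _ _).trans (by nlinarith)

@[fun_prop] theorem Grow.div {f g : α → ℕ} (hf : Grow f) (hg : Grow g) :
    Grow fun a => f a / g a :=
  Grow.op2 .div hf hg fun B a b hB ha hb => (Nat.div_le_self _ _).trans (by nlinarith)

@[fun_prop] theorem Grow.mod {f g : α → ℕ} (hf : Grow f) (hg : Grow g) :
    Grow fun a => f a % g a :=
  Grow.op2 .mod hf hg fun B a b hB ha hb => (Nat.mod_le _ _).trans (by nlinarith)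

@[fun_prop] theorem Pure.sub {f g : α → ℕ} (hf : Pure f) (hg : Grow g) :
    Pure fun a => f a - g a := Pure.op2l .sub hf hg fun _ _ => Nat.sub_le _ _

@[fun_prop] theorem Pure.div {f g : α → ℕ} (hf : Pure f) (hg : Grow g) :
    Pure fun a => f a / g a := Pure.op2l .div hf hg fun _ _ => Nat.div_le_self _ _

@[fun_prop] theorem Pure.mod {f g : α → ℕ} (hf : Pure f) (hg : Grow g) :
    Pure fun a => f a % g a := Pure.op2l .mod hf hg fun _ _ => Nat.mod_le _ _

theorem PPred.nat_lt {f g : α → ℕ} (hf : Grow f) (hg : Grow g) : PPred fun a => f a < g a := by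
  obtain ⟨k, h⟩ := hf.pair hg
  refine (Pure.op2 .lt (fun B a b hB _ _ => ?_) h).mono 0 fun B a v _ _ h => ?_
  · simp only [Bop.eval]; split_ifs <;> nlinarith
  · rw [h.1]; simp only [Bop.eval]; congr

theorem PPred.nat_eq {f g : α → ℕ} (hf : Grow f) (hg : Grow g) : PPred fun a => f a = g a := by
  obtain ⟨k, h⟩ := hf.pair hg
  refine (Pure.op2 .eq (fun B a b hB _ _ => ?_) h).mono 0 fun B a v _ _ h => ?_
  · simp only [Bop.eval]; split_ifs <;> nlinarith
  · rw [h.1]; simp only [Bop.eval]; congr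

end Vale.Agent.P305E
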