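import Vale.Agent.P305E.Data

/-!
# Engine, part 5: loops
-/

namespace Vale.Agent.P305E

section defs
variable {α β γ σ : Type}

theorem M.bind_assoc' (m : M α) (f : α → M β) (g : β → M γ) :
    (m.bind f).bind g = m.bind fun a => (f a).bind g := by
  induction m with
  | ret a => rfl
  | coin k ih => simp only [M.bind, ih]
  | tick k ih => simp only [M.bind, ih]
  | need n k ih => simp only [M.bind, ih]
  | fail => rfl

theorem M.bind_ret (m : M α) : m.bind M.ret = m := by
  induction m with
  | ret a => rfl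
  | coin k ih => simp only [M.bind, ih]
  | tick k ih => simp only [M.bind, ih]
  | need n k ih => simp only [M.bind, ih]
  | fail => rfl

instance : LawfulMonad M := LawfulMonad.mk' M M.bind_ret (fun _ _ => rfl) M.bind_assoc'

/-- The general loop: the body gives a new state or the result. The number of rounds is below the
(ghost) fuel, each round after the first costs a tick. -/
def loopM (F : σ → M (σ ⊕ β)) : ℕ → σ → M β
  | 0, _ => .fail
  | n + 1, s => F s >>= Sum.elim (fun s' => .tick (loopM F n s')) pure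

/-- The loop over a list; each round costs a tick. -/
def foldM (f : σ → β → M σ) : σ → List β → M σ
  | s, [] => pure s
  | s, x :: l => f s x >>= fun s' => .tick (foldM f s' l)

/-- The loop over `0, …, n - 1`; each round costs a tick. -/
def iterM (f : σ → ℕ → M σ) (s : σ) (n : ℕ) : M σ := foldM f s (List.range n)

/-- The value `b`, at the price of `t` ticks. -/
def pay (t : ℕ) (b : β) : M β := ticks t (.ret b)

variable {c : Cx}

@[simp] theorem Tri_pay (t : ℕ) (b : β) (Q : β → ℕ → Prop) : Tri c (pay t b) Q ↔ Q b t := by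
  simp [pay]

theorem Tri.loopM {F : σ → M (σ ⊕ β)} {Q : β → ℕ → Prop} (I : σ → ℕ → Prop) (μ : σ → ℕ)
    (hstep : ∀ s t, I s t → Tri c (F s) fun r t' =>
      Sum.elim (fun s' => I s' (t + t' + 1) ∧ μ s' < μ s) (fun b => Q b (t + t')) r)
    {n : ℕ} {s : σ} (h0 : I s 0) (hn : μ s < n) : Tri c (loopM F n s) Q := by
  have : ∀ n s t, I s t → μ s < n → Tri c (P305E.loopM F n s) fun b t' => Q b (t + t') := by
    intro n
    induction n with
    | zero => intro s t _ h; omega
    | succ n ih =>
      intro s t hI hn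
      refine (hstep s t hI).bind fun r t' hr => ?_
      cases r with
      | inl s' =>
        refine (ih s' _ hr.1 (by have := hr.2; omega)).mono fun b t'' h => ?_
        convert h using 1
        omega
      | inr b => exact hr
  simpa using this n s 0 h0 hn

theorem Tri.foldM {f : σ → β → M σ} {l : List β} {s : σ} (I : List β → σ → ℕ → Prop)
    (h0 : I [] s 0)
    (hstep : ∀ pre x rest s t, l = pre ++ x :: rest → I pre s t →
      Tri c (f s x) fun s' t' => I (pre ++ [x]) s' (t + t' + 1)) :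
    Tri c (foldM f s l) (I l) := by
  have : ∀ rest pre s t, l = pre ++ rest → I pre s t →
      Tri c (P305E.foldM f s rest) fun s' t' => I l s' (t + t') := by
    intro rest
    induction rest with
    | nil => intro pre s t e h; simpa [P305E.foldM, e] using h
    | cons x rest ih =>
      intro pre s t e h
      refine (hstep pre x rest s t e h).bind fun s' t' h' => ?_
      refine (ih (pre ++ [x]) s' _ (by simp [e]) h').mono fun b t'' h => ?_
      convert h using 1
      omega
  simpa using this l [] s 0 rfl h0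

theorem Tri.iterM {f : σ → ℕ → M σ} {n : ℕ} {s : σ} (I : ℕ → σ → ℕ → Prop) (h0 : I 0 s 0)
    (hstep : ∀ k s t, k < n → I k s t → Tri c (f s k) fun s' t' => I (k + 1) s' (t + t' + 1)) :
    Tri c (iterM f s n) (I n) := by
  have := Tri.foldM (c := c) (f := f) (l := List.range n) (s := s) (fun l => I l.length) h0
    fun pre x rest s t e h => by
      have h1 : pre.length < n := by
        have := congrArg List.length e
        simp at this
        omega
      have h2 : x = pre.length := by
        have := congrArg (fun l => l[pre.length]?) e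
        simpa [List.getElem?_range h1, eq_comm] using this
      subst h2
      simpa using hstep _ s t h1 h
  simpa [P305E.iterM] using this

theorem foldM_eq_loopM (f : σ → β → M σ) (l : List β) (s : σ) :
    foldM f s l = loopM (fun p : σ × List β => caseL p.2 (pure (.inr p.1))
      fun x l => f p.1 x >>= fun s' => pure (.inl (s', l))) (l.length + 1) (s, l) := by
  induction l generalizing s with
  | nil => rfl
  | cons x l ih =>
    rw [List.length_cons, loopM, foldM]
    simp only [caseL_cons, bind_assoc, pure_bind, Sum.elim_inl, ← ih]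

theorem iterM_eq_loopM (f : σ → ℕ → M σ) (n : ℕ) (s : σ) :
    iterM f s n = loopM (fun p : σ × ℕ => if p.2 = 0 then pure (.inr p.1) else
      f p.1 (n - p.2) >>= fun s' => pure (.inl (s', p.2 - 1))) (n + 1) (s, n) := by
  have : ∀ k s, k ≤ n → foldM f s (List.range' (n - k) k) =
      loopM (fun p : σ × ℕ => if p.2 = 0 then pure (.inr p.1) else
      f p.1 (n - p.2) >>= fun s' => pure (.inl (s', p.2 - 1))) (k + 1) (s, k) := by
    intro k
    induction k with
    | zero => intro s _; rfl
    | succ k ih =>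
      intro s hk
      rw [loopM, List.range'_succ, foldM]
      have e : n - (k + 1) + 1 = n - k := by omega
      simp only [Nat.add_one_ne_zero, if_false, bind_assoc, pure_bind, Sum.elim_inl,
        Nat.add_sub_cancel, e, ← ih _ (by omega : k ≤ n)]
  rw [← this n s le_rfl, iterM, List.range_eq_range', Nat.sub_self]

end defs

variable {α β γ σ : Type} [Rep α] [Rep β] [Rep γ] [Rep σ]

/-- The code of the body of a loop. -/
def loopBody (e : Ex) : Ex :=
  .comp (.pair .id (.comp .snd e)) (.comp (.pair (.comp .snd .fst) .id)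
    (.ite (.comp .snd .snd) (.comp (.pair (.comp .fst .fst)
      (.pair (.comp .fst (.comp .snd .fst)) (.comp .snd .snd))) .app)))

theorem Impl.loopM' {F : α → σ → M (σ ⊕ β)} (hF : Impl fun p : α × σ => F p.1 p.2)
    (fuel : α × σ → ℕ) : Impl fun p : α × σ => loopM (F p.1) (fuel p) p.2 := by
  obtain ⟨e, j, hF⟩ := hF
  refine ⟨.comp (.pair (.lam (loopBody e)) .id) .app, j + 40, fun B W hok v p hv => ?_⟩
  have hl := two_le_lg B
  have key : ∀ (ρ : V) (ω : ℕ → Bool) (a : α) (va : V), R B va a → ∀ n s vs, R B vs s →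
      ∀ i b i' t, (loopM (F a) n s).run B ω i = some (b, i', t) → ∃ v' k,
      Ev W ω (loopBody e) (.pair (.pair (loopBody e).quote ρ) (.pair va vs)) i k v' i' ∧
        R B v' b ∧ k ≤ (lg B ^ j + 30) * (t + 1) := by
    intro ρ ω a va ha n
    induction n with
    | zero => intro s vs _ i b i' t hr; simp [loopM, M.run] at hr
    | succ n ih =>
      intro s vs hs i b i' t hr
      obtain ⟨r, i₁, t₁, t₂, r1, r2, rfl⟩ := (M.run_bind _ _ _).1 hr
      obtain ⟨x, k, h1, h2, h3⟩ := hF B W (hok.mono (by omega)) (.pair va vs) (a, s)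
        ⟨va, vs, rfl, ha, hs⟩ ω i r i₁ t₁ r1
      cases r with
      | inl s' =>
        obtain ⟨y, rfl, hy⟩ := h2
        simp only [Sum.elim_inl, M.run, Option.map_eq_some_iff, addT, Prod.mk.injEq,
          Prod.exists] at r2
        obtain ⟨b', i'', t₃, r3, rfl, rfl, rfl⟩ := r2
        obtain ⟨v', k', g1, g2, g3⟩ := ih s' y hy i₁ b' i'' t₃ r3
        refine ⟨v', _, .comp _ _ _ _ _ _ _ _ _ _
          (.pair _ _ _ _ _ _ _ _ _ _ (.id _ _) (.comp _ _ _ _ _ _ _ _ _ _ (.snd _ _ _) h1))
          (.comp _ _ _ _ _ _ _ _ _ _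
            (.pair _ _ _ _ _ _ _ _ _ _ (.comp _ _ _ _ _ _ _ _ _ _ (.snd _ _ _) (.fst _ _ _))
              (.id _ _))
            (.iteF _ _ _ _ _ _ _ (.comp _ _ _ _ _ _ _ _ _ _
              (.pair _ _ _ _ _ _ _ _ _ _ (.comp _ _ _ _ _ _ _ _ _ _ (.fst _ _ _) (.fst _ _ _))
                (.pair _ _ _ _ _ _ _ _ _ _ (.comp _ _ _ _ _ _ _ _ _ _ (.fst _ _ _)
                  (.comp _ _ _ _ _ _ _ _ _ _ (.snd _ _ _) (.fst _ _ _)))
                  (.comp _ _ _ _ _ _ _ _ _ _ (.snd _ _ _) (.snd _ _ _))))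
              (.app _ _ _ _ _ _ _ g1)))), g2, ?_⟩
        nlinarith
      | inr b' =>
        obtain ⟨y, rfl, hy⟩ := h2
        simp only [Sum.elim_inr, M.pure_def, M.run, Option.some.injEq, Prod.mk.injEq] at r2
        obtain ⟨rfl, rfl, rfl⟩ := r2
        refine ⟨y, _, .comp _ _ _ _ _ _ _ _ _ _
          (.pair _ _ _ _ _ _ _ _ _ _ (.id _ _) (.comp _ _ _ _ _ _ _ _ _ _ (.snd _ _ _) h1))
          (.comp _ _ _ _ _ _ _ _ _ _
            (.pair _ _ _ _ _ _ _ _ _ _ (.comp _ _ _ _ _ _ _ _ _ _ (.snd _ _ _) (.fst _ _ _))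
              (.id _ _))
            (.iteT _ _ _ _ _ _ _ _ (by simp)
              (.comp _ _ _ _ _ _ _ _ _ _ (.snd _ _ _) (.snd _ _ _)))), hy, ?_⟩
        nlinarith
  intro ω i b i' t hr
  obtain ⟨va, vs, rfl, ha, hs⟩ := hv
  obtain ⟨v', k, g1, g2, g3⟩ := key (.pair va vs) ω p.1 va ha _ p.2 vs hs i b i' t hr
  refine ⟨v', _, .comp _ _ _ _ _ _ _ _ _ _
    (.pair _ _ _ _ _ _ _ _ _ _ (.lam _ _ _) (.id _ _)) (.app _ _ _ _ _ _ _ g1), g2, ?_⟩
  have a1 : 36 ≤ lg B ^ 40 := (by norm_num : 36 ≤ 40).trans (le_lg_pow B 40)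
  have a2 := one_le_lg_pow B j
  have a3 : lg B ^ j + 35 ≤ lg B ^ (j + 40) := by rw [pow_add]; nlinarith
  nlinarith

@[fun_prop] theorem Impl.loopM {F : α → σ → M (σ ⊕ β)} {fuel : α → ℕ} {s : α → σ}
    (hF : Impl fun p : α × σ => F p.1 p.2) (hs : Pure s) :
    Impl fun a => loopM (F a) (fuel a) (s a) :=
  Impl.comp (g := fun a => (a, s a)) (Impl.loopM' hF fun p => fuel p.1) (by fun_prop)

@[fun_prop] theorem Impl.foldM {f : α → σ → β → M σ} {s : α → σ} {l : α → List β}
    (hf : Impl fun p : α × σ × β => f p.1 p.2.1 p.2.2) (hs : Pure s) (hl : Pure l) :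
    Impl fun a => foldM (f a) (s a) (l a) := by
  simp only [foldM_eq_loopM]
  have h : Impl fun q : (α × σ × List β) × β × List β => f q.1.1 q.1.2.1 q.2.1 :=
    Impl.comp (g := fun q : (α × σ × List β) × β × List β => (q.1.1, q.1.2.1, q.2.1)) hf
      (by fun_prop)
  refine Impl.loopM (Impl.caseL (by fun_prop) (by fun_prop) (Impl.bind h (by fun_prop)))
    (by fun_prop)

@[fun_prop] theorem Impl.iterM {f : α → σ → ℕ → M σ} {s : α → σ} {n : α → ℕ}
    (hf : Impl fun p : α × σ × ℕ => f p.1 p.2.1 p.2.2) (hs : Pure s) (hn : Pure n) :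
    Impl fun a => iterM (f a) (s a) (n a) := by
  simp only [iterM_eq_loopM]
  have h : Impl fun q : α × σ × ℕ => f q.1 q.2.1 (n q.1 - q.2.2) :=
    Impl.comp (g := fun q : α × σ × ℕ => (q.1, q.2.1, n q.1 - q.2.2)) hf (by fun_prop)
  refine Impl.loopM (Impl.ite (by fun_prop) (by fun_prop) (Impl.bind h (by fun_prop)))
    (by fun_prop)

/-! ### Replacing deterministic computations by their specifications -/

theorem Impl.of_det {f : α → M β} (hf : Impl f) (k : ℕ) {P : α → Prop} {n T : α → ℕ} {g : α → β}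
    (h : ∀ B a, 2 ≤ B → k ≤ B → (∃ v, R B v a) → P a → n a ≤ B →
      Tri ⟨B, false⟩ (f a) fun b t => b = g a ∧ t + 1 ≤ lg B ^ k * (T a + 1)) :
    Impl fun a => spec (P a) (n a) (T a) (g a) := by
  refine CompM.refine hf k fun B hB hk v a hv ω i c i' t hr => ?_
  obtain ⟨h1, h2, rfl, rfl, rfl⟩ := run_spec hr
  obtain ⟨b, t', r, rfl, ht⟩ := (h B a hB hk ⟨v, hv⟩ h1 h2).run_det ω i'
  exact ⟨t', r, ht⟩

theorem Impl.of_pay {f : α → M β} (hf : Impl f) (k : ℕ) {T : α → ℕ} {g : α → β}
    (h : ∀ B a, 2 ≤ B → k ≤ B → (∃ v, R B v a) →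
      Tri ⟨B, false⟩ (f a) fun b t => b = g a ∧ t + 1 ≤ lg B ^ k * (T a + 1)) :
    Impl fun a => pay (T a) (g a) :=
  (hf.of_det k (P := fun _ => True) (n := fun _ => 0) fun B a h1 h2 h3 _ _ =>
    h B a h1 h2 h3).refine 0 fun B _ _ v a _ ω i c i' t hr =>
      ⟨t, by simpa [spec, M.run, pay] using hr, by simp⟩

/-- Loops with polylogarithmically many rounds give fast functions. -/
theorem Pure.of_impl {f : α → M β} (hf : Impl f) (k : ℕ) {g : α → β}
    (h : ∀ B a, 2 ≤ B → k ≤ B → (∃ v, R B v a) →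
      Tri ⟨B, false⟩ (f a) fun b t => b = g a ∧ t + 1 ≤ lg B ^ k) : Pure g :=
  Impl.toPure (hf.of_pay k (T := fun _ => 0) (by simpa using h))

end Vale.Agent.P305E
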