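import Vale.Agent.P305E.Core

/-!
# Engine: an abstract machine for the code `Ex`, and the simulation of the big-step semantics

Values are pointers into a heap of cells `(tag, a, b)`; every step allocates two cells.
-/

namespace Vale.Agent.P305E

open Function (update)

/-- Machine states: mode (`0` = evaluate `cur` on `env`, `1` = return the value `cur`), stack
pointer, heap pointer, position of the next random bit, and the heap. -/
structure MS where
  md : ℕ
  cur : ℕ
  env : ℕ
  stk : ℕ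
  hp : ℕ
  pos : ℕ
  tg : ℕ → ℕ
  a : ℕ → ℕ
  b : ℕ → ℕ

/-- `swN k j l d`: entry `k - j` of `l`, default `d`. -/
def swN (k : ℕ) : ℕ → List ℕ → ℕ → ℕ
  | _, [], d => d
  | j, x :: l, d => if k = j then x else swN k (j + 1) l d

theorem swN_le {k cap : ℕ} : ∀ (l : List ℕ) (j d : ℕ), (∀ x ∈ l, x ≤ cap) → d ≤ cap →
    swN k j l d ≤ cap
  | [], _, _, _, hd => hd
  | x :: l, j, d, h, hd => by
    unfold swN
    split_ifs
    · exact h x (by simp)
    · exact swN_le l (j + 1) d (fun y hy => h y (by simp [hy])) hd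

/-- The operation with number `o`. -/
def opN (o x y : ℕ) : ℕ :=
  swN o 0 [x + y, x - y, x * y, x / y, x % y, if x < y then 1 else 0] (if x = y then 1 else 0)

theorem opN_code (o : Bop) (x y : ℕ) : opN o.code x y = o.eval x y := by
  cases o <;> simp [opN, swN, Bop.code, Bop.eval]

namespace MS

variable (s : MS)

/-- The number of the next instruction. -/
def k : ℕ := if s.md < 1 then (if 10 < s.a (s.a s.cur) then 11 else s.a (s.a s.cur))
  else 11 + (if 4 < s.tg s.stk then 0 else s.tg s.stk)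

/-- The argument of the instruction. -/
def arg : ℕ := s.b s.cur

/-- The result of an operation, cut at `W`. -/
def res (W : ℕ) : ℕ :=
  if W < opN (s.a s.arg) (s.a (s.a s.env)) (s.a (s.b s.env)) then W
  else opN (s.a s.arg) (s.a (s.a s.env)) (s.a (s.b s.env))

def nmd : ℕ := swN s.k 0 [1, 1, 1, 1, 1, 1, 1, 0, 0, 0, 0, 1, 1, 0, 0, 1] 1

def ncur : ℕ := swN s.k 0 [s.env, s.a s.env, s.b s.env, s.arg, s.hp, s.hp, s.hp,
  s.a (s.a s.env), if s.tg (s.a s.env) + s.a (s.a s.env) = 0 then s.b s.arg else s.a s.arg,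
  s.a s.arg, s.a s.arg, s.cur, s.cur, s.a s.stk, s.a (s.a s.stk), s.hp] s.cur

def nenv : ℕ := swN s.k 8 [s.b s.env, s.env, s.env, s.env, s.env, s.cur, s.b (s.a s.stk)] s.env

def nstk : ℕ := swN s.k 9 [s.hp + 1, s.hp, s.stk, s.stk, s.b s.stk, s.hp, s.b s.stk] s.stk

def nt : ℕ := swN s.k 6 [1, 0, 0, 1, 2, 0, 0, 0, 4, 1] 0

def na (W c : ℕ) : ℕ :=
  swN s.k 4 [s.res W, c, s.arg, 0, 0, s.b s.arg, s.b s.arg, 0, 0, 0, s.cur, s.a s.stk] 0

def nb : ℕ := swN s.k 6 [s.env, 0, 0, s.env, s.stk, 0, 0, 0, s.b s.stk, s.cur] 0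

/-- One step, given the value `c` of the coin register and the new position `i`. -/
def next (W c i : ℕ) : MS where
  md := s.nmd
  cur := s.ncur
  env := s.nenv
  stk := s.nstk
  hp := s.hp + 2
  pos := i
  tg := update (update s.tg s.hp s.nt) (s.hp + 1) 3
  a := update (update s.a s.hp (s.na W c)) (s.hp + 1) s.hp
  b := update (update s.b s.hp s.nb) (s.hp + 1) s.stk

/-- One step. -/
def step (W : ℕ) (ω : ℕ → Bool) (s : MS) : MS :=
  s.next W (if ω s.pos then 1 else 0) (if s.k = 5 then s.pos + 1 else s.pos)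

end MS

/-- The pointer `p` represents the value. -/
def Rv (s : MS) : V → ℕ → Prop
  | .nat n, p => p < s.hp ∧ s.tg p = 0 ∧ s.a p = n
  | .pair u v, p => p < s.hp ∧ s.tg p = 1 ∧ Rv s u (s.a p) ∧ Rv s v (s.b p)

/-- The heap of `s'` extends the heap of `s`. -/
structure Ext (s s' : MS) : Prop where
  hp : s.hp ≤ s'.hp
  tg : ∀ p, p < s.hp → s'.tg p = s.tg p
  a : ∀ p, p < s.hp → s'.a p = s.a p
  b : ∀ p, p < s.hp → s'.b p = s.b p

theorem Ext.refl (s : MS) : Ext s s := ⟨le_rfl, fun _ _ => rfl, fun _ _ => rfl, fun _ _ => rfl⟩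

theorem Ext.trans {s s' s'' : MS} (h : Ext s s') (h' : Ext s' s'') : Ext s s'' :=
  ⟨h.hp.trans h'.hp,
    fun p hp => (h'.tg p (hp.trans_le h.hp)).trans (h.tg p hp),
    fun p hp => (h'.a p (hp.trans_le h.hp)).trans (h.a p hp),
    fun p hp => (h'.b p (hp.trans_le h.hp)).trans (h.b p hp)⟩

theorem Rv.lt {s : MS} {v : V} {p : ℕ} (h : Rv s v p) : p < s.hp := by
  cases v <;> exact h.1

theorem Rv.ext {s s' : MS} (he : Ext s s') : ∀ {v : V} {p : ℕ}, Rv s v p → Rv s' v p
  | .nat _, p, h => ⟨h.1.trans_le he.hp, (he.tg p h.1).trans h.2.1, (he.a p h.1).trans h.2.2⟩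
  | .pair _ _, p, h => ⟨h.1.trans_le he.hp, (he.tg p h.1).trans h.2.1,
      by rw [he.a p h.1]; exact Rv.ext he h.2.2.1, by rw [he.b p h.1]; exact Rv.ext he h.2.2.2⟩

variable {W : ℕ} {ω : ℕ → Bool}

theorem ext_step (s : MS) : Ext s (MS.step W ω s) := by
  refine ⟨by simp [MS.step, MS.next], fun p hp => ?_, fun p hp => ?_, fun p hp => ?_⟩ <;>
    simp only [MS.step, MS.next] <;>
    rw [Function.update_of_ne (by omega), Function.update_of_ne (by omega)]

theorem ext_iter (s : MS) (n : ℕ) : Ext s ((MS.step W ω)^[n] s) := by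
  induction n with
  | zero => exact Ext.refl s
  | succ n ih => rw [Function.iterate_succ_apply']; exact ih.trans (ext_step _)

theorem step_hp (s : MS) : (MS.step W ω s).hp = s.hp + 2 := rfl
theorem step_md (s : MS) : (MS.step W ω s).md = s.nmd := rfl
theorem step_cur (s : MS) : (MS.step W ω s).cur = s.ncur := rfl
theorem step_env (s : MS) : (MS.step W ω s).env = s.nenv := rfl
theorem step_stk (s : MS) : (MS.step W ω s).stk = s.nstk := rfl
theorem step_pos (s : MS) : (MS.step W ω s).pos = if s.k = 5 then s.pos + 1 else s.pos := rfl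
theorem step_tg0 (s : MS) : (MS.step W ω s).tg s.hp = s.nt := by simp [MS.step, MS.next]
theorem step_a0 (s : MS) : (MS.step W ω s).a s.hp = s.na W (if ω s.pos then 1 else 0) := by
  simp [MS.step, MS.next]
theorem step_b0 (s : MS) : (MS.step W ω s).b s.hp = s.nb := by simp [MS.step, MS.next]
theorem step_tg1 (s : MS) : (MS.step W ω s).tg (s.hp + 1) = 3 := by simp [MS.step, MS.next]
theorem step_a1 (s : MS) : (MS.step W ω s).a (s.hp + 1) = s.hp := by simp [MS.step, MS.next]
theorem step_b1 (s : MS) : (MS.step W ω s).b (s.hp + 1) = s.stk := by simp [MS.step, MS.next]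

theorem k_eval {s : MS} {j : ℕ} {x : V} (hm : s.md = 0) (hj : j ≤ 10)
    (h : Rv s (.pair (.nat j) x) s.cur) : s.k = j ∧ Rv s x s.arg := by
  obtain ⟨_, _, ⟨_, _, h3⟩, h4⟩ := h
  refine ⟨?_, h4⟩
  unfold MS.k
  rw [if_pos (by omega), h3, if_neg (by omega)]

theorem k_ret {s : MS} {j : ℕ} (hm : s.md = 1) (hj : j ≤ 4) (h : s.tg s.stk = j) :
    s.k = 11 + j := by
  unfold MS.k
  rw [if_neg (by omega), h, if_neg (by omega)]

/-- The machine has returned the value `v` to the stack `st`. -/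
structure Done (s s' : MS) (v : V) (i : ℕ) : Prop where
  md : s'.md = 1
  val : Rv s' v s'.cur
  stk : s'.stk = s.stk
  pos : s'.pos = i

/-- **Simulation**: the machine follows the big-step semantics. -/
theorem simulate {e : Ex} {v v' : V} {i t i' : ℕ} (h : Ev W ω e v i t v' i') :
    ∀ s : MS, s.md = 0 → Rv s e.quote s.cur → Rv s v s.env → s.pos = i → s.stk < s.hp →
      ∃ n, n ≤ 3 * t ∧ Done s ((MS.step W ω)^[n] s) v' i' := by
  induction h with
  | id v i =>
    intro s hm hc hv hi hs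
    obtain ⟨hk, -⟩ := k_eval hm (by norm_num) hc
    refine ⟨1, by norm_num, ?_, ?_, ?_, ?_⟩
    · simp [step_md, MS.nmd, hk, swN]
    · simp only [Function.iterate_one, step_cur, MS.ncur, hk, swN, if_true]
      exact hv.ext (ext_step s)
    · simp [step_stk, MS.nstk, hk, swN]
    · simp [step_pos, hk, hi]
  | fst a b i =>
    intro s hm hc hv hi hs
    obtain ⟨hk, -⟩ := k_eval hm (by norm_num) hc
    refine ⟨1, by norm_num, ?_, ?_, ?_, ?_⟩
    · simp [step_md, MS.nmd, hk, swN]
    · have : s.ncur = s.a s.env := by simp [MS.ncur, hk, swN]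
      simp only [Function.iterate_one, step_cur, this]
      exact hv.2.2.1.ext (ext_step s)
    · simp [step_stk, MS.nstk, hk, swN]
    · simp [step_pos, hk, hi]
  | snd a b i =>
    intro s hm hc hv hi hs
    obtain ⟨hk, -⟩ := k_eval hm (by norm_num) hc
    refine ⟨1, by norm_num, ?_, ?_, ?_, ?_⟩
    · simp [step_md, MS.nmd, hk, swN]
    · have : s.ncur = s.b s.env := by simp [MS.ncur, hk, swN]
      simp only [Function.iterate_one, step_cur, this]
      exact hv.2.2.2.ext (ext_step s)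
    · simp [step_stk, MS.nstk, hk, swN]
    · simp [step_pos, hk, hi]
  | lit n v i =>
    intro s hm hc hv hi hs
    obtain ⟨hk, ha⟩ := k_eval hm (by norm_num) hc
    refine ⟨1, by norm_num, ?_, ?_, ?_, ?_⟩
    · simp [step_md, MS.nmd, hk, swN]
    · have : s.ncur = s.arg := by simp [MS.ncur, hk, swN]
      simp only [Function.iterate_one, step_cur, this]
      exact ha.ext (ext_step s)
    · simp [step_stk, MS.nstk, hk, swN]
    · simp [step_pos, hk, hi]
  | op o x y i hW =>
    intro s hm hc hv hi hs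
    obtain ⟨hk, ha⟩ := k_eval hm (by norm_num) hc
    refine ⟨1, by norm_num, ?_, ?_, ?_, ?_⟩
    · simp [step_md, MS.nmd, hk, swN]
    · have h1 : s.ncur = s.hp := by simp [MS.ncur, hk, swN]
      simp only [Function.iterate_one, step_cur, h1]
      refine ⟨by rw [step_hp]; omega, by simp [step_tg0, MS.nt, hk, swN], ?_⟩
      have h2 : s.res W = o.eval x y := by
        unfold MS.res
        rw [ha.2.2, hv.2.2.1.2.2, hv.2.2.2.2.2, opN_code, if_neg (by omega)]
      simp [step_a0, MS.na, hk, swN, h2]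
    · simp [step_stk, MS.nstk, hk, swN]
    · simp [step_pos, hk, hi]
  | coin v i =>
    intro s hm hc hv hi hs
    obtain ⟨hk, ha⟩ := k_eval hm (by norm_num) hc
    refine ⟨1, by norm_num, ?_, ?_, ?_, ?_⟩
    · simp [step_md, MS.nmd, hk, swN]
    · have h1 : s.ncur = s.hp := by simp [MS.ncur, hk, swN]
      simp only [Function.iterate_one, step_cur, h1]
      refine ⟨by rw [step_hp]; omega, by simp [step_tg0, MS.nt, hk, swN], ?_⟩
      simp [step_a0, MS.na, hk, swN, hi]
    · simp [step_stk, MS.nstk, hk, swN]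
    · simp [step_pos, hk, hi]
  | lam b v i =>
    intro s hm hc hv hi hs
    obtain ⟨hk, ha⟩ := k_eval hm (by norm_num) hc
    refine ⟨1, by norm_num, ?_, ?_, ?_, ?_⟩
    · simp [step_md, MS.nmd, hk, swN]
    · have h1 : s.ncur = s.hp := by simp [MS.ncur, hk, swN]
      simp only [Function.iterate_one, step_cur, h1]
      refine ⟨by rw [step_hp]; omega, by simp [step_tg0, MS.nt, hk, swN], ?_, ?_⟩
      · have : (MS.step W ω s).a s.hp = s.arg := by simp [step_a0, MS.na, hk, swN]
        rw [this]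
        exact ha.ext (ext_step s)
      · have : (MS.step W ω s).b s.hp = s.env := by simp [step_b0, MS.nb, hk, swN]
        rw [this]
        exact hv.ext (ext_step s)
    · simp [step_stk, MS.nstk, hk, swN]
    · simp [step_pos, hk, hi]
  | app b ρ a v' i t i' _ ih =>
    intro s hm hc hv hi hs
    obtain ⟨hk, -⟩ := k_eval hm (by norm_num) hc
    have e1 : (MS.step W ω s).cur = s.a (s.a s.env) := by simp [step_cur, MS.ncur, hk, swN]
    have e2 : (MS.step W ω s).env = s.env := by simp [step_env, MS.nenv, hk, swN]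
    have e3 : (MS.step W ω s).stk = s.stk := by simp [step_stk, MS.nstk, hk, swN]
    obtain ⟨n, hn, hd⟩ := ih (MS.step W ω s) (by simp [step_md, MS.nmd, hk, swN])
      (by rw [e1]; exact hv.2.2.1.2.2.1.ext (ext_step s)) (by rw [e2]; exact hv.ext (ext_step s))
      (by simp [step_pos, hk, hi]) (by rw [e3, step_hp]; omega)
    exact ⟨n + 1, by omega, hd.md, hd.val, hd.stk.trans e3, hd.pos⟩
  | iteT e₁ e₂ c r v' i t i' hc0 _ ih =>
    intro s hm hc hv hi hs
    obtain ⟨hk, ha⟩ := k_eval hm (by norm_num) hc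
    have h0 : s.tg (s.a s.env) + s.a (s.a s.env) ≠ 0 := by
      have h1 := hv.2.2.1
      cases c with
      | nat n =>
        have : n ≠ 0 := fun h => hc0 (by rw [h])
        rw [h1.2.2]
        omega
      | pair u w =>
        rw [h1.2.1]
        omega
    have e1 : (MS.step W ω s).cur = s.a s.arg := by
      simp only [step_cur, MS.ncur, hk, swN, if_neg h0]
      simp
    have e2 : (MS.step W ω s).env = s.b s.env := by simp [step_env, MS.nenv, hk, swN]
    have e3 : (MS.step W ω s).stk = s.stk := by simp [step_stk, MS.nstk, hk, swN]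
    obtain ⟨n, hn, hd⟩ := ih (MS.step W ω s) (by simp [step_md, MS.nmd, hk, swN])
      (by rw [e1]; exact ha.2.2.1.ext (ext_step s))
      (by rw [e2]; exact hv.2.2.2.ext (ext_step s))
      (by simp [step_pos, hk, hi]) (by rw [e3, step_hp]; omega)
    exact ⟨n + 1, by omega, hd.md, hd.val, hd.stk.trans e3, hd.pos⟩
  | iteF e₁ e₂ r v' i t i' _ ih =>
    intro s hm hc hv hi hs
    obtain ⟨hk, ha⟩ := k_eval hm (by norm_num) hc
    have h0 : s.tg (s.a s.env) + s.a (s.a s.env) = 0 := by
      have h1 := hv.2.2.1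
      rw [h1.2.2, h1.2.1]
    have e1 : (MS.step W ω s).cur = s.b s.arg := by
      simp only [step_cur, MS.ncur, hk, swN, if_pos h0]
      simp
    have e2 : (MS.step W ω s).env = s.b s.env := by simp [step_env, MS.nenv, hk, swN]
    have e3 : (MS.step W ω s).stk = s.stk := by simp [step_stk, MS.nstk, hk, swN]
    obtain ⟨n, hn, hd⟩ := ih (MS.step W ω s) (by simp [step_md, MS.nmd, hk, swN])
      (by rw [e1]; exact ha.2.2.2.ext (ext_step s))
      (by rw [e2]; exact hv.2.2.2.ext (ext_step s))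
      (by simp [step_pos, hk, hi]) (by rw [e3, step_hp]; omega)
    exact ⟨n + 1, by omega, hd.md, hd.val, hd.stk.trans e3, hd.pos⟩
  | pair e₁ e₂ v v₁ v₂ i t₁ i₁ t₂ i₂ _ _ ih₁ ih₂ =>
    intro s hm hc hv hi hs
    obtain ⟨hk, ha⟩ := k_eval hm (by norm_num) hc
    set s1 := MS.step W ω s with hs1
    have x1 : Ext s s1 := ext_step s
    have e1 : s1.cur = s.a s.arg := by simp [hs1, step_cur, MS.ncur, hk, swN]
    have e2 : s1.env = s.env := by simp [hs1, step_env, MS.nenv, hk, swN]
    have e3 : s1.stk = s.hp + 1 := by simp [hs1, step_stk, MS.nstk, hk, swN]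
    have e4 : s1.hp = s.hp + 2 := rfl
    obtain ⟨n₁, hn₁, hd₁⟩ := ih₁ s1 (by simp [hs1, step_md, MS.nmd, hk, swN])
      (by rw [e1]; exact ha.2.2.1.ext x1) (by rw [e2]; exact hv.ext x1)
      (by simp [hs1, step_pos, hk, hi]) (by omega)
    set s2 := (MS.step W ω)^[n₁] s1 with hs2
    have x2 : Ext s1 s2 := ext_iter s1 n₁
    have f1 : s2.stk = s.hp + 1 := hd₁.stk.trans e3
    have f2 : s2.tg s2.stk = 3 := by rw [f1, x2.tg _ (by omega)]; exact step_tg1 s
    have f3 : s2.a s2.stk = s.hp := by rw [f1, x2.a _ (by omega)]; exact step_a1 s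
    have f4 : s2.b s2.stk = s.stk := by rw [f1, x2.b _ (by omega)]; exact step_b1 s
    have f5 : s2.a s.hp = s.b s.arg := by
      rw [x2.a _ (by omega)]; simp [hs1, step_a0, MS.na, hk, swN]
    have f6 : s2.b s.hp = s.env := by
      rw [x2.b _ (by omega)]; simp [hs1, step_b0, MS.nb, hk, swN]
    have hk2 : s2.k = 14 := k_ret hd₁.md (by norm_num) f2
    set s3 := MS.step W ω s2 with hs3
    have x3 : Ext s2 s3 := ext_step s2
    have g1 : s3.cur = s.b s.arg := by simp [hs3, step_cur, MS.ncur, hk2, swN, f3, f5]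
    have g2 : s3.env = s.env := by simp [hs3, step_env, MS.nenv, hk2, swN, f3, f6]
    have g3 : s3.stk = s2.hp := by simp [hs3, step_stk, MS.nstk, hk2, swN]
    have g4 : s3.hp = s2.hp + 2 := rfl
    have x13 : Ext s s3 := x1.trans (x2.trans x3)
    obtain ⟨n₂, hn₂, hd₂⟩ := ih₂ s3 (by simp [hs3, step_md, MS.nmd, hk2, swN])
      (by rw [g1]; exact ha.2.2.2.ext x13) (by rw [g2]; exact hv.ext x13)
      (by simp [hs3, step_pos, hk2, hd₁.pos]) (by omega)
    set s4 := (MS.step W ω)^[n₂] s3 with hs4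
    have x4 : Ext s3 s4 := ext_iter s3 n₂
    have j1 : s4.stk = s2.hp := hd₂.stk.trans g3
    have j2 : s4.tg s4.stk = 4 := by
      rw [j1, x4.tg _ (by omega)]; simp [hs3, step_tg0, MS.nt, hk2, swN]
    have j3 : s4.a s4.stk = s2.cur := by
      rw [j1, x4.a _ (by omega)]; simp [hs3, step_a0, MS.na, hk2, swN]
    have j4 : s4.b s4.stk = s.stk := by
      rw [j1, x4.b _ (by omega)]; simp [hs3, step_b0, MS.nb, hk2, swN, f4]
    have hk4 : s4.k = 15 := k_ret hd₂.md (by norm_num) j2
    have x5 : Ext s4 (MS.step W ω s4) := ext_step s4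
    have hit : (MS.step W ω)^[1 + n₂ + 1 + n₁ + 1] s = MS.step W ω s4 := by
      simp only [Function.iterate_add_apply, Function.iterate_one, hs4, hs3, hs2, hs1]
    refine ⟨1 + n₂ + 1 + n₁ + 1, by omega, ?_⟩
    rw [hit]
    refine ⟨by simp [step_md, MS.nmd, hk4, swN], ?_, by simp [step_stk, MS.nstk, hk4, swN, j4],
      by simp [step_pos, hk4, hd₂.pos]⟩
    have h1 : s4.ncur = s4.hp := by simp [MS.ncur, hk4, swN]
    rw [step_cur, h1]
    refine ⟨by rw [step_hp]; omega, by simp [step_tg0, MS.nt, hk4, swN], ?_, ?_⟩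
    · have : (MS.step W ω s4).a s4.hp = s2.cur := by simp [step_a0, MS.na, hk4, swN, j3]
      rw [this]
      exact hd₁.val.ext (x3.trans (x4.trans x5))
    · have : (MS.step W ω s4).b s4.hp = s4.cur := by simp [step_b0, MS.nb, hk4, swN]
      rw [this]
      exact hd₂.val.ext x5
  | comp e₁ e₂ v v₁ v₂ i t₁ i₁ t₂ i₂ _ _ ih₁ ih₂ =>
    intro s hm hc hv hi hs
    obtain ⟨hk, ha⟩ := k_eval hm (by norm_num) hc
    set s1 := MS.step W ω s with hs1
    have x1 : Ext s s1 := ext_step s
    have e1 : s1.cur = s.a s.arg := by simp [hs1, step_cur, MS.ncur, hk, swN]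
    have e2 : s1.env = s.env := by simp [hs1, step_env, MS.nenv, hk, swN]
    have e3 : s1.stk = s.hp := by simp [hs1, step_stk, MS.nstk, hk, swN]
    have e4 : s1.hp = s.hp + 2 := rfl
    obtain ⟨n₁, hn₁, hd₁⟩ := ih₁ s1 (by simp [hs1, step_md, MS.nmd, hk, swN])
      (by rw [e1]; exact ha.2.2.1.ext x1) (by rw [e2]; exact hv.ext x1)
      (by simp [hs1, step_pos, hk, hi]) (by omega)
    set s2 := (MS.step W ω)^[n₁] s1 with hs2
    have x2 : Ext s1 s2 := ext_iter s1 n₁
    have f1 : s2.stk = s.hp := hd₁.stk.trans e3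
    have f2 : s2.tg s2.stk = 2 := by
      rw [f1, x2.tg _ (by omega)]; simp [hs1, step_tg0, MS.nt, hk, swN]
    have f3 : s2.a s2.stk = s.b s.arg := by
      rw [f1, x2.a _ (by omega)]; simp [hs1, step_a0, MS.na, hk, swN]
    have f4 : s2.b s2.stk = s.stk := by
      rw [f1, x2.b _ (by omega)]; simp [hs1, step_b0, MS.nb, hk, swN]
    have hk2 : s2.k = 13 := k_ret hd₁.md (by norm_num) f2
    set s3 := MS.step W ω s2 with hs3
    have x3 : Ext s2 s3 := ext_step s2
    have g1 : s3.cur = s.b s.arg := by simp [hs3, step_cur, MS.ncur, hk2, swN, f3]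
    have g2 : s3.env = s2.cur := by simp [hs3, step_env, MS.nenv, hk2, swN]
    have g3 : s3.stk = s.stk := by simp [hs3, step_stk, MS.nstk, hk2, swN, f4]
    have x13 : Ext s s3 := x1.trans (x2.trans x3)
    obtain ⟨n₂, hn₂, hd₂⟩ := ih₂ s3 (by simp [hs3, step_md, MS.nmd, hk2, swN])
      (by rw [g1]; exact ha.2.2.2.ext x13) (by rw [g2]; exact hd₁.val.ext x3)
      (by simp [hs3, step_pos, hk2, hd₁.pos]) (by have := x13.hp; omega)
    have hit : (MS.step W ω)^[n₂ + 1 + n₁ + 1] s = (MS.step W ω)^[n₂] s3 := by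
      simp only [Function.iterate_add_apply, Function.iterate_one, hs3, hs2, hs1]
    refine ⟨n₂ + 1 + n₁ + 1, by omega, ?_⟩
    rw [hit]
    exact ⟨hd₂.md, hd₂.val, hd₂.stk.trans g3, hd₂.pos⟩

/-- A machine that has returned to a halting frame (tag `0`) stays there. -/
theorem done_step {s s' : MS} {v : V} {i : ℕ} (h : Done s s' v i) (hx : Ext s s')
    (hs : s.stk < s.hp) (h0 : s.tg s.stk = 0) : Done s (MS.step W ω s') v i := by
  have hk : s'.k = 11 := k_ret (j := 0) h.md (by norm_num) (by rw [h.stk, hx.tg _ hs, h0])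
  refine ⟨by simp [step_md, MS.nmd, hk, swN], ?_, by simp [step_stk, MS.nstk, hk, swN, h.stk],
    by simp [step_pos, hk, h.pos]⟩
  have : s'.ncur = s'.cur := by simp [MS.ncur, hk, swN]
  rw [step_cur, this]
  exact h.val.ext (ext_step s')

/-- With enough fuel the machine has returned the value. -/
theorem simulate_fuel {e : Ex} {v v' : V} {i t i' : ℕ} (h : Ev W ω e v i t v' i') (s : MS)
    (hm : s.md = 0) (hc : Rv s e.quote s.cur) (hv : Rv s v s.env) (hi : s.pos = i)
    (hs : s.stk < s.hp) (h0 : s.tg s.stk = 0) {F : ℕ} (hF : 3 * t ≤ F) :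
    Done s ((MS.step W ω)^[F] s) v' i' := by
  obtain ⟨n, hn, hd⟩ := simulate h s hm hc hv hi hs
  obtain ⟨d, rfl⟩ : ∃ d, F = d + n := ⟨F - n, by omega⟩
  clear hF
  induction d with
  | zero => simpa using hd
  | succ d ih =>
    rw [show d + 1 + n = (d + n) + 1 by omega, Function.iterate_succ_apply']
    exact done_step ih (ext_iter s _) hs h0

end Vale.Agent.P305E
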