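import Vale.Agent.P305E.Arr

/-!
# Engine, part 8: priority queues (arrays of optional keys with fast minimum)
-/

namespace Vale.Agent.P305E

/-- Keys: pairs of numbers in lexicographic order. -/
abbrev Key : Type := ℕ × ℕ

/-- The lexicographic order. -/
def Key.le (p q : Key) : Prop := p.1 < q.1 ∨ (p.1 = q.1 ∧ p.2 ≤ q.2)

instance (p q : Key) : Decidable (Key.le p q) := by unfold Key.le; infer_instance

theorem Key.le_refl (p : Key) : Key.le p p := by simp [Key.le]
theorem Key.le_trans {p q r : Key} (h : Key.le p q) (h' : Key.le q r) : Key.le p r := by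
  unfold Key.le at *; omega
theorem Key.le_total (p q : Key) : Key.le p q ∨ Key.le q p := by unfold Key.le; omega
theorem Key.le_antisymm {p q : Key} (h : Key.le p q) (h' : Key.le q p) : p = q := by
  unfold Key.le at *; ext <;> omega
theorem Key.fst_le {p q : Key} (h : Key.le p q) : p.1 ≤ q.1 := by unfold Key.le at h; omega

/-- Arrays of optional keys. -/
@[ext] structure MinArr where
  get : ℕ → Option Key

/-- The empty queue. -/
def MinArr.empty : MinArr := ⟨fun _ => none⟩

/-- Change of one entry. -/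
def MinArr.set (a : MinArr) (i : ℕ) (x : Option Key) : MinArr := ⟨Function.update a.get i x⟩

@[simp] theorem MinArr.get_empty (i : ℕ) : MinArr.empty.get i = none := rfl
theorem MinArr.get_set (a : MinArr) (i : ℕ) (x : Option Key) (j : ℕ) :
    (a.set i x).get j = if j = i then x else a.get j := by
  simp [MinArr.set, Function.update_apply]
@[simp] theorem MinArr.get_set_self (a : MinArr) (i : ℕ) (x : Option Key) :
    (a.set i x).get i = x := by simp [MinArr.set]
@[simp] theorem MinArr.get_set_ne (a : MinArr) {i j : ℕ} (h : j ≠ i) (x : Option Key) :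
    (a.set i x).get j = a.get j := by simp [MinArr.set, h]

/-- `o` is the least value of `f`. -/
def IsMinOf (f : ℕ → Option Key) : Option Key → Prop
  | none => ∀ i, f i = none
  | some p => (∃ i, f i = some p) ∧ ∀ i q, f i = some q → Key.le p q

theorem IsMinOf.unique {f : ℕ → Option Key} {o o' : Option Key} (h : IsMinOf f o)
    (h' : IsMinOf f o') : o = o' := by
  rcases o with _ | p <;> rcases o' with _ | q
  · rfl
  · obtain ⟨⟨i, hi⟩, _⟩ := h'; rw [h i] at hi; cases hi
  · obtain ⟨⟨i, hi⟩, _⟩ := h; rw [h' i] at hi; cases hi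
  · obtain ⟨⟨i, hi⟩, h1⟩ := h
    obtain ⟨⟨j, hj⟩, h2⟩ := h'
    rw [Key.le_antisymm (h1 j q hj) (h2 i p hi)]

theorem exists_isMinOf (f : ℕ → Option Key) : ∃ o, IsMinOf f o := by
  classical
  by_cases h : ∃ a, ∃ b i, f i = some (a, b)
  · have h2 := Nat.find_spec h
    refine ⟨some (Nat.find h, Nat.find h2), Nat.find_spec h2, fun i q hq => ?_⟩
    have h3 : Nat.find h ≤ q.1 := Nat.find_min' h ⟨q.2, i, hq⟩
    rcases h3.lt_or_eq with h3 | h3
    · exact Or.inl h3
    · exact Or.inr ⟨h3, Nat.find_min' h2 ⟨i, by rw [h3]; exact hq⟩⟩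
  · refine ⟨none, fun i => ?_⟩
    rcases hi : f i with _ | q
    · rfl
    · exact absurd ⟨q.1, q.2, i, hi⟩ h

/-- The least key. -/
noncomputable def MinArr.min (a : MinArr) : Option Key := (exists_isMinOf a.get).choose

theorem MinArr.isMinOf (a : MinArr) : IsMinOf a.get a.min := (exists_isMinOf a.get).choose_spec

theorem MinArr.min_eq_none {a : MinArr} (h : a.min = none) (i : ℕ) : a.get i = none := by
  have := a.isMinOf
  rw [h] at this
  exact this i

theorem MinArr.min_eq_some {a : MinArr} {p : Key} (h : a.min = some p) :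
    (∃ i, a.get i = some p) ∧ ∀ i q, a.get i = some q → Key.le p q := by
  have := a.isMinOf
  rwa [h] at this

/-- The smaller of two optional keys. -/
def omin (o o' : Option Key) : Option Key :=
  o.elim o' fun p => o'.elim (some p) fun q => if Key.le p q then some p else some q

/-- Tries with the minima of the subtrees. -/
abbrev MT : Type := BT (Option Key × Option Key) Unit

/-- The entry and the minimum at the root. -/
def MT.lab : MT → Option Key × Option Key
  | .leaf _ => (none, none)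
  | .node x _ _ => x

/-- The entry number `i`. -/
def mget : MT → ℕ → Option Key
  | .leaf _, _ => none
  | .node x l r, i => if i = 0 then x.1 else if i % 2 = 1 then mget l ((i - 1) / 2)
      else mget r ((i - 1) / 2)

theorem mget_eq (t : MT) (i : ℕ) : mget t i = if i = 0 then t.lab.1 else
    if i % 2 = 1 then mget t.lft ((i - 1) / 2) else mget t.rgt ((i - 1) / 2) := by
  cases t <;> simp [mget, MT.lab, BT.lft, BT.rgt]

/-- A node with the right minimum. -/
def mnode (x : Option Key) (l r : MT) : MT := .node (x, omin x (omin l.lab.2 r.lab.2)) l r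

/-- All stored minima are right. -/
def MT.Good : MT → Prop
  | .leaf _ => True
  | .node x l r => IsMinOf (mget (.node x l r)) x.2 ∧ MT.Good l ∧ MT.Good r

theorem MT.Good.isMin {t : MT} (h : t.Good) : IsMinOf (mget t) t.lab.2 := by
  cases t with
  | leaf _ => exact fun _ => rfl
  | node x l r => exact h.1

theorem MT.Good.lft {t : MT} (h : t.Good) : MT.Good t.lft := by
  cases t with
  | leaf _ => exact h
  | node x l r => exact h.2.1

theorem MT.Good.rgt {t : MT} (h : t.Good) : MT.Good t.rgt := by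
  cases t with
  | leaf _ => exact h
  | node x l r => exact h.2.2

theorem isMinOf_omin {f g h : ℕ → Option Key} {o o' : Option Key} (hf : IsMinOf f o)
    (hg : IsMinOf g o') (hh : ∀ q, (∃ i, h i = some q) ↔ (∃ i, f i = some q) ∨ ∃ i, g i = some q) :
    IsMinOf h (omin o o') := by
  have hn : ∀ {f : ℕ → Option Key}, (∀ i, f i = none) → ∀ q, ¬ ∃ i, f i = some q :=
    fun hf q ⟨i, hi⟩ => by rw [hf i] at hi; cases hi
  rcases o with _ | p <;> rcases o' with _ | q
  · intro i
    rcases hi : h i with _ | q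
    · rfl
    · exact ((hh q).1 ⟨i, hi⟩).elim (fun x => (hn hf q x).elim) fun x => (hn hg q x).elim
  · refine ⟨(hh q).2 (Or.inr hg.1), fun i r hi => ?_⟩
    exact ((hh r).1 ⟨i, hi⟩).elim (fun x => (hn hf r x).elim) fun ⟨j, hj⟩ => hg.2 j r hj
  · refine ⟨(hh p).2 (Or.inl hf.1), fun i r hi => ?_⟩
    exact ((hh r).1 ⟨i, hi⟩).elim (fun ⟨j, hj⟩ => hf.2 j r hj) fun x => (hn hg r x).elim
  · simp only [omin, Option.elim]
    split_ifs with hpq
    · refine ⟨(hh p).2 (Or.inl hf.1), fun i r hi => ?_⟩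
      exact ((hh r).1 ⟨i, hi⟩).elim (fun ⟨j, hj⟩ => hf.2 j r hj)
        fun ⟨j, hj⟩ => Key.le_trans hpq (hg.2 j r hj)
    · refine ⟨(hh q).2 (Or.inr hg.1), fun i r hi => ?_⟩
      exact ((hh r).1 ⟨i, hi⟩).elim
        (fun ⟨j, hj⟩ => Key.le_trans ((Key.le_total p q).resolve_left hpq) (hf.2 j r hj))
        fun ⟨j, hj⟩ => hg.2 j r hj

theorem mnode_good (x : Option Key) {l r : MT} (hl : l.Good) (hr : r.Good) :
    (mnode x l r).Good := by
  refine ⟨?_, hl, hr⟩
  have h1 : IsMinOf (fun _ => x) x := by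
    rcases x with _ | p
    · exact fun _ => rfl
    · exact ⟨⟨0, rfl⟩, fun _ q h => by cases h; exact Key.le_refl _⟩
  have h2 := isMinOf_omin (h := fun i => if i % 2 = 0 then mget l (i / 2) else mget r (i / 2))
    hl.isMin hr.isMin fun q => ⟨fun ⟨i, hi⟩ => by
      split_ifs at hi
      · exact Or.inl ⟨_, hi⟩
      · exact Or.inr ⟨_, hi⟩, fun h => by
      rcases h with ⟨i, hi⟩ | ⟨i, hi⟩
      · exact ⟨2 * i, by simpa using hi⟩
      · exact ⟨2 * i + 1, by
          rw [if_neg (by omega), show (2 * i + 1) / 2 = i by omega]; exact hi⟩⟩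
  refine isMinOf_omin h1 h2 fun q => ⟨fun ⟨i, hi⟩ => ?_, fun h => ?_⟩
  · simp only [mget] at hi
    by_cases h0 : i = 0
    · exact Or.inl ⟨0, by simpa [h0] using hi⟩
    · refine Or.inr ⟨i - 1, ?_⟩
      rw [if_neg h0] at hi
      split_ifs at hi ⊢ <;> first | exact hi | omega
  · rcases h with ⟨i, hi⟩ | ⟨i, hi⟩
    · exact ⟨0, by simpa [mget] using hi⟩
    · refine ⟨i + 1, ?_⟩
      simp only [mget, Nat.add_one_ne_zero, if_false, Nat.add_sub_cancel]
      split_ifs at hi ⊢ <;> first | exact hi | omega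

/-- Change of the entry number `i`. -/
def mset (y : Option Key) (i : ℕ) (t : MT) : MT :=
  if h : i = 0 then mnode y t.lft t.rgt
  else if i % 2 = 1 then mnode t.lab.1 (mset y ((i - 1) / 2) t.lft) t.rgt
  else mnode t.lab.1 t.lft (mset y ((i - 1) / 2) t.rgt)
termination_by i
decreasing_by all_goals omega

theorem mget_mset (y : Option Key) (i : ℕ) (t : MT) (j : ℕ) :
    mget (mset y i t) j = if j = i then y else mget t j := by
  induction i using Nat.strong_induction_on generalizing t j with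
  | _ i ih =>
    rw [mset, mget_eq t j]
    by_cases h0 : i = 0
    · subst h0
      simp only [dite_true, mget, mnode]
      split_ifs <;> rfl
    · have hlt : (i - 1) / 2 < i := by omega
      simp only [h0, dite_false]
      by_cases h1 : i % 2 = 1
      · simp only [h1, if_true, mget, mnode, ih _ hlt]
        split_ifs <;> first | rfl | omega
      · simp only [h1, if_false, mget, mnode, ih _ hlt]
        split_ifs <;> first | rfl | omega

theorem mset_good (y : Option Key) (i : ℕ) {t : MT} (ht : t.Good) : (mset y i t).Good := by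
  induction i using Nat.strong_induction_on generalizing t with
  | _ i ih =>
    rw [mset]
    split_ifs with h0 h1
    · exact mnode_good _ ht.lft ht.rgt
    · exact mnode_good _ (ih _ (by omega) ht.lft) ht.rgt
    · exact mnode_good _ ht.lft (ih _ (by omega) ht.rgt)

/-- Rebuilding a trie along a path. -/
def mplug (t : MT) (f : Bool × Option Key × MT) : MT :=
  if f.1 = true then mnode f.2.1 t f.2.2 else mnode f.2.1 f.2.2 t

variable {α : Type} [Rep α]

@[fun_prop] theorem PPred.keyLe {p q : α → Key} (hp : Grow p) (hq : Grow q) :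
    PPred fun a => Key.le (p a) (q a) := by
  unfold Key.le
  fun_prop

@[fun_prop] theorem Pure.omin {o o' : α → Option Key} (ho : Pure o) (ho' : Pure o') :
    Pure fun a => omin (o a) (o' a) := by
  unfold P305E.omin
  fun_prop

@[fun_prop] theorem Pure.lab {t : α → MT} (ht : Pure t) : Pure fun a => (t a).lab :=
  (show Pure fun a => P305E.caseT (t a) (fun _ => (none, none)) fun x _ _ => x by fun_prop).of_eq
    fun a => by cases t a <;> rfl

@[fun_prop] theorem Pure.mnode {x : α → Option Key} {l r : α → MT} (hx : Pure x) (hl : Pure l)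
    (hr : Pure r) : Pure fun a => mnode (x a) (l a) (r a) := by
  unfold P305E.mnode
  fun_prop

@[fun_prop] theorem Pure.mplug {t : α → MT} {f : α → Bool × Option Key × MT} (ht : Pure t)
    (hf : Pure f) : Pure fun a => mplug (t a) (f a) := by
  unfold P305E.mplug
  fun_prop

theorem pure_mget : Pure fun p : MT × ℕ => mget p.1 p.2 := by
  have h : Impl fun p : MT × ℕ => loopM (fun q : MT × ℕ =>
      if q.2 = 0 then pure (.inr q.1.lab.1) else
      pure (.inl (if q.2 % 2 = 1 then q.1.lft else q.1.rgt, (q.2 - 1) / 2))) (p.2 + 1) p := by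
    fun_prop
  refine Pure.of_impl h 1 fun B p hB _ ⟨v, _, _, _, _, hv⟩ => ?_
  have h1 : Nat.size p.2 ≤ Nat.size B := Nat.size_le_size hv.2
  refine Tri.loopM (fun q t => mget q.1 q.2 = mget p.1 p.2 ∧ t + Nat.size q.2 ≤ Nat.size p.2)
    (fun q => q.2) ?_ (by simp) (by simp)
  rintro ⟨s, i⟩ t ⟨hI, ht⟩
  simp only [Tri_ite, Tri_pure, Sum.elim_inl, Sum.elim_inr] at hI ht ⊢
  rw [mget_eq] at hI
  refine ⟨fun h0 => ?_, fun h0 => ?_⟩
  · exact ⟨by simpa [h0] using hI, by simp only [lg, pow_one]; omega⟩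
  · have := size_half h0
    refine ⟨⟨?_, by omega⟩, by omega⟩
    rw [← hI, if_neg h0]
    split_ifs <;> rfl

theorem pure_mset : Pure fun p : MT × ℕ × Option Key => mset p.2.2 p.2.1 p.1 := by
  have h : Impl fun p : MT × ℕ × Option Key =>
      loopM (fun q : MT × ℕ × List (Bool × Option Key × MT) =>
      if q.2.1 = 0 then pure (.inr (mnode p.2.2 q.1.lft q.1.rgt, q.2.2)) else
      if q.2.1 % 2 = 1 then
        pure (.inl (q.1.lft, (q.2.1 - 1) / 2, (true, q.1.lab.1, q.1.rgt) :: q.2.2))
      else pure (.inl (q.1.rgt, (q.2.1 - 1) / 2, (false, q.1.lab.1, q.1.lft) :: q.2.2)))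
      (p.2.1 + 1) (p.1, p.2.1, []) >>= fun r => foldP mplug r.1 r.2 := by
    fun_prop
  refine Pure.of_impl h 2 fun B p hB _ ⟨v, _, _, _, _, _, _, _, hv, _⟩ => ?_
  have h1 : Nat.size p.2.1 ≤ Nat.size B := Nat.size_le_size hv.2
  refine Tri.bind (P := fun r t => r.2.foldl mplug r.1 = mset p.2.2 p.2.1 p.1 ∧
    t ≤ Nat.size p.2.1 ∧ r.2.length = t) ?_ ?_
  · refine Tri.loopM (fun q t => q.2.2.foldl mplug (mset p.2.2 q.2.1 q.1) = mset p.2.2 p.2.1 p.1 ∧
      t + Nat.size q.2.1 ≤ Nat.size p.2.1 ∧ q.2.2.length = t) (fun q => q.2.1) ?_ (by simp)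
      (by simp)
    rintro ⟨s, i, st⟩ t ⟨hI, ht, hl⟩
    simp only [Tri_ite, Tri_pure, Sum.elim_inl, Sum.elim_inr] at hI ht hl ⊢
    rw [mset] at hI
    refine ⟨fun h0 => ?_, fun h0 => ?_⟩
    · exact ⟨by simpa [h0] using hI, by omega, by omega⟩
    · have := size_half h0
      refine ⟨fun h1 => ⟨⟨?_, by omega, by simp [hl]⟩, by omega⟩,
        fun h1 => ⟨⟨?_, by omega, by simp [hl]⟩, by omega⟩⟩
      · simpa [h0, h1, mplug] using hI
      · simpa [h0, h1, mplug] using hI
  · rintro r t ⟨h2, h3, h4⟩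
    simp only [Tri_foldP]
    exact ⟨h2, by simp only [lg]; nlinarith⟩

instance : Rep MinArr :=
  ⟨fun B v a => ∃ t : MT, R B v t ∧ t.Good ∧ mget t = a.get,
    fun h ⟨t, h1, h2⟩ => ⟨t, Rep.mono h h1, h2⟩⟩

instance : Lit MinArr.empty := ⟨0, _, .leaf (), ⟨.nat 0, rfl, trivial⟩, trivial, rfl⟩

@[fun_prop] theorem Pure.minGet {f : α → MinArr} {i : α → ℕ} (hf : Pure f) (hi : Pure i) :
    Pure fun a => (f a).get (i a) := by
  refine Comp.comp (Comp.pair hf hi) pure_mget 0 ?_
  rintro B a v _ ⟨x, y, rfl, ⟨t, h1, h2, h3⟩, hy⟩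
  rw [zero_add, pow_one]
  exact ⟨(t, i a), ⟨x, y, rfl, h1, hy⟩, fun w hw => by simpa [h3] using hw⟩

@[fun_prop] theorem Pure.minSet {f : α → MinArr} {i : α → ℕ} {x : α → Option Key} (hf : Pure f)
    (hi : Pure i) (hx : Pure x) : Pure fun a => (f a).set (i a) (x a) := by
  refine Comp.comp (Comp.pair hf (Comp.pair hi hx)) pure_mset 0 ?_
  rintro B a v _ ⟨u, _, rfl, ⟨t, h1, h2, h3⟩, y, z, rfl, hy, hz⟩
  rw [zero_add, pow_one]
  refine ⟨(t, i a, x a), ⟨u, _, rfl, h1, y, z, rfl, hy, hz⟩,
    fun w hw => ⟨_, hw, mset_good _ _ h2, funext fun j => ?_⟩⟩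
  simp only [mget_mset, MinArr.get_set, h3]

@[fun_prop] theorem Pure.minMin {f : α → MinArr} (hf : Pure f) : Pure fun a => (f a).min := by
  refine Comp.comp hf (show Pure fun t : MT => t.lab.2 by fun_prop) 0 ?_
  rintro B a v _ ⟨t, h1, h2, h3⟩
  rw [zero_add, pow_one]
  refine ⟨t, h1, fun w hw => ?_⟩
  have := h2.isMin
  rw [h3] at this
  show R B w (f a).min
  rw [← this.unique (f a).isMinOf]
  exact hw

end Vale.Agent.P305E
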