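import Vale.Agent.P305E.RamStep
import Vale.Agent.P305.MM.CompileIO

/-!
# Engine: a program of the language `C` that runs code `Ex` on the input

Registers `20`, `21`, `22`, `23`: length of the input, list pointer, size `N`, fuel.
-/

namespace Vale.Agent.P305E

open Vale.Agent.P305 Vale.Agent.P305.MM
open Function (update update_of_ne)

variable {env : Env} {s : St} {cap : ℕ}

/-- The triple with bounded states. -/
theorem tri_bdd {c : C} {t : ℕ} {Q : St → Prop} (h : MM.Tri env cap c s t Q) (h1 : 1 ≤ cap)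
    (hB : s.Bdd cap) : MM.Tri env cap c s t fun s' => s'.Bdd cap ∧ Q s' :=
  ⟨h.1, h.2.1, Safe.bdd h1 h.1 hB, h.2.2⟩

/-- What the allocating commands keep. -/
structure Fr (s s' : St) : Prop where
  ext : Ext (view s) (view s')
  reg : ∀ d, d ≠ 4 → d ≠ 14 → d ≠ 15 → s'.r d = s.r d
  pos : s'.pos = s.pos
  out : s'.a 0 = s.a 0

theorem Fr.trans {s s' s'' : St} (h : Fr s s') (h' : Fr s' s'') : Fr s s'' :=
  ⟨h.ext.trans h'.ext, fun d a b c => (h'.reg d a b c).trans (h.reg d a b c),
    h'.pos.trans h.pos, h'.out.trans h.out⟩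

/-- A new cell. -/
def alloc (t : ℕ) (x y : E) : C :=
  .seq (.asg 14 x) <| .seq (.asg 15 y) <| .seq (.sto 1 (.reg 4) (.const t)) <|
  .seq (.sto 2 (.reg 4) (.reg 14)) <| .seq (.sto 3 (.reg 4) (.reg 15)) <|
  .asg 4 (.add (.reg 4) (.const 1))

theorem alloc_tri {t : ℕ} {x y : E} (ht : t ≤ cap) (hx : x.eval env s ≤ cap)
    (hy : y.eval env (s.set 14 (x.eval env s)) ≤ cap) (h4 : s.r 4 + 1 ≤ cap) :
    MM.Tri env cap (alloc t x y) s 6 fun s' => Fr s s' ∧ s'.r 4 = s.r 4 + 1 ∧
      s'.a 1 (s.r 4) = t ∧ s'.a 2 (s.r 4) = x.eval env s ∧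
      s'.a 3 (s.r 4) = y.eval env (s.set 14 (x.eval env s)) := by
  refine ⟨?_, le_rfl, ?_⟩
  · simp only [alloc, Safe, run]
    refine ⟨hx, hy, ht, ?_, ?_, ?_⟩
    · simpa [E.eval, update] using hx
    · simpa [E.eval, update] using hy
    · simpa [E.eval, update] using h4
  · simp only [alloc, run]
    generalize y.eval env (s.set 14 (x.eval env s)) = b
    generalize x.eval env s = a
    refine ⟨⟨⟨?_, fun p hp => ?_, fun p hp => ?_, fun p hp => ?_⟩, fun d h1 h2 h3 => ?_, rfl, ?_⟩,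
      ?_, ?_, ?_, ?_⟩
    · simp [view, E.eval, update]
    · have : p ≠ s.r 4 := ne_of_lt hp
      simp [view, E.eval, update, this]
    · have : p ≠ s.r 4 := ne_of_lt hp
      simp [view, E.eval, update, this]
    · have : p ≠ s.r 4 := ne_of_lt hp
      simp [view, E.eval, update, this]
    · simp [update, h1, h2, h3]
    all_goals simp [E.eval, update]

/-- Number of cells of a value. -/
def V.size : V → ℕ
  | .nat _ => 1
  | .pair u v => u.size + v.size + 1

/-- A bound for the numbers of a value. -/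
def V.mx : V → ℕ
  | .nat n => n
  | .pair u v => u.mx + v.mx

theorem V.size_pos (v : V) : 0 < v.size := by cases v <;> simp [V.size]

/-- A constant value is written to the heap. -/
def ldV : V → C
  | .nat n => alloc 0 (.const n) (.const 0)
  | .pair u v => .seq (ldV u) <| .seq (ldV v) <|
      alloc 1 (.sub (.reg 4) (.const (v.size + 1))) (.sub (.reg 4) (.const 1))

theorem ldV_tri (v : V) : ∀ s : St, v.mx ≤ cap → s.r 4 + v.size ≤ cap →
    MM.Tri env cap (ldV v) s (6 * v.size) fun s' => Fr s s' ∧ s'.r 4 = s.r 4 + v.size ∧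
      Rv (view s') v (s'.r 4 - 1) := by
  induction v with
  | nat n =>
    intro s h1 h2
    refine (alloc_tri (Nat.zero_le _) h1 (Nat.zero_le _) h2).mono le_rfl ?_
    rintro s' ⟨a1, a2, a3, a4, -⟩
    refine ⟨a1, a2, ?_⟩
    rw [a2, Nat.add_sub_cancel]
    exact ⟨by show _ < s'.r 4; omega, a3, a4⟩
  | pair u v ihu ihv =>
    intro s h1 h2
    simp only [V.mx, V.size] at h1 h2 ⊢
    have hu := u.size_pos
    have hv := v.size_pos
    refine (MM.Tri.seq (ihu s (by omega) (by omega)) fun s1 ⟨a1, a2, a3⟩ =>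
      MM.Tri.seq (ihv s1 (by omega) (by omega)) fun s2 ⟨b1, b2, b3⟩ =>
        (alloc_tri (by omega) ?_ ?_ (by omega)).mono le_rfl ?_).mono (by omega) fun _ h => h
    · simp only [E.eval]; omega
    · simp only [E.eval, St.set_r]; rw [update_of_ne (by omega)]; omega
    · rintro s3 ⟨c1, c2, c3, c4, c5⟩
      refine ⟨a1.trans (b1.trans c1), by omega, ?_⟩
      rw [c2, Nat.add_sub_cancel]
      refine ⟨by show _ < s3.r 4; omega, c3, ?_, ?_⟩
      · have : (view s3).a (s2.r 4) = s1.r 4 - 1 := by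
          show s3.a 2 _ = _
          rw [c4]; simp only [E.eval]; omega
        rw [this]
        exact a3.ext (b1.ext.trans c1.ext)
      · have : (view s3).b (s2.r 4) = s2.r 4 - 1 := by
          show s3.a 3 _ = _
          rw [c5]; simp only [E.eval, St.set_r]; rw [update_of_ne (by omega)]
        rw [this]
        exact b3.ext c1.ext

/-- The code `e` is run on the value in register `2`, with the fuel in register `9`. -/
def callC (e : Ex) : C :=
  .seq (ldV e.quote) <| .seq (.asg 1 (.sub (.reg 4) (.const 1))) <| .seq (.asg 0 (.const 0)) <|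
  .seq (.asg 3 (.const 0)) loopC

/-- Changing registers other than the heap pointer keeps the heap. -/
theorem ext_set (s : St) {d : ℕ} (hd : d ≠ 4) (v : ℕ) : Ext (view s) (view (s.set d v)) :=
  ⟨by show s.r 4 ≤ update s.r d v 4; rw [update_of_ne hd.symm],
    fun _ _ => rfl, fun _ _ => rfl, fun _ _ => rfl⟩

theorem callC_tri (e : Ex) (hB : s.Bdd cap) (h16 : 16 ≤ cap) (hm : e.quote.mx ≤ cap)
    (h4 : s.r 4 + e.quote.size + 2 * s.r 9 ≤ cap) (h0 : Rv (view s) (.nat 0) 0) :
    MM.Tri env cap (callC e) s (6 * e.quote.size + 4 + s.r 9 * 23) fun s' =>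
      Ext (view s) (view s') ∧ s'.r 4 = s.r 4 + e.quote.size + 2 * s.r 9 ∧
      (∀ d, d = 5 ∨ 17 ≤ d → s'.r d = s.r d) ∧ s'.a 0 = s.a 0 ∧
      ∀ v t v' i', Rv (view s) v (s.r 2) → Ev (s.r 5) env.ω e v s.pos t v' i' → 3 * t ≤ s.r 9 →
        Rv (view s') v' (s'.r 1) ∧ s'.pos = i' := by
  refine (MM.Tri.seq (t' := 3 + (1 + s.r 9 * 23))
    (tri_bdd (ldV_tri e.quote s hm (by omega)) (by omega) hB)
    fun s1 ⟨b1, a1, a2, a3⟩ => ?_).mono (by omega) fun _ h => h
  obtain ⟨s2, hs2⟩ : ∃ s2, s2 = ((s1.set 1 (s1.r 4 - 1)).set 0 0).set 3 0 := ⟨_, rfl⟩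
  have b2 : s2.Bdd cap := hs2 ▸ ((b1.set 1 (by omega)).set 0 (by omega)).set 3 (by omega)
  have x2 : Ext (view s1) (view s2) :=
    hs2 ▸ (ext_set _ (by omega) _).trans ((ext_set _ (by omega) _).trans (ext_set _ (by omega) _))
  have r2 : ∀ d, d ≠ 0 → d ≠ 1 → d ≠ 3 → s2.r d = s1.r d := fun d h0 h1 h3 => by
    simp [hs2, update, h0, h1, h3]
  have r9 : s2.r 9 = s.r 9 := by
    rw [r2 _ (by omega) (by omega) (by omega), a1.reg _ (by omega) (by omega) (by omega)]
  have r5 : s2.r 5 = s.r 5 := by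
    rw [r2 _ (by omega) (by omega) (by omega), a1.reg _ (by omega) (by omega) (by omega)]
  have r4 : s2.r 4 = s.r 4 + e.quote.size := by rw [r2 _ (by omega) (by omega) (by omega), a2]
  have p := loopC_tri (env := env) b2 (by omega) h16
  refine ⟨?_, ?_, ?_⟩
  · simp only [Safe, run, E.eval, ← hs2]
    exact ⟨by omega, by omega, by omega, p.1⟩
  · simp only [cost, run, E.eval, ← hs2]
    have := p.2.1
    rw [r9] at this
    omega
  · simp only [run, E.eval, ← hs2]
    have q := p.2.2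
    beta_reduce at q
    have x3 : Ext (view s2) (view (run env loopC s2)) := q ▸ ext_iter _ _
    refine ⟨a1.ext.trans (x2.trans x3), ?_, fun d hd => ?_, ?_, fun v t v' i' hv he ht => ?_⟩
    · have := congrArg MS.hp q
      rw [step_iter_hp, r9] at this
      exact this.trans (by show s2.r 4 + _ = _; rw [r4])
    · rw [run_frame_r _ (loopC_wr (by omega)), r2 _ (by omega) (by omega) (by omega),
        a1.reg _ (by omega) (by omega) (by omega)]
    · rw [run_frame_a _ loopC_wa, ← a1.out, hs2]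
      rfl
    · have z := h0.ext (a1.ext.trans x2)
      have e3 : (view s2).stk = 0 := by simp [view, hs2]
      have hd := simulate_fuel (r5 ▸ he) (view s2) (by simp [view, hs2, update])
        (by
          have : (view s2).cur = s1.r 4 - 1 := by simp [view, hs2, update]
          rw [this]
          exact a3.ext x2)
        (by
          have : (view s2).env = s.r 2 := by
            show s2.r 2 = _
            rw [r2 _ (by omega) (by omega) (by omega), a1.reg _ (by omega) (by omega) (by omega)]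
          rw [this]
          exact hv.ext (a1.ext.trans x2))
        (by show s2.pos = _; rw [← a1.pos, hs2]; rfl) (e3 ▸ z.1) (e3 ▸ z.2.1) (r9 ▸ ht)
      rw [← q] at hd
      exact ⟨hd.val, hd.pos⟩

/-- The input list is written to the heap; register `21` points to it. -/
def inputC : C :=
  .seq (.asg 21 (.const 0)) <| .for_ 8 (.reg 20) <|
    .seq (alloc 0 (.raw (.sub (.sub (.reg 20) (.const 1)) (.reg 8))) (.const 0)) <|
    .seq (alloc 1 (.sub (.reg 4) (.const 1)) (.reg 21)) (.asg 21 (.sub (.reg 4) (.const 1)))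

theorem inputC_tri (hB : s.Bdd cap) (h1 : 1 ≤ cap) (hi : ∀ i, env.inp.getD i 0 ≤ cap)
    (h20 : s.r 20 = env.inp.length) (h4 : s.r 4 + 2 * s.r 20 ≤ cap)
    (h0 : Rv (view s) (.nat 0) 0) :
    MM.Tri env cap inputC s (2 + s.r 20 * 14) fun s' =>
      Ext (view s) (view s') ∧ s'.r 4 = s.r 4 + 2 * s.r 20 ∧
      (∀ d, d = 5 ∨ 22 ≤ d → s'.r d = s.r d) ∧ s'.a 0 = s.a 0 ∧ s'.pos = s.pos ∧
      Rv (view s') (V.ofList env.inp) (s'.r 21) := by
  refine (MM.Tri.seq (Q := fun s' => s' = s.set 21 0) (MM.Tri.asg (Nat.zero_le _) rfl) ?_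
    (t' := 1 + s.r 20 * 14)).mono (by omega) fun _ h => h
  rintro _ rfl
  have e20 : (E.reg 20).eval env (s.set 21 0) = s.r 20 := by simp [E.eval, update]
  have h := MM.Tri.for_ (env := env) (cap := cap) (i := 8) (e := .reg 20) (s := s.set 21 0)
    (p := .seq (alloc 0 (.raw (.sub (.sub (.reg 20) (.const 1)) (.reg 8))) (.const 0)) <|
    .seq (alloc 1 (.sub (.reg 4) (.const 1)) (.reg 21)) (.asg 21 (.sub (.reg 4) (.const 1))))
    (T := 13) (fun k s' => s'.Bdd cap ∧ Ext (view s) (view s') ∧ s'.r 4 = s.r 4 + 2 * k ∧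
      (∀ d, d = 5 ∨ d = 20 ∨ 22 ≤ d → s'.r d = s.r d) ∧ s'.a 0 = s.a 0 ∧ s'.pos = s.pos ∧
      Rv (view s') (V.ofList (env.inp.drop (s.r 20 - k))) (s'.r 21))
    (Q := fun s' => Ext (view s) (view s') ∧ s'.r 4 = s.r 4 + 2 * s.r 20 ∧
      (∀ d, d = 5 ∨ 22 ≤ d → s'.r d = s.r d) ∧ s'.a 0 = s.a 0 ∧ s'.pos = s.pos ∧
      Rv (view s') (V.ofList env.inp) (s'.r 21)) (e20 ▸ hB.reg 20) ?_ ?_ ?_
  · rw [e20] at h
    exact h
  · refine ⟨hB.set 21 (Nat.zero_le _), ext_set _ (by omega) _, by simp [update],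
      fun d hd => by rw [St.set_r, update_of_ne (by omega)], rfl, rfl, ?_⟩
    rw [h20, Nat.sub_zero, List.drop_length]
    simpa [V.ofList] using h0.ext (ext_set s (d := 21) (by omega) 0)
  · rw [e20]
    intro k hk s1 ⟨a1, a2, a3, a4, a5, a6, a7⟩
    obtain ⟨s2, hs2⟩ : ∃ s2, s2 = s1.set 8 k := ⟨_, rfl⟩
    rw [← hs2]
    have b2 : s2.Bdd cap := hs2 ▸ a1.set 8 (hk.le.trans (hB.reg 20))
    have r2 : ∀ d, d ≠ 8 → s2.r d = s1.r d := fun d hd => by rw [hs2, St.set_r, update_of_ne hd]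
    have r8 : s2.r 8 = k := by simp [hs2]
    have x2 : Ext (view s1) (view s2) := hs2 ▸ ext_set _ (by omega) _
    have r4 : s2.r 4 = s.r 4 + 2 * k := by rw [r2 _ (by omega), a3]
    refine (MM.Tri.seq (tri_bdd (alloc_tri (Nat.zero_le _) (hi _) (Nat.zero_le _) (by omega)) h1 b2)
      fun s3 ⟨b3, c1, c2, c3, c4, _⟩ => MM.Tri.seq (tri_bdd (alloc_tri h1 ?_ ?_ (by omega)) h1 b3)
        fun s4 ⟨b4, d1, d2, d3, d4, d5⟩ => MM.Tri.asg ?_ ?_).mono (by omega) fun _ h => h
    · simp only [E.eval]; omega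
    · exact (b3.set 14 (by simp only [E.eval]; omega)).reg 21
    · simp only [E.eval]; omega
    · have x4 : Ext (view s4) (view (s4.set 21 (s4.r 4 - 1))) := ext_set _ (by omega) _
      simp only [E.eval] at c4 d4 d5 ⊢
      refine ⟨b4.set 21 (by omega), a2.trans (x2.trans (c1.ext.trans (d1.ext.trans x4))), ?_,
        fun d hd => ?_, ?_, ?_, ?_⟩
      · rw [St.set_r, update_of_ne (by omega)]; omega
      · rw [St.set_r, update_of_ne (by omega), d1.reg _ (by omega) (by omega) (by omega),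
          c1.reg _ (by omega) (by omega) (by omega), r2 _ (by omega), a4 d hd]
      · rw [St.set_a, d1.out, c1.out, ← a5, hs2]; rfl
      · rw [St.set_pos, d1.pos, c1.pos, ← a6, hs2]; rfl
      · have l1 : s.r 20 - (k + 1) < env.inp.length := by omega
        rw [List.drop_eq_getElem_cons l1, show s.r 20 - (k + 1) + 1 = s.r 20 - k by omega,
          St.set_r, Function.update_self]
        refine Rv.ext x4 ?_
        rw [d2, Nat.add_sub_cancel]
        refine ⟨by show _ < s4.r 4; omega, d3, ?_, ?_⟩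
        · have : (view s4).a (s3.r 4) = s2.r 4 := by show s4.a 2 _ = _; rw [d4]; omega
          rw [this]
          refine Rv.ext d1.ext ⟨by show _ < s3.r 4; omega, c3, ?_⟩
          show s3.a 2 _ = _
          rw [c4, r8, r2 _ (by omega), a4 _ (by omega),
            show s.r 20 - 1 - k = s.r 20 - (k + 1) by omega, List.getD_eq_getElem _ _ l1]
        · have : (view s4).b (s3.r 4) = s1.r 21 := by
            show s4.a 3 _ = _
            rw [d5, St.set_r, update_of_ne (by omega), c1.reg _ (by omega) (by omega) (by omega),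
              r2 _ (by omega)]
          rw [this]
          exact a7.ext (x2.trans (c1.ext.trans d1.ext))
  · rw [e20]
    intro s' ⟨_, a2, a3, a4, a5, a6, a7⟩
    rw [Nat.sub_self, List.drop_zero] at a7
    exact ⟨a2, a3, fun d hd => a4 d (by omega), a5, a6, a7⟩

/-- The list in register `1` is written to array `0`. -/
def outputC : C :=
  .for_ 8 (.raw (.const 0)) <| .ite (.const 0) (.ld 1 (.reg 1))
    (.seq (.sto 0 (.reg 8) (.ld 2 (.ld 2 (.reg 1)))) (.asg 1 (.ld 3 (.reg 1)))) .skip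

theorem outputC_tri (hB : s.Bdd cap) (hi : env.inp.getD 0 0 ≤ cap)
    (h0 : ∀ x, s.a 0 x = 0) :
    MM.Tri env cap outputC s (1 + env.inp.getD 0 0 * 4) fun s' =>
      ∀ out, Rv (view s) (V.ofList out) (s.r 1) →
        ∀ x < env.inp.getD 0 0, s'.a 0 x = out.getD x 0 := by
  refine MM.Tri.for_ (T := 3) (fun k s' => s'.Bdd cap ∧ Ext (view s) (view s') ∧
    (∀ x, k ≤ x → s'.a 0 x = 0) ∧ ∀ out, Rv (view s) (V.ofList out) (s.r 1) →
      Rv (view s') (V.ofList (out.drop k)) (s'.r 1) ∧ ∀ x < k, s'.a 0 x = out.getD x 0) hi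
    ⟨hB, Ext.refl _, fun x _ => h0 x, fun out h => ⟨h, by simp⟩⟩ ?_
    fun s' h out ho => (h.2.2.2 out ho).2
  intro k hk s1 ⟨a1, a2, a3, a4⟩
  obtain ⟨s2, hs2⟩ : ∃ s2, s2 = s1.set 8 k := ⟨_, rfl⟩
  rw [← hs2]
  have b2 : s2.Bdd cap := hs2 ▸ a1.set 8 (hk.le.trans hi)
  have v2 : view s2 = view s1 := hs2 ▸ view_set _ (by omega) _
  have r1 : s2.r 1 = s1.r 1 := congrArg MS.cur v2
  have r8 : s2.r 8 = k := by simp [hs2]
  have o2 : s2.a 0 = s1.a 0 := by rw [hs2]; rfl
  refine MM.Tri.ite (t := 2) (fun h => ?_) fun h => (MM.Tri.skip ?_).mono (by omega) fun _ h => h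
  · refine MM.Tri.seq (Q := fun s' => s' = s2.put 0 k (s2.a 2 (s2.a 2 (s2.r 1))))
      (MM.Tri.sto (b2.arr _ _) (by simp only [E.eval, r8])) ?_ (t := 1) (t' := 1)
    rintro _ rfl
    have b3 := b2.put 0 k (b2.arr 2 (s2.a 2 (s2.r 1)))
    have v3 : view (s2.put 0 k (s2.a 2 (s2.a 2 (s2.r 1)))) = view s1 := by
      rw [← v2]; simp [view, update]
    have e3 : (E.ld 3 (.reg 1)).eval env (s2.put 0 k (s2.a 2 (s2.a 2 (s2.r 1)))) =
        s1.a 3 (s1.r 1) := by
      have : s2.a 3 = s1.a 3 := congrArg MS.b v2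
      simp [E.eval, update, this, r1]
    refine MM.Tri.asg (b3.arr _ _) ?_
    rw [e3]
    have x4 := ext_set (s2.put 0 k (s2.a 2 (s2.a 2 (s2.r 1)))) (d := 1) (by omega) (s1.a 3 (s1.r 1))
    rw [v3] at x4
    refine ⟨b3.set 1 (a1.arr _ _), a2.trans x4, fun x hx => ?_, fun out ho => ?_⟩
    · simp only [St.set_a, St.put_a, Function.update_self]
      rw [update_of_ne (by omega), o2, a3 x (by omega)]
    · obtain ⟨g1, g2⟩ := a4 out ho
      have t1 : 0 < s1.a 1 (s1.r 1) := by
        have : s2.a 1 = s1.a 1 := congrArg MS.tg v2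
        simpa only [E.eval, this, r1] using h
      have l1 : k < out.length := by
        by_contra hl
        rw [List.drop_eq_nil_of_le (by omega)] at g1
        have : s1.a 1 (s1.r 1) = 0 := g1.2.1
        omega
      rw [List.drop_eq_getElem_cons l1] at g1
      refine ⟨?_, fun x hx => ?_⟩
      · rw [St.set_r, Function.update_self]
        exact g1.2.2.2.ext x4
      · simp only [St.set_a, St.put_a, Function.update_self]
        by_cases hxk : x = k
        · have : s2.a 2 = s1.a 2 := congrArg MS.a v2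
          rw [hxk, Function.update_self, this, r1, List.getD_eq_getElem _ _ l1]
          exact g1.2.2.1.2.2
        · rw [update_of_ne hxk, o2, g2 x (by omega)]
  · refine ⟨b2, v2 ▸ a2, fun x hx => by rw [o2, a3 x (by omega)], fun out ho => ?_⟩
    obtain ⟨g1, g2⟩ := a4 out ho
    have t1 : s1.a 1 (s1.r 1) = 0 := by
      have : s2.a 1 = s1.a 1 := congrArg MS.tg v2
      simpa only [E.eval, this, r1, not_lt, Nat.le_zero] using h
    have l1 : out.length ≤ k := by
      by_contra hl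
      rw [List.drop_eq_getElem_cons (by omega)] at g1
      have : s1.a 1 (s1.r 1) = 1 := g1.2.1
      omega
    rw [List.drop_eq_nil_of_le l1] at g1
    rw [List.drop_eq_nil_of_le (by omega), v2, r1, o2]
    refine ⟨g1, fun x hx => ?_⟩
    by_cases hxk : x = k
    · rw [hxk, a3 k le_rfl, List.getD_eq_default _ _ l1]
    · exact g2 x (by omega)

end Vale.Agent.P305E
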