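import Vale.Agent.P305E.Ram

/-!
# Engine: the program that computes its fuel, runs the code on the input and writes the output
-/

namespace Vale.Agent.P305E

open Vale.Agent.P305 Vale.Agent.P305.MM
open Function (update update_of_ne)

variable {env : Env} {cap : ℕ}

/-- Powers with a fixed exponent. -/
def powE (x : E) : ℕ → E
  | 0 => .const 1
  | j + 1 => .mul (powE x j) x

theorem powE_eval (s : St) (x : E) (j : ℕ) : (powE x j).eval env s = x.eval env s ^ j := by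
  induction j with
  | zero => rfl
  | succ j ih => simp only [powE, E.eval, ih, pow_succ]

/-- The entry `n + 1` of the input (twice the number of edges). -/
def eD : E := .raw (.add (.raw (.const 0)) (.const 1))

/-- Sizes, word bound, and the argument of the code that computes the fuel. -/
def initC (jw K0 : ℕ) : C :=
  .seq (.asg 4 (.const 1)) <|
  .seq (.asg 22 (.add (.add (.raw (.const 0)) (.div eD (.const 2))) (.const 2))) <|
  .seq (.asg 5 (powE (.reg 22) jw)) <|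
  .seq (.asg 20 (.add (.add (.raw (.const 0)) (.const 2)) eD)) <|
  .seq (.asg 2 (.const 1)) <| .seq (.asg 9 (.mul (.const K0) (.reg 22))) <|
  alloc 0 (.reg 22) (.const 0)

theorem initC_tri {jw K0 n N : ℕ} (hn : env.inp.getD 0 0 = n)
    (hlen : env.inp.length = n + 2 + env.inp.getD (n + 1) 0)
    (hN : N = n + env.inp.getD (n + 1) 0 / 2 + 2) (h1 : N ^ jw ≤ cap) (h2 : N ≤ cap)
    (h3 : env.inp.length ≤ cap) (h4 : K0 * N ≤ cap) :
    MM.Tri env cap (initC jw K0) St.init 12 fun s => s.r 4 = 2 ∧ s.r 5 = N ^ jw ∧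
      s.r 20 = env.inp.length ∧ s.r 2 = 1 ∧ s.r 9 = K0 * N ∧ s.pos = 0 ∧ (∀ x, s.a 0 x = 0) ∧
      Rv (view s) (.nat 0) 0 ∧ Rv (view s) (.nat N) 1 := by
  have eN : ∀ s : St, (E.add (.add (.raw (.const 0)) (.div eD (.const 2))) (.const 2)).eval env s
      = N := fun s => by simp only [E.eval, eD, hn, hN]
  have eL : ∀ s : St, (E.add (.add (.raw (.const 0)) (.const 2)) eD).eval env s
      = env.inp.length := fun s => by simp only [E.eval, eD, hn, hlen]
  obtain ⟨s1, hs1⟩ : ∃ s1, s1 = (((((St.init.set 4 1).set 22 N).set 5 (N ^ jw)).set 20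
    env.inp.length).set 2 1).set 9 (K0 * N) := ⟨_, rfl⟩
  have r4 : s1.r 4 = 1 := by simp [hs1, update]
  have r22 : s1.r 22 = N := by simp [hs1, update]
  have p := alloc_tri (env := env) (s := s1) (cap := cap) (t := 0) (x := .reg 22) (y := .const 0)
    (Nat.zero_le _) (by simp only [E.eval, r22, h2]) (Nat.zero_le _) (by omega)
  have e5 : (powE (.reg 22) jw).eval env ((St.init.set 4 1).set 22 N) = N ^ jw := by
    simp [powE_eval, E.eval]
  have e9 : (E.mul (.const K0) (.reg 22)).eval env (((((St.init.set 4 1).set 22 N).set 5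
      (N ^ jw)).set 20 env.inp.length).set 2 1) = K0 * N := by simp [E.eval, update]
  have c1 : ∀ (s : St) (k : ℕ), (E.const k).eval env s = k := fun _ _ => rfl
  refine ⟨?_, ?_, ?_⟩
  · simp only [initC, Safe, run, c1, eN, eL, e5, e9, ← hs1]
    exact ⟨by omega, h2, h1, h3, by omega, h4, p.1⟩
  · simp only [initC, cost, run, c1, eN, eL, e5, e9, ← hs1]
    have := p.2.1
    omega
  · simp only [initC, run, c1, eN, eL, e5, e9, ← hs1]
    obtain ⟨a1, a2, a3, a4, -⟩ := p.2.2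
    rw [r4] at a2 a3 a4
    refine ⟨a2, ?_, ?_, ?_, ?_, ?_, fun x => ?_, Rv.ext a1.ext ?_,
      ⟨lt_of_lt_of_eq (by omega) a2.symm, a3, ?_⟩⟩
    · rw [a1.reg _ (by omega) (by omega) (by omega)]; simp [hs1, update]
    · rw [a1.reg _ (by omega) (by omega) (by omega)]; simp [hs1, update]
    · rw [a1.reg _ (by omega) (by omega) (by omega)]; simp [hs1, update]
    · rw [a1.reg _ (by omega) (by omega) (by omega)]; simp [hs1, update]
    · rw [a1.pos, hs1]; rfl
    · rw [a1.out, hs1]; rfl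
    · exact ⟨by show 0 < s1.r 4; omega, by rw [hs1]; rfl, by rw [hs1]; rfl⟩
    · exact a4.trans r22

/-- The whole program. -/
def mainC (ef e : Ex) (jw K0 : ℕ) : C :=
  .seq (initC jw K0) <| .seq (callC ef) <| .seq (.asg 23 (.ld 2 (.reg 1))) <| .seq inputC <|
  .seq (.asg 2 (.reg 21)) <| .seq (.asg 9 (.reg 23)) <| .seq (callC e) outputC

theorem mainC_tri {ef e : Ex} {jw K0 n N F : ℕ} (hn : env.inp.getD 0 0 = n)
    (hlen : env.inp.length = n + 2 + env.inp.getD (n + 1) 0)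
    (hN : N = n + env.inp.getD (n + 1) 0 / 2 + 2)
    (hF : ∃ t, Ev (N ^ jw) env.ω ef (.nat N) 0 t (.nat F) 0 ∧ 3 * t ≤ K0 * N)
    (hi : ∀ i, env.inp.getD i 0 ≤ cap) (h16 : 16 ≤ cap) (h1 : N ^ jw ≤ cap) (h2 : N ≤ cap)
    (h3 : ef.quote.mx ≤ cap) (h4 : e.quote.mx ≤ cap)
    (h5 : 2 + ef.quote.size + 2 * (K0 * N) + 2 * env.inp.length + e.quote.size + 2 * F ≤ cap) :
    MM.Tri env cap (mainC ef e jw K0) St.init
      (6 * ef.quote.size + 6 * e.quote.size + 26 + K0 * N * 23 + env.inp.length * 14 + n * 4 +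
        F * 23) fun s =>
      ∀ t out i', Ev (N ^ jw) env.ω e (V.ofList env.inp) 0 t (V.ofList out) i' → 3 * t ≤ F →
        ∀ x < n, s.a 0 x = out.getD x 0 := by
  have c1 : 1 ≤ cap := by omega
  refine (MM.Tri.seq (t' := (6 * ef.quote.size + 4 + K0 * N * 23) + (1 + ((2 + env.inp.length * 14)
    + (1 + (1 + ((6 * e.quote.size + 4 + F * 23) + (1 + n * 4)))))))
    (tri_bdd (initC_tri hn hlen hN h1 h2 (by omega) (by omega)) c1 (St.init_bdd cap))
    fun s1 ⟨b1, a1, a2, a3, a4, a5, a6, a7, a8, a9⟩ => ?_).mono (by omega) fun _ h => h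
  refine MM.Tri.seq ((tri_bdd (callC_tri ef b1 h16 h3 (by omega) a8) c1 b1).mono (by rw [a5])
    fun _ h => h) fun s2 ⟨b2, x2, d1, d2, d3, d4⟩ => ?_
  obtain ⟨tf, hf1, hf2⟩ := hF
  obtain ⟨g1, g2⟩ := d4 (.nat N) tf (.nat F) 0 (a4 ▸ a9) (by rw [a2, a6]; exact hf1) (by omega)
  have g3 : s2.a 2 (s2.r 1) = F := g1.2.2
  refine MM.Tri.seq (Q := fun s' => s' = s2.set 23 F)
    (MM.Tri.asg (by simp only [E.eval]; omega) (by simp only [E.eval, g3])) ?_
  rintro _ rfl
  have b3 : (s2.set 23 F).Bdd cap := b2.set 23 (by omega)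
  have r3 : ∀ d, d ≠ 23 → (s2.set 23 F).r d = s2.r d := fun d hd => by
    rw [St.set_r, update_of_ne hd]
  have x3 : Ext (view s2) (view (s2.set 23 F)) := ext_set _ (by omega) _
  have l3 : (s2.set 23 F).r 20 = env.inp.length := by rw [r3 _ (by omega), d2 _ (by omega), a3]
  have h43 : (s2.set 23 F).r 4 = 2 + ef.quote.size + 2 * (K0 * N) := by
    rw [r3 _ (by omega), d1, a1, a5]
  refine MM.Tri.seq ((tri_bdd (inputC_tri b3 c1 hi l3 (by omega) (a8.ext (x2.trans x3))) c1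
    b3).mono (by rw [l3]) fun _ h => h) fun s4 ⟨b4, x4, e1, e2, e3, e4, e5⟩ => ?_
  refine MM.Tri.seq (Q := fun s' => s' = s4.set 2 (s4.r 21)) (MM.Tri.asg (b4.reg 21) rfl) ?_
  rintro _ rfl
  have r23 : s4.r 23 = F := by rw [e2 _ (by omega)]; simp
  refine MM.Tri.seq (Q := fun s' => s' = (s4.set 2 (s4.r 21)).set 9 F)
    (MM.Tri.asg (by simp only [E.eval, St.set_r]; rw [update_of_ne (by omega)]; omega)
      (by simp only [E.eval, St.set_r]; rw [update_of_ne (by omega), r23])) ?_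
  rintro _ rfl
  obtain ⟨s5, hs5⟩ : ∃ s5, s5 = (s4.set 2 (s4.r 21)).set 9 F := ⟨_, rfl⟩
  rw [← hs5]
  have b5 : s5.Bdd cap := hs5 ▸ (b4.set 2 (b4.reg 21)).set 9 (by omega)
  have x5 : Ext (view s4) (view s5) :=
    hs5 ▸ (ext_set _ (by omega) _).trans (ext_set _ (by omega) _)
  have k9 : s5.r 9 = F := by simp [hs5]
  have k4 : s5.r 4 = s4.r 4 := by simp [hs5, update]
  have k2 : s5.r 2 = s4.r 21 := by simp [hs5, update]
  have k5 : s5.r 5 = N ^ jw := by
    have : s5.r 5 = s4.r 5 := by simp [hs5, update]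
    rw [this, e2 _ (by omega), r3 _ (by omega), d2 _ (by omega), a2]
  have kp : s5.pos = 0 := by
    have : s5.pos = s4.pos := by rw [hs5]; rfl
    rw [this, e4, St.set_pos, g2]
  have ko : s5.a 0 = s1.a 0 := by
    have : s5.a 0 = s4.a 0 := by rw [hs5]; rfl
    rw [this, e3, St.set_a, d3]
  refine MM.Tri.seq ((tri_bdd (callC_tri e b5 h16 h4 (by omega)
    (a8.ext (x2.trans (x3.trans (x4.trans x5))))) c1 b5).mono (by rw [k9]) fun _ h => h)
    fun s6 ⟨b6, _, _, _, f3, f4⟩ => ?_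
  refine (outputC_tri b6 (hi 0) fun x => by rw [f3, ko, a7]).mono (by rw [hn]) ?_
  intro s7 h7 t out i' he ht x hx
  exact h7 out (f4 _ t _ i' (k2 ▸ e5.ext x5) (by rw [k5, kp]; exact he) (by omega)).1 x
    (by rw [hn]; exact hx)

/-- **Code on the RAM.** The code `ef` computes the fuel `F N` from `N = n + m + 2`; the program
runs `e` on the input with this fuel. -/
theorem ram_of_Ex (ef e : Ex) (jw K0 : ℕ) (F : ℕ → ℕ)
    (hF : ∀ N, 2 ≤ N → F N ≤ N ^ jw ∧
      ∀ ω, ∃ t, Ev (N ^ jw) ω ef (.nat N) 0 t (.nat (F N)) 0 ∧ 3 * t ≤ K0 * N) :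
    ∃ (c : C) (k1 K : ℕ), ∀ (n : ℕ) (G : SimpleGraph (Fin n)) (L : AdjLists G) (ω : ℕ → Bool),
      Safe ⟨L.encode, ω⟩ ((n + G.edgeSet.ncard + 2) ^ k1) c St.init ∧
      cost ⟨L.encode, ω⟩ c St.init ≤
        K * (F (n + G.edgeSet.ncard + 2) + (n + G.edgeSet.ncard + 2)) ∧
      ∀ t out i', Ev ((n + G.edgeSet.ncard + 2) ^ jw) ω e (V.ofList L.encode) 0 t
          (V.ofList out) i' → 3 * t ≤ F (n + G.edgeSet.ncard + 2) →
        ∀ x < n, (run ⟨L.encode, ω⟩ c St.init).a 0 x = out.getD x 0 := by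
  obtain ⟨c, hc⟩ : ∃ c, c = ef.quote.size + e.quote.size + ef.quote.mx + e.quote.mx + 2 * K0 + 16 :=
    ⟨_, rfl⟩
  refine ⟨mainC ef e jw K0, c + (jw + 1),
    6 * ef.quote.size + 6 * e.quote.size + 23 * K0 + 60, fun n G L ω => ?_⟩
  obtain ⟨N, hN⟩ : ∃ N, N = n + G.edgeSet.ncard + 2 := ⟨_, rfl⟩
  rw [← hN]
  have hN2 : 2 ≤ N := by omega
  have hd : L.encode.getD (n + 1) 0 = 2 * G.edgeSet.ncard := by
    rw [IO.encode_off L le_rfl, IO.upTo_length]
  have hl : L.encode.length = n + 2 + 2 * G.edgeSet.ncard := by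
    rw [IO.encode_length, IO.upTo_length]
  obtain ⟨hF1, hF2⟩ := hF N hN2
  obtain ⟨X, hX⟩ : ∃ X, X = N ^ (jw + 1) := ⟨_, rfl⟩
  have x1 : N ≤ X := hX ▸ Nat.le_self_pow (by omega) _
  have x2 : N ^ jw ≤ X := hX ▸ Nat.pow_le_pow_right (by omega) (by omega)
  have x3 : c * X ≤ N ^ (c + (jw + 1)) := by
    rw [pow_add, ← hX]
    exact Nat.mul_le_mul_right _ (Nat.lt_pow_self (by omega)).le
  have x4 : K0 * N ≤ K0 * X := Nat.mul_le_mul_left _ x1
  have x5 : ∀ a : ℕ, a ≤ a * X := fun a => Nat.le_mul_of_pos_right _ (by omega)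
  have x6 : c * X = ef.quote.size * X + e.quote.size * X + ef.quote.mx * X + e.quote.mx * X +
      2 * (K0 * X) + 16 * X := by rw [hc]; ring
  have y1 := x5 ef.quote.size
  have y2 := x5 e.quote.size
  have y3 := x5 ef.quote.mx
  have y4 := x5 e.quote.mx
  have h := mainC_tri (env := ⟨L.encode, ω⟩) (cap := N ^ (c + (jw + 1))) (ef := ef) (e := e)
    (jw := jw) (K0 := K0) (n := n) (N := N) (F := F N) (IO.encode_zero L)
    (by show L.encode.length = n + 2 + L.encode.getD (n + 1) 0; rw [hd, hl])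
    (by show N = n + L.encode.getD (n + 1) 0 / 2 + 2; rw [hd]; omega) (hF2 ω)
    (fun i => by have := IO.encode_le L i; show L.encode.getD i 0 ≤ _; omega)
    (by omega) (by omega) (by omega) (by omega) (by omega)
    (by show _ + 2 * L.encode.length + _ + _ ≤ _; omega)
  refine ⟨h.1, h.2.1.trans ?_, h.2.2⟩
  show _ + L.encode.length * 14 + _ + _ ≤ _
  have z1 : L.encode.length ≤ 2 * N := by omega
  have z2 : n ≤ N := by omega
  nlinarith [Nat.zero_le (ef.quote.size * F N), Nat.zero_le (e.quote.size * F N),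
    Nat.zero_le (K0 * F N), Nat.le_mul_of_pos_right ef.quote.size (show 0 < N by omega),
    Nat.le_mul_of_pos_right e.quote.size (show 0 < N by omega)]

end Vale.Agent.P305E
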