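import Vale.Agent.P305E.Mach
import Vale.Agent.P305.MM.Machine

/-!
# Engine: one step of the abstract machine as a command of the language `C`

Registers: `0` mode, `1` current, `2` environment, `3` stack, `4` heap pointer, `5` word bound,
`6` instruction, `7` coin, `8` loop counter, `9` fuel, `10, …, 16` scratch.
Arrays: `1`, `2`, `3` hold the heap.
-/

namespace Vale.Agent.P305E

open Vale.Agent.P305 Vale.Agent.P305.MM
open Function (update update_of_ne)

/-- The machine state held by a state of the language `C`. -/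
def view (s : St) : MS := ⟨s.r 0, s.r 1, s.r 2, s.r 3, s.r 4, s.pos, s.a 1, s.a 2, s.a 3⟩

theorem view_set (s : St) {d : ℕ} (hd : 5 ≤ d) (v : ℕ) : view (s.set d v) = view s := by
  simp only [view, St.set_r, St.set_a, St.set_pos]
  rw [update_of_ne (by omega), update_of_ne (by omega), update_of_ne (by omega),
    update_of_ne (by omega), update_of_ne (by omega)]

/-- The switch on the value of `k`. -/
def swE (k : E) : ℕ → List E → E → E
  | _, [], d => d
  | j, x :: l, d => .ifEq k (.const j) x (swE k (j + 1) l d)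

theorem swE_eval (env : Env) (s : St) (k : E) : ∀ (l : List E) (j : ℕ) (d : E),
    (swE k j l d).eval env s = swN (k.eval env s) j (l.map (E.eval env s)) (d.eval env s)
  | [], _, _ => rfl
  | x :: l, j, d => by
    simp only [swE, E.eval, List.map_cons, swN, swE_eval env s k l (j + 1) d]

def eT (e : E) : E := .ld 1 e
def eA (e : E) : E := .ld 2 e
def eB (e : E) : E := .ld 3 e
def eArg : E := eB (.reg 1)
def eK : E := .ifLt (.reg 0) (.const 1)
  (.ifLt (.const 10) (eA (eA (.reg 1))) (.const 11) (eA (eA (.reg 1))))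
  (.add (.const 11) (.ifLt (.const 4) (eT (.reg 3)) (.const 0) (eT (.reg 3))))
def eOp (o x y : E) : E :=
  swE o 0 [.add x y, .sub x y, .mul x y, .div x y, .mod x y, .ifLt x y (.const 1) (.const 0)]
    (.ifEq x y (.const 1) (.const 0))
def eRes : E := .ifLt (.reg 5) (eOp (eA eArg) (eA (eA (.reg 2))) (eA (eB (.reg 2)))) (.reg 5)
  (eOp (eA eArg) (eA (eA (.reg 2))) (eA (eB (.reg 2))))
def eMd : E := swE (.reg 6) 0 ([1, 1, 1, 1, 1, 1, 1, 0, 0, 0, 0, 1, 1, 0, 0, 1].map .const)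
  (.const 1)
def eCur : E := swE (.reg 6) 0 [.reg 2, eA (.reg 2), eB (.reg 2), eArg, .reg 4, .reg 4, .reg 4,
  eA (eA (.reg 2)),
  .ifEq (.add (eT (eA (.reg 2))) (eA (eA (.reg 2)))) (.const 0) (eB eArg) (eA eArg),
  eA eArg, eA eArg, .reg 1, .reg 1, eA (.reg 3), eA (eA (.reg 3)), .reg 4] (.reg 1)
def eEnv : E := swE (.reg 6) 8 [eB (.reg 2), .reg 2, .reg 2, .reg 2, .reg 2, .reg 1,
  eB (eA (.reg 3))] (.reg 2)
def eStk : E := swE (.reg 6) 9 [.add (.reg 4) (.const 1), .reg 4, .reg 3, .reg 3, eB (.reg 3),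
  .reg 4, eB (.reg 3)] (.reg 3)
def eNt : E := swE (.reg 6) 6 ([1, 0, 0, 1, 2, 0, 0, 0, 4, 1].map .const) (.const 0)
def eNa : E := swE (.reg 6) 4 [eRes, .reg 7, eArg, .const 0, .const 0, eB eArg, eB eArg, .const 0,
  .const 0, .const 0, .reg 1, eA (.reg 3)] (.const 0)
def eNb : E := swE (.reg 6) 6 [.reg 2, .const 0, .const 0, .reg 2, .reg 3, .const 0, .const 0,
  .const 0, eB (.reg 3), .reg 1] (.const 0)

variable {env : Env} {s : St} {cap W : ℕ}

theorem eK_eval : eK.eval env s = (view s).k := rfl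

theorem eMd_eval (h6 : s.r 6 = (view s).k) : eMd.eval env s = (view s).nmd := by
  rw [eMd, swE_eval, MS.nmd, ← h6]; rfl
theorem eCur_eval (h6 : s.r 6 = (view s).k) : eCur.eval env s = (view s).ncur := by
  rw [eCur, swE_eval, MS.ncur, ← h6]; rfl
theorem eEnv_eval (h6 : s.r 6 = (view s).k) : eEnv.eval env s = (view s).nenv := by
  rw [eEnv, swE_eval, MS.nenv, ← h6]; rfl
theorem eStk_eval (h6 : s.r 6 = (view s).k) : eStk.eval env s = (view s).nstk := by
  rw [eStk, swE_eval, MS.nstk, ← h6]; rfl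
theorem eNt_eval (h6 : s.r 6 = (view s).k) : eNt.eval env s = (view s).nt := by
  rw [eNt, swE_eval, MS.nt, ← h6]; rfl
theorem eNb_eval (h6 : s.r 6 = (view s).k) : eNb.eval env s = (view s).nb := by
  rw [eNb, swE_eval, MS.nb, ← h6]; rfl
theorem eRes_eval : eRes.eval env s = (view s).res (s.r 5) := rfl
theorem eNa_eval (h6 : s.r 6 = (view s).k) : eNa.eval env s = (view s).na (s.r 5) (s.r 7) := by
  rw [eNa, swE_eval, MS.na, ← h6]; rfl

/-- All numbers of a machine state are at most `cap`. -/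
structure MB (cap : ℕ) (m : MS) : Prop where
  cur : m.cur ≤ cap
  env : m.env ≤ cap
  stk : m.stk ≤ cap
  hp : m.hp + 2 ≤ cap
  a : ∀ p, m.a p ≤ cap
  b : ∀ p, m.b p ≤ cap

theorem MB.of_bdd (hB : s.Bdd cap) (h4 : s.r 4 + 2 ≤ cap) : MB cap (view s) :=
  ⟨hB.reg 1, hB.reg 2, hB.reg 3, h4, hB.arr 2, hB.arr 3⟩

theorem k_le (m : MS) : m.k ≤ 15 := by
  unfold MS.k
  split_ifs <;> omega

theorem nmd_le (m : MS) : m.nmd ≤ 1 := swN_le _ _ _ (by simp) le_rfl

theorem nt_le (m : MS) : m.nt ≤ 4 := swN_le _ _ _ (by simp) (by norm_num)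

theorem MB.ncur {m : MS} (h : MB cap m) : m.ncur ≤ cap := by
  have h4 : m.hp ≤ cap := by have := h.hp; omega
  refine swN_le _ _ _ ?_ h.cur
  simp only [List.forall_mem_cons, List.not_mem_nil, MS.arg]
  refine ⟨h.env, h.a _, h.b _, h.b _, h4, h4, h4, h.a _, ?_, h.a _, h.a _, h.cur, h.cur, h.a _,
    h.a _, h4, by simp⟩
  split_ifs
  · exact h.b _
  · exact h.a _

theorem MB.nenv {m : MS} (h : MB cap m) : m.nenv ≤ cap := by
  refine swN_le _ _ _ ?_ h.env
  simp only [List.forall_mem_cons, List.not_mem_nil]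
  exact ⟨h.b _, h.env, h.env, h.env, h.env, h.cur, h.b _, by simp⟩

theorem MB.nstk {m : MS} (h : MB cap m) : m.nstk ≤ cap := by
  have h4 := h.hp
  refine swN_le _ _ _ ?_ h.stk
  simp only [List.forall_mem_cons, List.not_mem_nil]
  exact ⟨by omega, by omega, h.stk, h.stk, h.b _, by omega, h.b _, by simp⟩

theorem MB.na {m : MS} (h : MB cap m) {c : ℕ} (hW : W ≤ cap) (hc : c ≤ cap) : m.na W c ≤ cap := by
  refine swN_le _ _ _ ?_ (Nat.zero_le _)
  simp only [List.forall_mem_cons, List.not_mem_nil, MS.arg]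
  refine ⟨?_, hc, h.b _, Nat.zero_le _, Nat.zero_le _, h.b _, h.b _, Nat.zero_le _, Nat.zero_le _,
    Nat.zero_le _, h.cur, h.a _, by simp⟩
  unfold MS.res
  split_ifs <;> omega

theorem MB.nb {m : MS} (h : MB cap m) : m.nb ≤ cap := by
  refine swN_le _ _ _ ?_ (Nat.zero_le _)
  simp only [List.forall_mem_cons, List.not_mem_nil]
  exact ⟨h.env, Nat.zero_le _, Nat.zero_le _, h.env, h.stk, Nat.zero_le _, Nat.zero_le _,
    Nat.zero_le _, h.b _, h.cur, by simp⟩

/-- The new values are computed. -/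
def tmpC : C :=
  .seq (.asg 10 eMd) <| .seq (.asg 11 eCur) <| .seq (.asg 12 eEnv) <| .seq (.asg 13 eStk) <|
  .seq (.asg 14 eNt) <| .seq (.asg 15 eNa) (.asg 16 eNb)

/-- The new values are written. -/
def wrC : C :=
  .seq (.sto 1 (.reg 4) (.reg 14)) <| .seq (.sto 2 (.reg 4) (.reg 15)) <|
  .seq (.sto 3 (.reg 4) (.reg 16)) <| .seq (.sto 1 (.add (.reg 4) (.const 1)) (.const 3)) <|
  .seq (.sto 2 (.add (.reg 4) (.const 1)) (.reg 4)) <|
  .seq (.sto 3 (.add (.reg 4) (.const 1)) (.reg 3)) <|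
  .seq (.asg 0 (.reg 10)) <| .seq (.asg 1 (.reg 11)) <| .seq (.asg 2 (.reg 12)) <|
  .seq (.asg 3 (.reg 13)) (.asg 4 (.add (.reg 4) (.const 2)))

/-- The instruction is read, and a coin is flipped if needed. -/
def preC : C :=
  .seq (.asg 6 eK) (.ite (.reg 6) (.const 5) .skip (.ite (.const 5) (.reg 6) .skip (.coin 7)))

/-- One step of the machine. -/
def stepC : C := .seq preC (.seq tmpC wrC)

theorem tmpC_tri (hB : s.Bdd cap) (h4 : s.r 4 + 2 ≤ cap) (h16 : 16 ≤ cap)
    (h6 : s.r 6 = (view s).k) :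
    MM.Tri env cap tmpC s 7 fun s' => view s' = view s ∧ s'.r 10 = (view s).nmd ∧
      s'.r 11 = (view s).ncur ∧ s'.r 12 = (view s).nenv ∧ s'.r 13 = (view s).nstk ∧
      s'.r 14 = (view s).nt ∧ s'.r 15 = (view s).na (s.r 5) (s.r 7) ∧ s'.r 16 = (view s).nb := by
  have hm := MB.of_bdd hB h4
  have key : ∀ (s' : St) (d v : ℕ), 10 ≤ d → view s' = view s ∧ s'.r 5 = s.r 5 ∧ s'.r 6 = s.r 6 ∧
      s'.r 7 = s.r 7 → view (s'.set d v) = view s ∧ (s'.set d v).r 5 = s.r 5 ∧
      (s'.set d v).r 6 = s.r 6 ∧ (s'.set d v).r 7 = s.r 7 := by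
    intro s' d v hd h
    refine ⟨(view_set _ (by omega) _).trans h.1, ?_, ?_, ?_⟩ <;>
      rw [St.set_r, update_of_ne (by omega)]
    exacts [h.2.1, h.2.2.1, h.2.2.2]
  have k6 : ∀ s' : St, view s' = view s ∧ s'.r 5 = s.r 5 ∧ s'.r 6 = s.r 6 ∧
      s'.r 7 = s.r 7 → s'.r 6 = (view s').k := fun s' h => by rw [h.2.2.1, h.1, h6]
  have a0 : view s = view s ∧ s.r 5 = s.r 5 ∧ s.r 6 = s.r 6 ∧ s.r 7 = s.r 7 := ⟨rfl, rfl, rfl, rfl⟩
  have e0 := eMd_eval (env := env) h6
  have a1 := key s 10 (view s).nmd (by omega) a0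
  have e1 := eCur_eval (env := env) (k6 _ a1)
  have a2 := key _ 11 (view s).ncur (by omega) a1
  have e2 := eEnv_eval (env := env) (k6 _ a2)
  have a3 := key _ 12 (view s).nenv (by omega) a2
  have e3 := eStk_eval (env := env) (k6 _ a3)
  have a4 := key _ 13 (view s).nstk (by omega) a3
  have e4 := eNt_eval (env := env) (k6 _ a4)
  have a5 := key _ 14 (view s).nt (by omega) a4
  have e5 := eNa_eval (env := env) (k6 _ a5)
  have a6 := key _ 15 ((view s).na (s.r 5) (s.r 7)) (by omega) a5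
  have e6 := eNb_eval (env := env) (k6 _ a6)
  have a7 := key _ 16 (view s).nb (by omega) a6
  rw [a1.1] at e1
  rw [a2.1] at e2
  rw [a3.1] at e3
  rw [a4.1] at e4
  rw [a5.1, a5.2.1, a5.2.2.2] at e5
  rw [a6.1] at e6
  refine ⟨?_, le_rfl, ?_⟩
  · simp only [tmpC, Safe, run, e0, e1, e2, e3, e4, e5, e6]
    exact ⟨(nmd_le _).trans (by omega), hm.ncur, hm.nenv, hm.nstk, (nt_le _).trans (by omega),
      hm.na (hB.reg 5) (hB.reg 7), hm.nb⟩
  · simp only [tmpC, run, e0, e1, e2, e3, e4, e5, e6]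
    refine ⟨a7.1, ?_⟩
    simp [update]

theorem wrC_tri (hB : s.Bdd cap) (h4 : s.r 4 + 2 ≤ cap) (h16 : 16 ≤ cap) :
    MM.Tri env cap wrC s 11 fun s' => view s' = ⟨s.r 10, s.r 11, s.r 12, s.r 13, s.r 4 + 2, s.pos,
      update (update (s.a 1) (s.r 4) (s.r 14)) (s.r 4 + 1) 3,
      update (update (s.a 2) (s.r 4) (s.r 15)) (s.r 4 + 1) (s.r 4),
      update (update (s.a 3) (s.r 4) (s.r 16)) (s.r 4 + 1) (s.r 3)⟩ := by
  refine ⟨?_, le_rfl, ?_⟩
  · simp only [wrC, Safe, run, E.eval, St.put_r, St.set_r]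
    refine ⟨hB.reg _, hB.reg _, hB.reg _, by omega, hB.reg _, hB.reg _, hB.reg _, ?_, ?_, ?_, ?_⟩
    · simpa [update] using hB.reg 11
    · simpa [update] using hB.reg 12
    · simpa [update] using hB.reg 13
    · simpa [update] using h4
  · simp [wrC, run, E.eval, view, update]

theorem preC_tri (h16 : 16 ≤ cap) :
    MM.Tri env cap preC s 4 fun s' => s'.r 6 = (view s).k ∧ s'.r 5 = s.r 5 ∧
      view s' = { view s with pos := if (view s).k = 5 then s.pos + 1 else s.pos } ∧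
      ((view s).k = 5 → s'.r 7 = if env.ω s.pos then 1 else 0) := by
  have hk := k_le (view s)
  refine MM.Tri.mono (MM.Tri.seq (Q := fun s' => s' = s.set 6 (view s).k)
    (MM.Tri.asg (by rw [eK_eval]; omega) (by rw [eK_eval])) ?_ (t' := 3)) le_rfl fun _ h => h
  rintro _ rfl
  have v6 := view_set s (d := 6) (by omega) (view s).k
  refine MM.Tri.ite (t := 2) (fun h => (MM.Tri.skip ?_).mono (by omega) fun _ h => h)
    fun h => MM.Tri.ite (t := 1) (fun h' => MM.Tri.skip ?_) fun h' => MM.Tri.coin ?_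
  · simp only [E.eval, St.set_r, Function.update_self] at h
    have h5 : (view s).k ≠ 5 := by omega
    refine ⟨by simp, by simp [update], ?_, fun h => absurd h h5⟩
    rw [v6, if_neg h5]
    rfl
  · simp only [E.eval, St.set_r, Function.update_self] at h'
    have h5 : (view s).k ≠ 5 := by omega
    refine ⟨by simp, by simp [update], ?_, fun h => absurd h h5⟩
    rw [v6, if_neg h5]
    rfl
  · simp only [E.eval, St.set_r, Function.update_self] at h h'
    have h5 : (view s).k = 5 := by omega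
    refine ⟨by simp [update], by simp [update], ?_,
      fun _ => Function.update_self 7 _ (s.set 6 (view s).k).r⟩
    rw [if_pos h5]
    simp [view, update]

theorem na_indep (m : MS) (h : m.k ≠ 5) (c c' : ℕ) : m.na W c = m.na W c' := by
  simp only [MS.na, swN, if_neg h, show (4 + 1 : ℕ) = 5 from rfl]

/-- The command `stepC` makes one step of the machine. -/
theorem stepC_tri (hB : s.Bdd cap) (h4 : s.r 4 + 2 ≤ cap) (h16 : 16 ≤ cap) :
    MM.Tri env cap stepC s 22 fun s' => view s' = MS.step (s.r 5) env.ω (view s) := by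
  have p1 := preC_tri (env := env) (s := s) h16
  obtain ⟨s1, hs1⟩ : ∃ s1, s1 = run env preC s := ⟨_, rfl⟩
  have b1 : s1.Bdd cap := hs1 ▸ Safe.bdd (by omega) p1.1 hB
  obtain ⟨q1, q2, q3, q4⟩ := p1.2.2
  rw [← hs1] at q1 q2 q3 q4
  have r4 : s1.r 4 = s.r 4 := congrArg MS.hp q3
  have hk : (view s1).k = (view s).k := by rw [q3]; rfl
  have p2 := tmpC_tri (env := env) b1 (by omega) h16 (q1.trans hk.symm)
  obtain ⟨s2, hs2⟩ : ∃ s2, s2 = run env tmpC s1 := ⟨_, rfl⟩
  have b2 : s2.Bdd cap := hs2 ▸ Safe.bdd (by omega) p2.1 b1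
  obtain ⟨u0, u1, u2, u3, u4, u5, u6, u7⟩ := p2.2.2
  rw [← hs2] at u0 u1 u2 u3 u4 u5 u6 u7
  have r4' : s2.r 4 = s.r 4 := (congrArg MS.hp u0).trans r4
  have p3 := wrC_tri (env := env) b2 (by omega) h16
  refine ⟨?_, ?_, ?_⟩
  · simp only [stepC, Safe, ← hs1, ← hs2]
    exact ⟨p1.1, p2.1, p3.1⟩
  · simp only [stepC, cost, ← hs1, ← hs2]
    have := p1.2.1
    have := p2.2.1
    have := p3.2.1
    omega
  · simp only [stepC, run, ← hs1, ← hs2]
    rw [p3.2.2, u1, u2, u3, u4, u5, u6, u7, r4', q2]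
    have w : view s2 = { view s with pos := if (view s).k = 5 then s.pos + 1 else s.pos } :=
      u0.trans q3
    have w1 : s2.a 1 = s.a 1 := congrArg MS.tg w
    have w2 : s2.a 2 = s.a 2 := congrArg MS.a w
    have w3 : s2.a 3 = s.a 3 := congrArg MS.b w
    have w4 : s2.r 3 = s.r 3 := congrArg MS.stk w
    have w5 : s2.pos = if (view s).k = 5 then s.pos + 1 else s.pos := congrArg MS.pos w
    have w6 : (view s1).na (s.r 5) (s1.r 7) =
        (view s).na (s.r 5) (if env.ω s.pos then 1 else 0) := by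
      by_cases h5 : (view s).k = 5
      · rw [q4 h5, q3]; rfl
      · rw [na_indep (view s) h5 _ (s1.r 7), q3]; rfl
    rw [w1, w2, w3, w4, w5, w6, q3]
    rfl

theorem stepC_wr {x : ℕ} (hx : x = 5 ∨ x = 9 ∨ 17 ≤ x) : ¬ stepC.wr x := by
  simp only [stepC, preC, tmpC, wrC, C.wr, false_or]
  omega

/-- The machine runs for as many steps as register `9` says. -/
def loopC : C := .for_ 8 (.reg 9) stepC

theorem step_iter_hp (W : ℕ) (ω : ℕ → Bool) (m : MS) (n : ℕ) :
    ((MS.step W ω)^[n] m).hp = m.hp + 2 * n := by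
  induction n with
  | zero => rfl
  | succ n ih => rw [Function.iterate_succ_apply', step_hp, ih]; ring

theorem loopC_tri (hB : s.Bdd cap) (h4 : s.r 4 + 2 * s.r 9 ≤ cap) (h16 : 16 ≤ cap) :
    MM.Tri env cap loopC s (1 + s.r 9 * 23) fun s' =>
      view s' = (MS.step (s.r 5) env.ω)^[s.r 9] (view s) := by
  refine MM.Tri.for_ (T := 22) (fun k s' => s'.Bdd cap ∧ s'.r 5 = s.r 5 ∧
    view s' = (MS.step (s.r 5) env.ω)^[k] (view s)) (hB.reg 9) ⟨hB, rfl, rfl⟩ ?_ fun _ h => h.2.2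
  intro k hk s' ⟨h1, h2, h3⟩
  have hk' : k < s.r 9 := hk
  have b1 : (s'.set 8 k).Bdd cap := h1.set 8 (hk'.le.trans (hB.reg 9))
  have v1 : view (s'.set 8 k) = view s' := view_set _ (by omega) _
  have r4 : (s'.set 8 k).r 4 = s.r 4 + 2 * k := by
    have := congrArg MS.hp (v1.trans h3)
    rw [step_iter_hp] at this
    exact this
  have r5 : (s'.set 8 k).r 5 = s.r 5 := by simpa [update] using h2
  have p := stepC_tri (env := env) b1 (by omega) h16
  refine ⟨p.1, p.2.1, Safe.bdd (by omega) p.1 b1, ?_, ?_⟩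
  · rw [run_frame_r _ (stepC_wr (by omega)), r5]
  · rw [p.2.2, r5, v1, h3, Function.iterate_succ_apply']

theorem loopC_wr {x : ℕ} (hx : x = 5 ∨ x = 9 ∨ 17 ≤ x) : ¬ loopC.wr x := by
  have := stepC_wr hx
  simp only [loopC, C.wr, not_or]
  exact ⟨by omega, this⟩

theorem loopC_wa : ¬ loopC.wa 0 := by
  simp [loopC, stepC, preC, tmpC, wrC, C.wa]

end Vale.Agent.P305E
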