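import Vale.Agent.P305E.Core

/-!
# Engine, part 2: representations of data by values, and code for computations

`R B v a`: the value `v` represents `a`, and the numbers of `a` are at most `B`.
`CompM f Q`: one piece of code computes `f a` for all `a`; the time is polylogarithmic (in the
word bound `B`) per tick.
-/

namespace Vale.Agent.P305E

/-- Types with representations. -/
class Rep (α : Type) where
  R : ℕ → V → α → Prop
  mono : ∀ {B B' : ℕ} {v : V} {a : α}, B ≤ B' → R B v a → R B' v a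

export Rep (R)

variable {α β γ δ : Type}

instance : Rep V := ⟨fun _ v a => v = a, fun _ h => h⟩
instance : Rep ℕ := ⟨fun B v n => v = .nat n ∧ n ≤ B, fun h h' => ⟨h'.1, h'.2.trans h⟩⟩
instance : Rep Bool := ⟨fun _ v b => v = .nat (if b then 1 else 0), fun _ h => h⟩
instance : Rep Unit := ⟨fun _ _ _ => True, fun _ h => h⟩

instance [Rep α] [Rep β] : Rep (α × β) :=
  ⟨fun B v p => ∃ x y, v = .pair x y ∧ R B x p.1 ∧ R B y p.2,
    fun h ⟨x, y, e, h1, h2⟩ => ⟨x, y, e, Rep.mono h h1, Rep.mono h h2⟩⟩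

/-- Representation through a map. -/
@[reducible] def Rep.comap [Rep β] (φ : α → β) : Rep α :=
  ⟨fun B v a => R B v (φ a), fun h h' => Rep.mono h h'⟩

instance : Rep ℤ := Rep.comap fun z => (z.toNat, (-z).toNat)

/-- Representation of lists. -/
def RList [Rep α] (B : ℕ) : V → List α → Prop
  | v, [] => v = .nat 0
  | v, a :: l => ∃ x y, v = .pair x y ∧ R B x a ∧ RList B y l

theorem RList.mono [Rep α] {B B' : ℕ} (h : B ≤ B') :
    ∀ {l : List α} {v : V}, RList B v l → RList B' v l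
  | [], _, h' => h'
  | _ :: _, _, ⟨x, y, e, h1, h2⟩ => ⟨x, y, e, Rep.mono h h1, RList.mono h h2⟩

instance [Rep α] : Rep (List α) := ⟨RList, fun h h' => RList.mono h h'⟩

/-- Representation of options. -/
def ROpt [Rep α] (B : ℕ) : V → Option α → Prop
  | v, none => v = .nat 0
  | v, some a => ∃ x y, v = .pair x y ∧ R B x a

instance [Rep α] : Rep (Option α) :=
  ⟨ROpt, fun {_ _ _ a} h h' => by
    cases a with
    | none => exact h'
    | some a => obtain ⟨x, y, e, h1⟩ := h'; exact ⟨x, y, e, Rep.mono h h1⟩⟩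

/-- Representation of sums. -/
def RSum [Rep α] [Rep β] (B : ℕ) : V → α ⊕ β → Prop
  | v, .inl a => ∃ x, v = .pair (.nat 0) x ∧ R B x a
  | v, .inr b => ∃ x, v = .pair (.nat 1) x ∧ R B x b

instance [Rep α] [Rep β] : Rep (α ⊕ β) :=
  ⟨RSum, fun {_ _ _ a} h h' => by
    cases a with
    | inl a => obtain ⟨x, e, h1⟩ := h'; exact ⟨x, e, Rep.mono h h1⟩
    | inr a => obtain ⟨x, e, h1⟩ := h'; exact ⟨x, e, Rep.mono h h1⟩⟩

/-- Binary trees with labels of type `α` at the inner nodes and `β` at the leaves. -/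
inductive BT (α β : Type) : Type
  | leaf (b : β)
  | node (a : α) (l r : BT α β)

/-- Representation of trees. -/
def RBT [Rep α] [Rep β] (B : ℕ) : V → BT α β → Prop
  | v, .leaf b => ∃ x, v = .pair (.nat 0) x ∧ R B x b
  | v, .node a l r => ∃ x y z, v = .pair (.nat 1) (.pair x (.pair y z)) ∧ R B x a ∧
      RBT B y l ∧ RBT B z r

theorem RBT.mono [Rep α] [Rep β] {B B' : ℕ} (h : B ≤ B') :
    ∀ {t : BT α β} {v : V}, RBT B v t → RBT B' v t
  | .leaf _, _, ⟨x, e, h1⟩ => ⟨x, e, Rep.mono h h1⟩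
  | .node _ _ _, _, ⟨x, y, z, e, h1, h2, h3⟩ =>
    ⟨x, y, z, e, Rep.mono h h1, RBT.mono h h2, RBT.mono h h3⟩

instance [Rep α] [Rep β] : Rep (BT α β) := ⟨RBT, fun h h' => RBT.mono h h'⟩

/-! ### Word sizes -/

/-- The logarithmic unit of time. -/
def lg (B : ℕ) : ℕ := Nat.size B + 2

/-- The words are large enough for code of level `j`. -/
def Ok (B W j : ℕ) : Prop := 2 ≤ B ∧ j ≤ B ∧ B ^ j ≤ W

theorem two_le_lg (B : ℕ) : 2 ≤ lg B := Nat.le_add_left _ _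

theorem lg_mono {B B' : ℕ} (h : B ≤ B') : lg B ≤ lg B' :=
  Nat.add_le_add_right (Nat.size_le_size h) _

theorem lg_pow_mono (B : ℕ) {j j' : ℕ} (h : j ≤ j') : lg B ^ j ≤ lg B ^ j' :=
  Nat.pow_le_pow_right (by have := two_le_lg B; omega) h

theorem one_le_lg_pow (B j : ℕ) : 1 ≤ lg B ^ j :=
  Nat.one_le_pow _ _ (by have := two_le_lg B; omega)

theorem le_lg_pow (B j : ℕ) : j ≤ lg B ^ j :=
  (Nat.lt_two_pow_self).le.trans (Nat.pow_le_pow_left (two_le_lg B) j)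

theorem Ok.mono {B W j j' : ℕ} (h : Ok B W j') (hj : j ≤ j') : Ok B W j :=
  ⟨h.1, hj.trans h.2.1, (Nat.pow_le_pow_right (by have := h.1; omega) hj).trans h.2.2⟩

theorem Ok.up {B W j k : ℕ} (h : Ok B W ((k + 1) * j)) : Ok (B ^ (k + 1)) W j := by
  have hB : B ≤ B ^ (k + 1) := Nat.le_self_pow (by omega) _
  refine ⟨h.1.trans hB, le_trans ?_ (h.2.1.trans hB), by rw [← pow_mul]; exact h.2.2⟩
  exact Nat.le_mul_of_pos_left _ (by omega)

theorem lg_pow_le (B k : ℕ) : lg (B ^ (k + 1)) ≤ lg B ^ (k + 1) := by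
  have h1 : Nat.size (B ^ (k + 1)) ≤ Nat.size B * (k + 1) := by
    rw [Nat.size_le, pow_mul]
    exact Nat.pow_lt_pow_left (Nat.lt_size_self B) (by omega)
  have h2 : ∀ k s : ℕ, s * (k + 1) + 2 ≤ (s + 2) ^ (k + 1) := by
    intro k s
    induction k with
    | zero => simp
    | succ k ih =>
      calc s * (k + 1 + 1) + 2 ≤ (s * (k + 1) + 2) * (s + 2) := by
            nlinarith [Nat.zero_le (s * k), Nat.zero_le (s * s * k), Nat.zero_le (s * s)]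
        _ ≤ (s + 2) ^ (k + 1) * (s + 2) := Nat.mul_le_mul_right _ ih
        _ = (s + 2) ^ (k + 1 + 1) := by ring
  unfold lg
  exact (Nat.add_le_add_right h1 2).trans (h2 k _)

/-- Two times and a constant fit into a higher power. -/
theorem lg_sum {B j₁ j₂ t₁ t₂ n₁ n₂ c : ℕ} (h₁ : n₁ ≤ lg B ^ j₁ * (t₁ + 1))
    (h₂ : n₂ ≤ lg B ^ j₂ * (t₂ + 1)) :
    n₁ + n₂ + c ≤ lg B ^ (j₁ + j₂ + c + 2) * (t₁ + t₂ + 1) := by
  have hl := two_le_lg B
  set X := lg B ^ (j₁ + j₂ + c)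
  have a1 : lg B ^ j₁ ≤ X := lg_pow_mono B (by omega)
  have a2 : lg B ^ j₂ ≤ X := lg_pow_mono B (by omega)
  have a3 : c ≤ X := (le_lg_pow B c).trans (lg_pow_mono B (by omega))
  have a4 : 4 * X ≤ lg B ^ (j₁ + j₂ + c + 2) := by
    rw [pow_add, mul_comm]
    exact Nat.mul_le_mul_left _ (by nlinarith)
  have b1 : n₁ ≤ X * (t₁ + 1) := h₁.trans (Nat.mul_le_mul_right _ a1)
  have b2 : n₂ ≤ X * (t₂ + 1) := h₂.trans (Nat.mul_le_mul_right _ a2)
  calc n₁ + n₂ + c ≤ 4 * X * (t₁ + t₂ + 1) := by nlinarith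
    _ ≤ _ := Nat.mul_le_mul_right _ a4

/-! ### Code for computations -/

/-- `Ref B W j e v m Q`: whenever the run of `m` succeeds, the code `e` on the value `v` follows
it. -/
def Ref (B W j : ℕ) (e : Ex) (v : V) (m : M β) (Q : β → V → Prop) : Prop :=
  ∀ ω i b i' t, m.run B ω i = some (b, i', t) →
    ∃ v' n, Ev W ω e v i n v' i' ∧ Q b v' ∧ n ≤ lg B ^ j * (t + 1)

/-- One piece of code for all computations `f a`; the results are described by `Q`. -/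
def CompM [Rep α] (f : α → M β) (Q : ℕ → α → β → V → Prop) : Prop :=
  ∃ e j, ∀ B W, Ok B W j → ∀ v a, R B v a → Ref B W j e v (f a) (Q B a)

/-- Code without coins and ticks. -/
def Comp (α : Type) [Rep α] (Q : ℕ → α → V → Prop) : Prop :=
  ∃ e j, ∀ B W, Ok B W j → ∀ v a, R B v a → ∀ ω i,
    ∃ v' n, Ev W ω e v i n v' i ∧ Q B a v' ∧ n ≤ lg B ^ j

variable [Rep α] [Rep β]

theorem Comp.toM {Q : ℕ → α → V → Prop} (h : Comp α Q) (g : α → γ) :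
    CompM (fun a => M.ret (g a)) fun B a c v => c = g a ∧ Q B a v := by
  obtain ⟨e, j, h⟩ := h
  refine ⟨e, j, fun B W hok v a hv ω i b i' t hr => ?_⟩
  simp only [M.run, Option.some.injEq, Prod.mk.injEq] at hr
  obtain ⟨rfl, rfl, rfl⟩ := hr
  obtain ⟨v', n, h1, h2, h3⟩ := h B W hok v a hv ω i
  exact ⟨v', n, h1, ⟨rfl, h2⟩, by simpa using h3⟩

theorem CompM.toComp {g : α → γ} {Q : ℕ → α → γ → V → Prop}
    (h : CompM (fun a => M.ret (g a)) Q) : Comp α fun B a v => Q B a (g a) v := by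
  obtain ⟨e, j, h⟩ := h
  refine ⟨e, j, fun B W hok v a hv ω i => ?_⟩
  obtain ⟨v', n, h1, h2, h3⟩ := h B W hok v a hv ω i (g a) i 0 rfl
  exact ⟨v', n, h1, h2, by simpa using h3⟩

theorem CompM.mono {f : α → M γ} {Q Q' : ℕ → α → γ → V → Prop} (h : CompM f Q) (k : ℕ)
    (hQ : ∀ B a c v, 2 ≤ B → k ≤ B → Q B a c v → Q' B a c v) : CompM f Q' := by
  obtain ⟨e, j, h⟩ := h
  refine ⟨e, j + k, fun B W hok v a hv ω i b i' t hr => ?_⟩
  obtain ⟨v', n, h1, h2, h3⟩ := h B W (hok.mono (by omega)) v a hv ω i b i' t hr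
  exact ⟨v', n, h1, hQ _ _ _ _ hok.1 (le_trans (by omega) hok.2.1) h2,
    h3.trans (Nat.mul_le_mul_right _ (lg_pow_mono B (by omega)))⟩

theorem Comp.mono {Q Q' : ℕ → α → V → Prop} (h : Comp α Q) (k : ℕ)
    (hQ : ∀ B a v, 2 ≤ B → k ≤ B → Q B a v → Q' B a v) : Comp α Q' :=
  ((h.toM fun _ => ()).mono (Q' := fun B a _ v => Q' B a v) k
    fun B a _ v h1 h2 h3 => hQ B a v h1 h2 h3.2).toComp

theorem Comp.id : Comp α fun B a v => R B v a :=
  ⟨.id, 0, fun _ _ _ v _ hv _ i => ⟨v, 1, .id v i, hv, by simp⟩⟩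

theorem Comp.fst : Comp (α × β) fun B a v => R B v a.1 :=
  ⟨.fst, 0, fun _ _ _ _ _ ⟨x, y, e, h1, _⟩ _ i => ⟨x, 1, e ▸ .fst x y i, h1, by simp⟩⟩

theorem Comp.snd : Comp (α × β) fun B a v => R B v a.2 :=
  ⟨.snd, 0, fun _ _ _ _ _ ⟨x, y, e, _, h2⟩ _ i => ⟨y, 1, e ▸ .snd x y i, h2, by simp⟩⟩

theorem Comp.op (o : Bop) (ho : ∀ B a b, 2 ≤ B → a ≤ B → b ≤ B → o.eval a b ≤ B ^ 2) :
    Comp (ℕ × ℕ) fun B a v => v = .nat (o.eval a.1 a.2) ∧ a.1 ≤ B ∧ a.2 ≤ B := by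
  refine ⟨.op o, 2, fun B W hok v a ⟨x, y, e, h1, h2⟩ ω i => ?_⟩
  obtain ⟨rfl, h1⟩ := h1
  obtain ⟨rfl, h2⟩ := h2
  subst e
  exact ⟨_, 1, .op o _ _ i ((ho B _ _ hok.1 h1 h2).trans hok.2.2), ⟨rfl, h1, h2⟩,
    one_le_lg_pow _ _⟩

theorem CompM.pair {Q : ℕ → α → V → Prop} {f : α → M γ} {Q' : ℕ → α → γ → V → Prop}
    (h : Comp α Q) (h' : CompM f Q') :
    CompM f fun B a c v => ∃ x y, v = .pair x y ∧ Q B a x ∧ Q' B a c y := by
  obtain ⟨e, j, h⟩ := h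
  obtain ⟨e', j', h'⟩ := h'
  refine ⟨.pair e e', j + j' + 1 + 2, fun B W hok v a hv ω i b i' t hr => ?_⟩
  obtain ⟨x, n, h1, h2, h3⟩ := h B W (hok.mono (by omega)) v a hv ω i
  obtain ⟨y, n', h1', h2', h3'⟩ := h' B W (hok.mono (by omega)) v a hv ω i b i' t hr
  refine ⟨_, _, .pair _ _ _ _ _ _ _ _ _ _ h1 h1', ⟨x, y, rfl, h2, h2'⟩, ?_⟩
  simpa using lg_sum (t₁ := 0) (c := 1) (by simpa using h3) h3'

theorem Comp.pair {Q Q' : ℕ → α → V → Prop} (h : Comp α Q) (h' : Comp α Q') :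
    Comp α fun B a v => ∃ x y, v = .pair x y ∧ Q B a x ∧ Q' B a y :=
  (CompM.pair h (h'.toM fun _ => ())).toComp.mono 0
    fun _ _ _ _ _ ⟨x, y, e, h1, h2⟩ => ⟨x, y, e, h1, h2.2⟩

theorem Comp.lit (w : V) : Comp α fun _ _ v => v = w := by
  induction w with
  | nat n => exact ⟨.lit n, 0, fun _ _ _ v _ _ _ i => ⟨_, 1, .lit n v i, rfl, by simp⟩⟩
  | pair x y ihx ihy =>
    exact (ihx.pair ihy).mono 0 fun _ _ _ _ _ ⟨_, _, e, h1, h2⟩ => by rw [e, h1, h2]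

/-- Sequencing. -/
theorem CompM.seq {f : α → M γ} {Q : ℕ → α → γ → V → Prop} {g : β → M δ}
    {Q' : ℕ → β → δ → V → Prop} {k : α → γ → M δ} {Q'' : ℕ → α → δ → V → Prop}
    (h : CompM f Q) (h' : CompM g Q')
    (hk : ∀ B a c v, Q B a c v → ∃ b, R B v b ∧ k a c = g b ∧ ∀ d w, Q' B b d w → Q'' B a d w) :
    CompM (fun a => (f a).bind (k a)) Q'' := by
  obtain ⟨e, j, h⟩ := h
  obtain ⟨e', j', h'⟩ := h'
  refine ⟨.comp e e', j + j' + 1 + 2, fun B W hok v a hv ω i d i' t hr => ?_⟩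
  obtain ⟨c, i₁, t₁, t₂, r1, r2, rfl⟩ := (M.run_bind _ _ _).1 hr
  obtain ⟨x, n, h1, h2, h3⟩ := h B W (hok.mono (by omega)) v a hv ω i c i₁ t₁ r1
  obtain ⟨b, hb, eb, hQ⟩ := hk B a c x h2
  rw [eb] at r2
  obtain ⟨y, n', h1', h2', h3'⟩ := h' B W (hok.mono (by omega)) x b hb ω i₁ d i' t₂ r2
  exact ⟨_, _, .comp _ _ _ _ _ _ _ _ _ _ h1 h1', hQ _ _ h2', lg_sum h3 h3'⟩

/-- Composition of pure code; the intermediate numbers may be polynomially larger. -/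
theorem Comp.comp {Q : ℕ → α → V → Prop} {Q' : ℕ → β → V → Prop} {Q'' : ℕ → α → V → Prop}
    (h : Comp α Q) (h' : Comp β Q') (k : ℕ)
    (hk : ∀ B a v, 2 ≤ B → Q B a v →
      ∃ b, R (B ^ (k + 1)) v b ∧ ∀ w, Q' (B ^ (k + 1)) b w → Q'' B a w) : Comp α Q'' := by
  obtain ⟨e, j, h⟩ := h
  obtain ⟨e', j', h'⟩ := h'
  refine ⟨.comp e e', j + (k + 1) * j' + 1 + 2, fun B W hok v a hv ω i => ?_⟩
  obtain ⟨x, n, h1, h2, h3⟩ := h B W (hok.mono (by omega)) v a hv ω i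
  obtain ⟨b, hb, hQ⟩ := hk B a x hok.1 h2
  obtain ⟨y, n', h1', h2', h3'⟩ :=
    h' (B ^ (k + 1)) W (Ok.up (hok.mono (by omega))) x b hb ω i
  refine ⟨_, _, .comp _ _ _ _ _ _ _ _ _ _ h1 h1', hQ _ h2', ?_⟩
  have h4 : n' ≤ lg B ^ ((k + 1) * j') := by
    rw [pow_mul]
    exact h3'.trans (Nat.pow_le_pow_left (lg_pow_le B k) _)
  simpa using lg_sum (t₁ := 0) (t₂ := 0) (c := 1) (by simpa using h3) (by simpa using h4)

/-- Branching. -/
theorem CompM.branch {α₁ α₂ : Type} [Rep α₁] [Rep α₂] {Q : ℕ → α → V → Prop} {f : α → M γ}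
    {f₁ : α₁ → M γ} {f₂ : α₂ → M γ} {Q₁ : ℕ → α₁ → γ → V → Prop} {Q₂ : ℕ → α₂ → γ → V → Prop}
    {Q' : ℕ → α → γ → V → Prop} (h : Comp α Q) (h₁ : CompM f₁ Q₁) (h₂ : CompM f₂ Q₂)
    (hk : ∀ B a v, Q B a v → ∃ c r, v = .pair c r ∧
      (c ≠ .nat 0 → ∃ a₁, R B r a₁ ∧ f a = f₁ a₁ ∧ ∀ d w, Q₁ B a₁ d w → Q' B a d w) ∧
      (c = .nat 0 → ∃ a₂, R B r a₂ ∧ f a = f₂ a₂ ∧ ∀ d w, Q₂ B a₂ d w → Q' B a d w)) :
    CompM f Q' := by
  obtain ⟨e, j, h⟩ := h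
  obtain ⟨e₁, j₁, h₁⟩ := h₁
  obtain ⟨e₂, j₂, h₂⟩ := h₂
  refine ⟨.comp e (.ite e₁ e₂), j + (j₁ + j₂) + 2 + 2, fun B W hok v a hv ω i d i' t hr => ?_⟩
  obtain ⟨x, n, h1, h2, h3⟩ := h B W (hok.mono (by omega)) v a hv ω i
  obtain ⟨c, r, rfl, k1, k2⟩ := hk B a x h2
  by_cases hc : c = .nat 0
  · obtain ⟨a₂, ha, ea, hQ⟩ := k2 hc
    rw [ea] at hr
    obtain ⟨y, n', h1', h2', h3'⟩ := h₂ B W (hok.mono (by omega)) r a₂ ha ω i d i' t hr
    subst hc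
    refine ⟨_, _, .comp _ _ _ _ _ _ _ _ _ _ h1 (.iteF _ _ _ _ _ _ _ h1'), hQ _ _ h2', ?_⟩
    have := lg_sum (t₁ := 0) (c := 2) (j₂ := j₁ + j₂) (by simpa using h3)
      (h3'.trans (Nat.mul_le_mul_right _ (lg_pow_mono B (by omega))))
    simpa [add_assoc] using this
  · obtain ⟨a₁, ha, ea, hQ⟩ := k1 hc
    rw [ea] at hr
    obtain ⟨y, n', h1', h2', h3'⟩ := h₁ B W (hok.mono (by omega)) r a₁ ha ω i d i' t hr
    refine ⟨_, _, .comp _ _ _ _ _ _ _ _ _ _ h1 (.iteT _ _ _ _ _ _ _ _ hc h1'), hQ _ _ h2', ?_⟩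
    have := lg_sum (t₁ := 0) (c := 2) (j₂ := j₁ + j₂) (by simpa using h3)
      (h3'.trans (Nat.mul_le_mul_right _ (lg_pow_mono B (by omega))))
    simpa [add_assoc] using this

theorem CompM.flip : CompM (fun _ : α => flip) fun B _ b v => R B v b := by
  refine ⟨.coin, 1, fun B W _ v a _ ω i b i' t hr => ?_⟩
  simp only [P305E.flip, M.run, addT, Option.map_some, Option.some.injEq, Prod.mk.injEq] at hr
  obtain ⟨rfl, rfl, rfl⟩ := hr
  exact ⟨_, 1, .coin v i, rfl, by have := two_le_lg B; nlinarith⟩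

/-- Refinement: code for `f` is code for `g` if `f` follows the successful runs of `g`, with at
most polylogarithmically more ticks. -/
theorem CompM.refine {f g : α → M γ} {Q : ℕ → α → γ → V → Prop} (h : CompM f Q) (k : ℕ)
    (hg : ∀ B, 2 ≤ B → k ≤ B → ∀ v a, R B v a → ∀ ω i c i' t, (g a).run B ω i = some (c, i', t) →
      ∃ t', (f a).run B ω i = some (c, i', t') ∧ t' + 1 ≤ lg B ^ k * (t + 1)) : CompM g Q := by
  obtain ⟨e, j, h⟩ := h
  refine ⟨e, j + k, fun B W hok v a hv ω i c i' t hr => ?_⟩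
  obtain ⟨t', r', ht⟩ := hg B hok.1 (le_trans (by omega) hok.2.1) v a hv ω i c i' t hr
  obtain ⟨y, n, h1, h2, h3⟩ := h B W (hok.mono (by omega)) v a hv ω i c i' t' r'
  refine ⟨y, n, h1, h2, h3.trans ?_⟩
  rw [pow_add, mul_assoc]
  exact Nat.mul_le_mul_left _ ht

end Vale.Agent.P305E
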