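import Vale.Agent.P305E.Wp
import Vale.Agent.P305.MM.Model

/-!
# Engine: from expectations to counting sequences of bits
-/

namespace Vale.Agent.P305E

open Vale.Agent.P305.MM

variable {β : Type} {B : ℕ}

/-- A run that starts at position `i` depends only on the bits at positions `≥ i`. -/
theorem run_congr (m : M β) {ω ω' : ℕ → Bool} {i : ℕ} (h : ∀ j, i ≤ j → ω j = ω' j) :
    m.run B ω i = m.run B ω' i := by
  induction m generalizing i with
  | ret b => rfl
  | coin k ih =>
    simp only [M.run]
    rw [h i le_rfl, ih _ fun j hj => h j (by omega)]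
  | tick k ih => simp only [M.run, ih h]
  | need n k ih => simp only [M.run, ih h]
  | fail => rfl

/-- The position of the next random bit is at most the start position plus the number of ticks. -/
theorem run_pos_le (m : M β) {ω : ℕ → Bool} {i i' t : ℕ} {b : β}
    (h : m.run B ω i = some (b, i', t)) : i ≤ i' ∧ i' ≤ i + t := by
  induction m generalizing i t with
  | ret b =>
    simp only [M.run, Option.some.injEq, Prod.mk.injEq] at h
    omega
  | coin k ih =>
    simp only [M.run, Option.map_eq_some_iff, addT, Prod.mk.injEq, Prod.exists] at h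
    obtain ⟨b', j, s, h1, rfl, rfl, rfl⟩ := h
    have := ih _ h1
    omega
  | tick k ih =>
    simp only [M.run, Option.map_eq_some_iff, addT, Prod.mk.injEq, Prod.exists] at h
    obtain ⟨b', j, s, h1, rfl, rfl, rfl⟩ := h
    have := ih h1
    omega
  | need n k ih =>
    simp only [M.run] at h
    split_ifs at h
    exact ih h
  | fail => simp [M.run] at h

/-- The value of `F` on the run (`p` if the run fails). -/
def out (B : ℕ) (m : M β) (F : β → ℕ → ℝ) (p : ℝ) (ω : ℕ → Bool) (i : ℕ) : ℝ :=
  match m.run B ω i with
  | some r => F r.1 r.2.2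
  | none => p

theorem out_coin (k : Bool → M β) (F : β → ℕ → ℝ) (p : ℝ) (ω : ℕ → Bool) (i : ℕ) :
    out B (.coin k) F p ω i = out B (k (ω i)) (fun b t => F b (t + 1)) p ω (i + 1) := by
  simp only [out, M.run]
  cases (k (ω i)).run B ω (i + 1) <;> simp [addT]

theorem out_tick (k : M β) (F : β → ℕ → ℝ) (p : ℝ) (ω : ℕ → Bool) (i : ℕ) :
    out B (.tick k) F p ω i = out B k (fun b t => F b (t + 1)) p ω i := by
  simp only [out, M.run]
  cases k.run B ω i <;> simp [addT]

theorem out_le {m : M β} {F : β → ℕ → ℝ} {p c : ℝ} (h : ∀ b t, F b t ≤ c) (hp : p ≤ c)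
    (ω : ℕ → Bool) (i : ℕ) : out B m F p ω i ≤ c := by
  unfold out
  split
  · exact h _ _
  · exact hp

theorem sum_flip {T : ℕ} (i : Fin T) (g : Bool → (Fin T → Bool) → ℝ)
    (hg : ∀ x ω y, g x (Function.update ω i y) = g x ω) :
    ∑ ω : Fin T → Bool, g (ω i) ω = (∑ ω, g true ω + ∑ ω, g false ω) / 2 := by
  have hinv : Function.Involutive fun ω : Fin T → Bool => Function.update ω i (!ω i) := by
    intro ω
    simp
  have h1 : ∑ ω : Fin T → Bool, g (ω i) ω = ∑ ω : Fin T → Bool, g (!ω i) ω := by
    rw [← Equiv.sum_comp hinv.toPerm]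
    refine Finset.sum_congr rfl fun ω _ => ?_
    simp [hg]
  have h2 : ∑ ω : Fin T → Bool, g (ω i) ω + ∑ ω : Fin T → Bool, g (!ω i) ω =
      ∑ ω, g true ω + ∑ ω, g false ω := by
    rw [← Finset.sum_add_distrib, ← Finset.sum_add_distrib]
    refine Finset.sum_congr rfl fun ω _ => ?_
    cases ω i <;> simp [add_comm]
  linarith

/-- The average over all sequences of `T` bits is at most the expectation, if late results get
the maximal value `c`. -/
theorem sum_out_le (T : ℕ) (m : M β) {F : β → ℕ → ℝ} {c : ℝ} (i : ℕ) (h : ∀ b t, F b t ≤ c)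
    (hT : ∀ b t, T < i + t → F b t = c) :
    ∑ ω : Fin T → Bool, out B m F c (extend ω) i ≤ 2 ^ T * wp B m F c := by
  induction m generalizing F i with
  | ret b => simp [out, M.run]
  | coin k ih =>
    by_cases hi : i < T
    · have e1 : ∀ ω : Fin T → Bool, out B (.coin k) F c (extend ω) i =
          (fun x ω => out B (k x) (fun b t => F b (t + 1)) c (extend ω) (i + 1)) (ω ⟨i, hi⟩) ω := by
        intro ω
        rw [out_coin]
        simp [extend, hi]
      simp only [e1]
      rw [sum_flip ⟨i, hi⟩
        (fun x ω => out B (k x) (fun b t => F b (t + 1)) c (extend ω) (i + 1))]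
      · have h1 := ih true (F := fun b t => F b (t + 1)) (i + 1) (fun b t => h b _)
          (fun b t ht => hT b _ (by omega))
        have h2 := ih false (F := fun b t => F b (t + 1)) (i + 1) (fun b t => h b _)
          (fun b t ht => hT b _ (by omega))
        simp only [wp_coin]
        linarith
      · intro x ω y
        unfold out
        rw [run_congr (k x) (ω' := extend ω)]
        intro j hj
        unfold extend
        split_ifs with hjT
        · rw [Function.update_of_ne]
          intro he
          have := congrArg Fin.val he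
          simp at this
          omega
        · rfl
    · have e : wp B (.coin k) F c = c := by
        have : (fun b t => F b (t + 1)) = fun _ _ => c :=
          funext fun b => funext fun t => hT b _ (by omega)
        simp [this]
      rw [e]
      calc _ ≤ ∑ _ω : Fin T → Bool, c := Finset.sum_le_sum fun ω _ => out_le h le_rfl _ _
        _ = _ := by simp
  | tick k ih =>
    simp only [out_tick, wp_tick]
    exact ih i (fun b t => h b _) (fun b t ht => hT b _ (by omega))
  | need n k ih =>
    by_cases hn : n ≤ B
    · have : ∀ ω, out B (.need n k) F c ω i = out B k F c ω i := fun ω => by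
        simp [out, M.run, hn]
      simp only [this, wp_need, if_pos hn]
      exact ih i h hT
    · have : ∀ ω, out B (.need n k) F c ω i = c := fun ω => by simp [out, M.run, hn]
      simp [this, hn]
  | fail => simp [out, M.run]

/-- **Counting link.** If the probability of failing, of a bad result or of more than `T₀ ≤ T`
ticks is small, most sequences of `T` bits give a good result within `T₀` ticks. -/
theorem card_good_ge (m : M β) (Good : β → ℕ → Prop) {T₀ T : ℕ} (hT : T₀ ≤ T) :
    2 ^ T * (1 - pr B m fun b t => ¬ (Good b t ∧ t ≤ T₀)) ≤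
      (Nat.card {ω : Fin T → Bool // ∃ b i t, m.run B (extend ω) 0 = some (b, i, t) ∧
        Good b t ∧ t ≤ T₀} : ℝ) := by
  classical
  have h1 := sum_out_le (B := B) T m (F := fun b t => if ¬ (Good b t ∧ t ≤ T₀) then 1 else 0)
    (c := 1) 0 (fun b t => by split_ifs <;> norm_num)
    (fun b t ht => if_pos fun h => by omega)
  have h2 : (Nat.card {ω : Fin T → Bool // ∃ b i t, m.run B (extend ω) 0 = some (b, i, t) ∧
        Good b t ∧ t ≤ T₀} : ℝ) = ∑ ω : Fin T → Bool, (1 - out B m
          (fun b t => if ¬ (Good b t ∧ t ≤ T₀) then 1 else 0) 1 (extend ω) 0) := by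
    rw [Nat.card_eq_fintype_card, Fintype.card_subtype, Finset.card_filter]
    push_cast
    refine Finset.sum_congr rfl fun ω _ => ?_
    unfold out
    rcases hr : m.run B (extend ω) 0 with _ | ⟨b, i, t⟩
    · simp
    · by_cases hg : Good b t ∧ t ≤ T₀
      · rw [if_pos ⟨b, i, t, rfl, hg⟩]
        simp [hg]
      · rw [if_neg]
        · simp only [if_pos hg, sub_self]
        · rintro ⟨b', i', t', he, hg'⟩
          simp only [Option.some.injEq, Prod.mk.injEq] at he
          obtain ⟨rfl, rfl, rfl⟩ := he
          exact hg hg'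
  rw [h2, Finset.sum_sub_distrib]
  have h3 : pr B m (fun b t => ¬ (Good b t ∧ t ≤ T₀)) =
      wp B m (fun b t => if ¬ (Good b t ∧ t ≤ T₀) then 1 else 0) 1 := by
    unfold pr
    congr 1
    funext b t
    congr
  rw [h3]
  simp only [Finset.sum_const, Finset.card_univ, Fintype.card_fun, Fintype.card_bool,
    Fintype.card_fin, nsmul_eq_mul, mul_one]
  push_cast
  linarith

/-- The form needed for `RandSolves`: failure probability at most `1 / 3`. -/
theorem two_thirds (m : M β) (Good : β → ℕ → Prop) {T₀ T : ℕ} (hT : T₀ ≤ T)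
    (h : pr B m (fun b t => ¬ (Good b t ∧ t ≤ T₀)) ≤ 1 / 3) :
    2 * 2 ^ T ≤ 3 * Nat.card {ω : Fin T → Bool // ∃ b i t,
      m.run B (extend ω) 0 = some (b, i, t) ∧ Good b t ∧ t ≤ T₀} := by
  have h1 := card_good_ge (B := B) m Good hT
  have h2 : (0 : ℝ) < 2 ^ T := by positivity
  have h3 : (2 : ℝ) * 2 ^ T ≤ 3 * (Nat.card {ω : Fin T → Bool // ∃ b i t,
      m.run B (extend ω) 0 = some (b, i, t) ∧ Good b t ∧ t ≤ T₀} : ℝ) := by nlinarith
  exact_mod_cast h3

end Vale.Agent.P305E
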