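import Vale.Agent.P305E.Fuel
import Vale.Agent.P305E.RamMain
import Vale.Agent.P305E.WpCount

/-!
# Engine: from computations `M` to programs of the randomized word RAM
-/

namespace Vale.Agent.P305E

open Vale.Agent.P305 Vale.Agent.P305.MM

/-- A safe program of the language `C` runs on the word RAM. -/
theorem ram_of_C (c : C) (k1 : ℕ) (A : ℕ → ℕ → ℕ)
    (hsafe : ∀ (n : ℕ) (G : SimpleGraph (Fin n)) (L : AdjLists G) (ω : ℕ → Bool),
      Safe ⟨L.encode, ω⟩ ((n + G.edgeSet.ncard + 2) ^ k1) c St.init ∧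
      cost ⟨L.encode, ω⟩ c St.init ≤ A n G.edgeSet.ncard) :
    ∃ (P : RProg) (C0 k : ℕ), ∀ (n : ℕ) (G : SimpleGraph (Fin n)) (L : AdjLists G) (ω : ℕ → Bool),
      ∃ (t : ℕ) (s : State) (i : ℕ),
        RExec ((n + G.edgeSet.ncard + 2) ^ k) ω P (State.init L.encode) 0 t s i ∧
        t ≤ C0 * A n G.edgeSet.ncard + 5 * n + 13 ∧
        ∀ x < n, s.mem x = (run ⟨L.encode, ω⟩ c St.init).a 0 x := by
  obtain ⟨K, κ, C0, p, hK1, hp⟩ := compile_correct c
  refine ⟨.seq prologue (.seq p (epilogue K)), C0, (k1 + 2) * κ + K + 3, ?_⟩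
  intro n G L ω
  obtain ⟨N, hN⟩ : ∃ N, N = n + G.edgeSet.ncard + 2 := ⟨_, rfl⟩
  rw [← hN]
  have hN2 : 2 ≤ N := by omega
  have hN0 : 0 < N := by omega
  obtain ⟨b, hb⟩ : ∃ b, b = L.encode.length := ⟨_, rfl⟩
  have hlen : b = n + 2 + 2 * G.edgeSet.ncard := by
    rw [hb, IO.encode_length, IO.upTo_length]
  have hsq : 2 * N ≤ N ^ 2 := by rw [pow_two]; exact Nat.mul_le_mul_right _ hN2
  have hcap2 : N ^ 2 ≤ N ^ (k1 + 2) := Nat.pow_le_pow_right hN0 (by omega)
  have hWκ : (N ^ (k1 + 2)) ^ κ ≤ N ^ ((k1 + 2) * κ + K + 3) := by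
    rw [← pow_mul]
    exact Nat.pow_le_pow_right hN0 (by omega)
  have hKN : K ≤ N ^ K := (Nat.lt_pow_self (by omega : 1 < N)).le
  have hW3 : N ^ (K + 3) ≤ N ^ ((k1 + 2) * κ + K + 3) :=
    Nat.pow_le_pow_right hN0 (by omega)
  have hWbig : b + K * n ≤ N ^ ((k1 + 2) * κ + K + 3) := by
    refine le_trans ?_ hW3
    have h1 : K * n ≤ N ^ K * N := Nat.mul_le_mul hKN (by omega)
    have h2 : 1 ≤ N ^ K := Nat.one_le_pow _ _ hN0
    have h3 : 2 * N ≤ N ^ K * (2 * N) := Nat.le_mul_of_pos_left _ h2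
    calc b + K * n ≤ N ^ K * (2 * N) + N ^ K * N := by omega
      _ = N ^ K * (3 * N) := by ring
      _ ≤ N ^ K * (N ^ 3) := by
          apply Nat.mul_le_mul_left
          calc 3 * N ≤ (N * N) * N := Nat.mul_le_mul_right _ (by nlinarith)
            _ = N ^ 3 := by ring
      _ = N ^ (K + 3) := by rw [pow_add]
  have hWK : K ≤ N ^ ((k1 + 2) * κ + K + 3) :=
    hKN.trans (Nat.pow_le_pow_right hN0 (by omega))
  obtain ⟨W, hW⟩ : ∃ W, W = N ^ ((k1 + 2) * κ + K + 3) := ⟨_, rfl⟩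
  rw [← hW] at hWκ hWbig hWK ⊢
  have hW1 : 1 ≤ W := by rw [hW]; exact Nat.one_le_pow _ _ hN0
  -- prologue
  have hoff : (State.init L.encode).mem (n + 1) = 2 * G.edgeSet.ncard := by
    show L.encode.getD (n + 1) 0 = _
    rw [IO.encode_off L le_rfl, IO.upTo_length]
  obtain ⟨S1, x1, m1, r1, f1⟩ := prologue_exec (W := W) (ω := ω) (State.init L.encode) 0
    (show (State.init L.encode).mem 0 = n from IO.encode_zero L) hoff (by omega)
  -- the compiled program
  have hsim : Sim (L.encode.length) K ⟨L.encode, ω⟩ St.init S1 := by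
    refine ⟨?_, ?_, ?_, ?_⟩
    · rw [r1, ← hb, hlen]
    · intro x
      rw [f1 _ (by omega)]
      rfl
    · intro j _ i
      rw [m1]
      show L.encode.getD _ 0 = 0
      exact List.getD_eq_default _ _ (by omega)
    · intro i _
      rw [m1]
      rfl
  have hs := hsafe n G L ω
  rw [← hN] at hs
  obtain ⟨t2, S2, i2, x2, ht2, hS2, hB2, hi2⟩ := hp ⟨L.encode, ω⟩ (N ^ (k1 + 2)) W St.init S1
    (by omega)
    (by
      show L.encode.length ≤ _
      omega)
    (by
      intro i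
      have := IO.encode_le L i
      show L.encode.getD i 0 ≤ _
      omega)
    hWκ hsim ⟨fun x => Nat.zero_le _, fun j i => Nat.zero_le _⟩
    (Safe.mono (Nat.pow_le_pow_right hN0 (by omega)) hs.1)
  -- epilogue
  obtain ⟨S3, x3, f3⟩ := epilogue_exec (W := W) (b := b) (K := K) (n := n) (ω := ω)
    ((run ⟨L.encode, ω⟩ c St.init).a 0) (by omega) hWbig hWK hW1 S2 i2
    (by rw [hS2.base, hb])
    (by
      have h00 : 0 < L.encode.length := by omega
      rw [hS2.inp 0 h00]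
      exact IO.encode_zero L)
    (by
      intro x
      have := hS2.arr 0 (by omega) x
      rw [← hb, Nat.add_zero] at this
      exact this)
  refine ⟨_, S3, i2, .seq _ _ _ _ _ _ _ _ _ _ x1 (.seq _ _ _ _ _ _ _ _ _ _ x2 x3), ?_, f3⟩
  have h5 : C0 * cost ⟨L.encode, ω⟩ c St.init ≤ C0 * A n G.edgeSet.ncard :=
    Nat.mul_le_mul_left _ hs.2
  omega

theorem M.run_mono {β : Type} {B B' : ℕ} (hB : B ≤ B') {ω : ℕ → Bool} (m : M β) {i : ℕ}
    {r : β × ℕ × ℕ} (h : m.run B ω i = some r) : m.run B' ω i = some r := by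
  induction m generalizing i r with
  | ret b => exact h
  | coin k ih =>
    simp only [M.run, Option.map_eq_some_iff] at h ⊢
    obtain ⟨r', h1, h2⟩ := h
    exact ⟨r', ih _ h1, h2⟩
  | tick k ih =>
    simp only [M.run, Option.map_eq_some_iff] at h ⊢
    obtain ⟨r', h1, h2⟩ := h
    exact ⟨r', ih h1, h2⟩
  | need n k ih =>
    simp only [M.run] at h ⊢
    split_ifs at h with hn
    rw [if_pos (hn.trans hB)]
    exact ih h
  | fail => exact h

theorem R_ofList {B : ℕ} : ∀ {l : List ℕ}, (∀ x ∈ l, x ≤ B) → R B (V.ofList l) l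
  | [], _ => rfl
  | a :: l, h => ⟨_, _, rfl, ⟨rfl, h a (by simp)⟩, R_ofList fun x hx => h x (by simp [hx])⟩

theorem eq_ofList_of_R {B : ℕ} : ∀ {l : List ℕ} {v : V}, R B v l → v = V.ofList l
  | [], _, h => h
  | _ :: _, _, ⟨_, _, e, h1, h2⟩ => by rw [e, h1.1, eq_ofList_of_R h2]; rfl

/-- **Top theorem.** A computation with code that finds a maximum matching with probability at
least `2 / 3` within `N * g N` ticks (`N = n + m + 2`, `g` subpolynomial) on words `≤ N ^ a` gives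
an almost-linear randomized program. -/
theorem top (Cl : ∀ n : ℕ, SimpleGraph (Fin n) → Prop) (main : List ℕ → M (List ℕ))
    (hI : Impl main) (a : ℕ) (g : ℕ → ℕ) (hg : Sub g)
    (h : ∀ (n : ℕ) (G : SimpleGraph (Fin n)), Cl n G → ∀ L : AdjLists G,
      pr ((n + G.edgeSet.ncard + 2) ^ a) (main L.encode) (fun out t =>
        ¬ ((∃ M : G.Subgraph, IsMaximumMatching G M ∧ Represents (fun i => out.getD i 0) M) ∧
          t ≤ (n + G.edgeSet.ncard + 2) * g (n + G.edgeSet.ncard + 2))) ≤ 1 / 3) :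
    ∃ (P : RProg) (T : ℕ → ℕ → ℕ), AlmostLin T ∧ RandSolvesOn Cl P T := by
  obtain ⟨e, j, he⟩ := hI
  obtain ⟨c, hc⟩ := (((Sub.const 3).mul ((Sub.lg_pow (a + j + 2)).pow j)).mul
    (hg.add (Sub.const 1))).exists_lin
  obtain ⟨kf, ef, jf, hf⟩ := grow_fuelF c
  have hsub : Sub fun N => 2 ^ (c * sb N) := Sub.two_pow (Lin.sb.const_mul c)
  obtain ⟨jw, hjw⟩ : ∃ jw, jw = (a + j + 2) * j + (jf + 1) * jf + (c + 1) := ⟨_, rfl⟩
  obtain ⟨cC, k1, K, hC⟩ := ram_of_Ex ef e jw (3 * (8 * ((jf + 1) * jf) ^ ((jf + 1) * jf)))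
    (fuelF c) fun N hN => by
      refine ⟨?_, fun ω => ?_⟩
      · calc fuelF c N = N * (2 ^ sb N) ^ c := by rw [fuelF, ← pow_mul, mul_comm c]
          _ ≤ N * N ^ c := Nat.mul_le_mul_left _ (Nat.pow_le_pow_left (two_pow_sb_le hN) _)
          _ = N ^ (c + 1) := by ring
          _ ≤ N ^ jw := Nat.pow_le_pow_right (by omega) (by omega)
      · have h1 : N ≤ N ^ (jf + 1) := Nat.le_self_pow (by omega) _
        have h2 : jf + 1 < N ^ (jf + 1) := Nat.lt_pow_self (by omega)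
        obtain ⟨v', t, g1, g2, g3⟩ := hf (N ^ (jf + 1)) (N ^ jw)
          ⟨by omega, by omega, by rw [← pow_mul]; exact Nat.pow_le_pow_right (by omega) (by omega)⟩
          (.nat N) N ⟨rfl, h1⟩ ω 0
        refine ⟨t, g2.1 ▸ g1, ?_⟩
        have h3 : t ≤ lg N ^ ((jf + 1) * jf) := by
          rw [pow_mul]
          exact g3.trans (Nat.pow_le_pow_left (lg_pow_le N jf) _)
        have h4 := lg_pow_le_lin ((jf + 1) * jf) (x := N) (by omega)
        rw [mul_assoc]
        omega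
  obtain ⟨P, C0, k, hP⟩ := ram_of_C cC k1 (fun n m => K * (fuelF c (n + m + 2) + (n + m + 2)))
    fun n G L ω => ⟨(hC n G L ω).1, (hC n G L ω).2.1⟩
  refine ⟨P, fun n m => (C0 + 1) * (K + 1) * (fuelF c (n + m + 2) + (n + m + 2)) + 5 * n + 13,
    (((Sub.const ((C0 + 1) * (K + 1))).mul (hsub.add (Sub.const 1))).add (Sub.const 12)).almostLin
      fun n m => ?_, k, fun n G L => ⟨fun ω => ?_, fun hCl B hB => ?_⟩⟩
  · unfold fuelF
    nlinarith [Nat.zero_le m]
  · obtain ⟨t, s, i, h1, h2, -⟩ := hP n G L ω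
    refine ⟨t, s, i, h1, h2.trans ?_⟩
    beta_reduce
    generalize fuelF c (n + G.edgeSet.ncard + 2) + (n + G.edgeSet.ncard + 2) = X
    nlinarith [Nat.zero_le (C0 * X), Nat.zero_le (K * X)]
  · obtain ⟨N, hN⟩ : ∃ N, N = n + G.edgeSet.ncard + 2 := ⟨_, rfl⟩
    have hN2 : 2 ≤ N := by omega
    have hcN := hc N hN2
    have hlg := one_le_lg_pow (N ^ (a + j + 2)) j
    have hfu : 3 * (lg (N ^ (a + j + 2)) ^ j * (N * g N + 1)) ≤ fuelF c N := by
      refine le_trans ?_ (Nat.mul_le_mul_left N hcN)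
      have : N * g N + 1 ≤ N * (g N + 1) := by nlinarith
      calc _ ≤ 3 * (lg (N ^ (a + j + 2)) ^ j * (N * (g N + 1))) :=
            Nat.mul_le_mul_left _ (Nat.mul_le_mul_left _ this)
        _ = _ := by ring
    have hTB : N * g N ≤ B := by
      beta_reduce at hB
      rw [← hN] at hB
      have h1 : N * g N + 1 ≤ lg (N ^ (a + j + 2)) ^ j * (N * g N + 1) :=
        Nat.le_mul_of_pos_left _ hlg
      have h2 : fuelF c N + N ≤ (C0 + 1) * (K + 1) * (fuelF c N + N) :=
        Nat.le_mul_of_pos_left _ (by positivity)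
      omega
    have h23 := two_thirds (B := N ^ a) (main L.encode) (fun out _ => ∃ M : G.Subgraph,
      IsMaximumMatching G M ∧ Represents (fun i => out.getD i 0) M) hTB
      (by rw [hN]; exact h n G hCl L)
    refine h23.trans (Nat.mul_le_mul_left _ (Nat.card_le_card_of_injective
      (Subtype.map id fun ω hω => ?_) (Subtype.map_injective _ Function.injective_id)))
    obtain ⟨out, i, t, hr, ⟨M, hM, hrep⟩, ht⟩ := hω
    obtain ⟨t', s, i', h1, -, h3⟩ := hP n G L (extend ω)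
    refine ⟨t', s, i', M, h1, hM, fun v => ?_⟩
    have hB2 : N ^ 2 ≤ N ^ (a + j + 2) := Nat.pow_le_pow_right (by omega) (by omega)
    have hsq : 2 * N ≤ N ^ 2 := by rw [pow_two]; exact Nat.mul_le_mul_right _ hN2
    have hj : a + j + 2 < N ^ (a + j + 2) := Nat.lt_pow_self (by omega)
    obtain ⟨v', steps, g1, g2, g3⟩ := he (N ^ (a + j + 2)) (N ^ jw)
      ⟨by omega, by omega, by rw [← pow_mul]; exact Nat.pow_le_pow_right (by omega) (by omega)⟩
      (V.ofList L.encode) L.encode (R_ofList fun x hx => by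
        obtain ⟨y, hy, rfl⟩ := List.getElem_of_mem hx
        have := IO.encode_le L y
        rw [List.getD_eq_getElem _ _ hy] at this
        omega) (extend ω) 0 out i t
      ((main L.encode).run_mono (Nat.pow_le_pow_right (by omega) (by omega)) hr)
    rw [eq_ofList_of_R g2] at g1
    have h4 := (hC n G L (extend ω)).2.2 steps out i (hN ▸ g1) (by
      rw [← hN]
      refine le_trans (Nat.mul_le_mul_left _ (g3.trans (Nat.mul_le_mul_left _ ?_))) hfu
      omega) v v.2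
    rw [h3 v v.2, h4]
    exact hrep v

/-- The top theorem for all graphs. -/
theorem top_all (main : List ℕ → M (List ℕ)) (hI : Impl main) (a : ℕ) (g : ℕ → ℕ) (hg : Sub g)
    (h : ∀ (n : ℕ) (G : SimpleGraph (Fin n)) (L : AdjLists G),
      pr ((n + G.edgeSet.ncard + 2) ^ a) (main L.encode) (fun out t =>
        ¬ ((∃ M : G.Subgraph, IsMaximumMatching G M ∧ Represents (fun i => out.getD i 0) M) ∧
          t ≤ (n + G.edgeSet.ncard + 2) * g (n + G.edgeSet.ncard + 2))) ≤ 1 / 3) :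
    ∃ (P : RProg) (T : ℕ → ℕ → ℕ), AlmostLin T ∧ RandSolves P T := by
  obtain ⟨P, T, h1, h2⟩ := top (fun _ _ => True) main hI a g hg fun n G _ L => h n G L
  exact ⟨P, T, h1, (randSolvesOn_true P T).1 h2⟩

end Vale.Agent.P305E
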